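import Vale.Agent.Lib.P209.Layered

open Real Matrix

namespace Vale.Agent.Lib.P209

variable {n : ℕ}

/-- Cut a block of given total weight from a sequence. -/
lemma exists_block (v : ℕ → ℝ) (w c : ℝ) (hc : 0 ≤ c) (M : ℕ) :
    ∀ m, (∀ i, M ≤ i → i < M + m → v i ≤ w) →
      ∃ m₁, m₁ ≤ m ∧ ∑ i ∈ Finset.Ico M (M + m₁), v i ≤ c ∧
        (m₁ = m ∨ c - w < ∑ i ∈ Finset.Ico M (M + m₁), v i) := by
  intro m
  induction m with
  | zero =>
    intro _
    exact ⟨0, le_rfl, by simpa using hc, Or.inl rfl⟩
  | succ m ih =>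
    intro hv
    obtain ⟨m₁, h1, h2, h3⟩ := ih (fun i hi hi2 => hv i hi (by omega))
    rcases h3 with h3 | h3
    · subst h3
      by_cases h4 : ∑ i ∈ Finset.Ico M (M + (m₁ + 1)), v i ≤ c
      · exact ⟨m₁ + 1, le_rfl, h4, Or.inl rfl⟩
      · refine ⟨m₁, by omega, h2, Or.inr ?_⟩
        push Not at h4
        rw [← add_assoc, Finset.sum_Ico_succ_top (by omega)] at h4
        have := hv (M + m₁) (by omega) (by omega)
        linarith
    · exact ⟨m₁, by omega, h2, Or.inr h3⟩

/-- Greedy distribution of items in bins. -/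
theorem greedy {β : Type*} {r : ℕ → ℝ} {w : ℝ} {S : β → Set (Fin n → ℝ)} {J : β → Set ℕ}
    {c : β → ℝ} {K k : ℕ} (hw : 0 ≤ w)
    (hv : ∀ i, K ≤ i → i < k → 0 < r i ^ n ∧ r i ^ n ≤ w)
    (bins : Finset β)
    (hdis : ∀ b ∈ bins, ∀ b' ∈ bins, b ≠ b' → Disjoint (S b) (S b'))
    (hJ : ∀ b ∈ bins, Fits n r (J b) (S b))
    (hc : ∀ b ∈ bins, ∀ M m, K ≤ M → M + m ≤ k → ∑ i ∈ Finset.Ico M (M + m), r i ^ n ≤ c b →
      Fits n r (J b ∪ Set.Ico M (M + m)) (S b)) :
    ∀ M m, K ≤ M → M + m ≤ k →
      ∑ i ∈ Finset.Ico M (M + m), r i ^ n ≤ ∑ b ∈ bins, max (c b - w) 0 →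
      Fits n r ((⋃ b ∈ bins, J b) ∪ Set.Ico M (M + m)) (⋃ b ∈ bins, S b) := by
  classical
  induction bins using Finset.induction_on with
  | empty =>
    intro M m hM hm hsum
    rcases Nat.eq_zero_or_pos m with h | h
    · subst h
      simpa using Fits.empty r _
    · exfalso
      have h1 : 0 < ∑ i ∈ Finset.Ico M (M + m), r i ^ n := by
        apply Finset.sum_pos
        · intro i hi
          have h2 := Finset.mem_Ico.1 hi
          exact (hv i (by omega) (by omega)).1
        · exact ⟨M, Finset.mem_Ico.2 ⟨le_rfl, by omega⟩⟩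
      simp only [Finset.sum_empty] at hsum
      linarith
  | insert b s hb ih =>
    intro M m hM hm hsum
    rw [Finset.sum_insert hb] at hsum
    have hdis' : ∀ a ∈ s, ∀ a' ∈ s, a ≠ a' → Disjoint (S a) (S a') := fun a ha a' ha' =>
      hdis a (Finset.mem_insert_of_mem ha) a' (Finset.mem_insert_of_mem ha')
    have ih' := ih hdis' (fun a ha => hJ a (Finset.mem_insert_of_mem ha))
      (fun a ha => hc a (Finset.mem_insert_of_mem ha))
    have hrest : Disjoint (S b) (⋃ a ∈ s, S a) := by
      rw [Set.disjoint_iUnion₂_right]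
      intro a ha
      exact hdis b (Finset.mem_insert_self _ _) a (Finset.mem_insert_of_mem ha)
        (fun e => hb (e ▸ ha))
    by_cases hcb : c b - w ≤ 0
    · rw [max_eq_right hcb, zero_add] at hsum
      have h1 := ih' M m hM hm hsum
      have h2 := hJ b (Finset.mem_insert_self _ _)
      have h3 := Fits.union h2 h1 hrest
      apply h3.mono
      · intro i hi
        simp only [Finset.set_biUnion_insert] at hi
        rcases hi with hi | hi
        · rcases hi with hi | hi
          · exact Or.inl hi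
          · exact Or.inr (Or.inl hi)
        · exact Or.inr (Or.inr hi)
      · intro x hx
        simpa [Finset.set_biUnion_insert] using hx
    · push Not at hcb
      rw [max_eq_left hcb.le] at hsum
      obtain ⟨m₁, h1, h2, h3⟩ := exists_block (fun i => r i ^ n) w (c b) (by linarith) M m
        (fun i hi hi2 => (hv i (by omega) (by omega)).2)
      have hsplit : ∑ i ∈ Finset.Ico M (M + m), r i ^ n
          = ∑ i ∈ Finset.Ico M (M + m₁), r i ^ n + ∑ i ∈ Finset.Ico (M + m₁) (M + m), r i ^ n :=
        (Finset.sum_Ico_consecutive _ (by omega) (by omega)).symm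
      have hrestsum : ∑ i ∈ Finset.Ico (M + m₁) (M + m₁ + (m - m₁)), r i ^ n
          ≤ ∑ a ∈ s, max (c a - w) 0 := by
        have he : M + m₁ + (m - m₁) = M + m := by omega
        rw [he]
        rcases h3 with h3 | h3
        · subst h3
          simp only [Finset.Ico_self, Finset.sum_empty]
          exact Finset.sum_nonneg fun a _ => le_max_right _ _
        · linarith
      have h4 := ih' (M + m₁) (m - m₁) (by omega) (by omega) hrestsum
      have h5 := hc b (Finset.mem_insert_self _ _) M m₁ hM (by omega) h2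
      have h6 := Fits.union h5 h4 hrest
      apply h6.mono
      · intro i hi
        simp only [Finset.set_biUnion_insert] at hi
        rcases hi with hi | hi
        · rcases hi with hi | hi
          · exact Or.inl (Or.inl hi)
          · exact Or.inr (Or.inl hi)
        · by_cases h7 : i < M + m₁
          · exact Or.inl (Or.inr ⟨hi.1, h7⟩)
          · exact Or.inr (Or.inr ⟨by omega, by
              have := hi.2
              omega⟩)
      · intro x hx
        simpa [Finset.set_biUnion_insert] using hx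

/-- Items in one bin: a reserved corner and a layered shell. -/
lemma bin_fits (h0 : 0 < n) {r : ℕ → ℝ} {x σ τ : ℝ} {I : Set ℕ} (c : Cell n)
    (hσ : 0 ≤ σ) (hστ : σ ≤ τ) (hI : Fits n r I (openSimplex n σ)) {K k : ℕ}
    (hitems : ∀ i, K ≤ i → i < k → 0 < r i ∧ r i ≤ x)
    (hanti : ∀ i j, K ≤ i → i ≤ j → j < k → r j ≤ r i) (M m : ℕ) (hM : K ≤ M) (hm : M + m ≤ k)
    (hsum : ∑ i ∈ Finset.Ico M (M + m), r i ^ n ≤ (max (τ - n * x) 0) ^ n - σ ^ n) :
    Fits n r (I ∪ Set.Ico M (M + m)) (c.act '' openSimplex n τ) := by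
  have h1 : Fits n r (Set.Ico M (M + m)) (shell n σ τ) := by
    rcases Nat.eq_zero_or_pos m with h | h
    · subst h
      simpa using Fits.empty r _
    · have hM1 : M < M + m := by omega
      have hpos : 0 < ∑ i ∈ Finset.Ico M (M + m), r i ^ n := by
        apply Finset.sum_pos
        · intro i hi
          have h2 := Finset.mem_Ico.1 hi
          have := (hitems i (by omega) (by omega)).1
          positivity
        · exact ⟨M, Finset.mem_Ico.2 ⟨le_rfl, hM1⟩⟩
      have hσn : 0 ≤ σ ^ n := by positivity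
      have hmaxp : 0 < (max (τ - n * x) 0) ^ n := by linarith
      have hmax : 0 < max (τ - n * x) 0 := by
        rcases (le_max_right (τ - n * x) 0).lt_or_eq with h2 | h2
        · exact h2
        · rw [← h2, zero_pow h0.ne'] at hmaxp
          exact absurd hmaxp (lt_irrefl _)
      have hτ : 0 < τ - n * x := by
        rcases lt_max_iff.1 hmax with h2 | h2
        · exact h2
        · exact absurd h2 (lt_irrefl _)
      rw [max_eq_left hτ.le] at hsum
      have hrM : r M ≤ x := (hitems M hM (by omega)).2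
      have hnn : (0 : ℝ) ≤ n := Nat.cast_nonneg _
      have hge : τ - n * x ≤ τ - n * r M := by nlinarith
      apply layered h0 r σ hσ m M τ
      · intro i hi hi2
        exact (hitems i (by omega) (by omega)).1
      · intro i j hi hij hj
        exact hanti i j (by omega) hij (by omega)
      · linarith
      · have := pow_le_pow_left₀ hτ.le hge n
        linarith
  have hdisj : Disjoint (openSimplex n σ) (shell n σ τ) := by
    rw [Set.disjoint_left]
    intro y hy hy'
    have h2 := hy.2
    have h3 := hy'.2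
    linarith
  have h2 := (Fits.union hI h1 hdisj).map c
  apply h2.mono subset_rfl
  apply Set.image_mono
  intro y hy
  rcases hy with hy | hy
  · exact ⟨hy.1, hy.2.trans_le hστ⟩
  · exact hy.1

/-- Putting the bins together. -/
theorem assemble {β : Type*} (h0 : 0 < n) {r : ℕ → ℝ} {x R : ℝ} {K k : ℕ} (bins : Finset β)
    (cell : β → Cell n) (τ σ : β → ℝ) (J : β → Set ℕ)
    (hσ0 : ∀ b ∈ bins, 0 ≤ σ b) (hστ : ∀ b ∈ bins, σ b ≤ τ b)
    (hJ : ∀ b ∈ bins, Fits n r (J b) (openSimplex n (σ b)))
    (hdis : ∀ b ∈ bins, ∀ b' ∈ bins, b ≠ b' →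
      Disjoint ((cell b).act '' openSimplex n (τ b)) ((cell b').act '' openSimplex n (τ b')))
    (hsub : ∀ b ∈ bins, (cell b).act '' openSimplex n (τ b) ⊆ openSimplex n R)
    (hitems : ∀ i, K ≤ i → i < k → 0 < r i ∧ r i ≤ x)
    (hanti : ∀ i j, K ≤ i → i ≤ j → j < k → r j ≤ r i) (hKk : K ≤ k)
    (hcover : ∀ i, i < K → ∃ b ∈ bins, i ∈ J b) (hx : 0 ≤ x)
    (htot : ∑ i ∈ Finset.Ico K k, r i ^ n
      ≤ ∑ b ∈ bins, max ((max (τ b - n * x) 0) ^ n - σ b ^ n - x ^ n) 0) :
    Fits n r (Set.Iio k) (openSimplex n R) := by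
  have hv : ∀ i, K ≤ i → i < k → 0 < r i ^ n ∧ r i ^ n ≤ x ^ n := by
    intro i hi hi2
    have := hitems i hi hi2
    exact ⟨pow_pos this.1 _, pow_le_pow_left₀ this.1.le this.2 _⟩
  have h1 := greedy (S := fun b => (cell b).act '' openSimplex n (τ b)) (J := J)
    (c := fun b => (max (τ b - n * x) 0) ^ n - σ b ^ n) (K := K) (k := k)
    (by positivity : (0 : ℝ) ≤ x ^ n) hv bins hdis ?_ ?_ K (k - K) le_rfl (by omega) ?_
  · apply h1.mono
    · intro i hi
      have hi' : i < k := hi
      by_cases h2 : i < K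
      · obtain ⟨b, hb, hib⟩ := hcover i h2
        exact Or.inl (Set.mem_biUnion hb hib)
      · exact Or.inr ⟨by omega, by omega⟩
    · intro y hy
      obtain ⟨b, hb, hyb⟩ := Set.mem_iUnion₂.1 hy
      exact hsub b hb hyb
  · intro b hb
    have h2 := (hJ b hb).map (cell b)
    apply h2.mono subset_rfl
    apply Set.image_mono
    intro y hy
    exact ⟨hy.1, hy.2.trans_le (hστ b hb)⟩
  · intro b hb M m hM hm hsum
    exact bin_fits h0 (cell b) (hσ0 b hb) (hστ b hb) (hJ b hb) hitems hanti M m hM hm hsum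
  · have he : K + (k - K) = k := by omega
    rw [he]
    exact htot

end Vale.Agent.Lib.P209
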