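import Vale.Agent.Lib.P209.Numeric

open Real Matrix

namespace Vale.Agent.Lib.P209

variable {n : ℕ}

/-- The family of fine alcoves. -/
lemma exists_fine (h0 : 0 < n) {R s t u base : ℝ} {L M : ℕ} (hML : M ≤ L) (hu : 0 < u)
    (hb0 : 0 ≤ base) (hs : s + t = R) (hMu : (M : ℝ) * u = t) (hLu : (L : ℝ) * u + base = s) :
    ∃ Fine : Finset (Fin n → ℕ), Fine.card + L ^ n + (2 * M) ^ n = (L + M) ^ n + M ^ n ∧
      ∀ f ∈ Fine, ∀ y ∈ openSimplex n u,
        (alcoveCell (ugrid base u) f).act y ∈ openSimplex n R ∧
        s ≤ ∑ j, (alcoveCell (ugrid base u) f).act y j ∧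
        (alcoveCell (ugrid base u) f).act y (lastIdx h0) < s - t := by
  classical
  let A : Finset (Fin n → ℕ) := Fintype.piFinset fun _ => Finset.range (L + M)
  let B : Finset (Fin n → ℕ) := Fintype.piFinset fun _ => Finset.range L
  let D : Finset (Fin n → ℕ) := Fintype.piFinset fun _ => Finset.Ico (L - M) (L + M)
  let E : Finset (Fin n → ℕ) := Fintype.piFinset fun _ => Finset.Ico (L - M) L
  have hBA : B ⊆ A := by
    intro f hf
    rw [Fintype.mem_piFinset] at hf ⊢
    intro p
    have := Finset.mem_range.1 (hf p)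
    exact Finset.mem_range.2 (by omega)
  have hDA : D ⊆ A := by
    intro f hf
    rw [Fintype.mem_piFinset] at hf ⊢
    intro p
    have := Finset.mem_Ico.1 (hf p)
    exact Finset.mem_range.2 (by omega)
  have hinter : B ∩ D = E := by
    ext f
    simp only [B, D, E, Finset.mem_inter, Fintype.mem_piFinset, Finset.mem_range, Finset.mem_Ico]
    constructor
    · rintro ⟨h1, h2⟩ p
      exact ⟨(h2 p).1, h1 p⟩
    · intro h
      exact ⟨fun p => (h p).2, fun p => ⟨(h p).1, by have := (h p).2; omega⟩⟩
  have hcardA : A.card = (L + M) ^ n := by simp [A, Fintype.card_piFinset]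
  have hcardB : B.card = L ^ n := by simp [B, Fintype.card_piFinset]
  have hcardD : D.card = (2 * M) ^ n := by
    simp only [D, Fintype.card_piFinset, Nat.card_Ico, Finset.prod_const, Finset.card_univ,
      Fintype.card_fin]
    congr 1
    omega
  have hcardE : E.card = M ^ n := by
    simp only [E, Fintype.card_piFinset, Nat.card_Ico, Finset.prod_const, Finset.card_univ,
      Fintype.card_fin]
    congr 1
    omega
  refine ⟨A \ (B ∪ D), ?_, ?_⟩
  · have h1 := Finset.card_sdiff_of_subset (Finset.union_subset hBA hDA)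
    have h2 := Finset.card_union_add_card_inter B D
    rw [hinter, hcardB, hcardD, hcardE] at h2
    have h3 := Finset.card_le_card (Finset.union_subset hBA hDA)
    rw [hcardA] at h1 h3
    omega
  · intro f hf y hy
    obtain ⟨h1, h2⟩ := Finset.mem_sdiff.1 hf
    have h3 : f ∉ B := fun h => h2 (Finset.mem_union_left _ h)
    have h4 : f ∉ D := fun h => h2 (Finset.mem_union_right _ h)
    have h5 : ∀ p, f p < L + M := fun p => Finset.mem_range.1 ((Fintype.mem_piFinset.1 h1) p)
    have h6 : ∃ p, L ≤ f p := by
      by_contra hc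
      push Not at hc
      exact h3 (Fintype.mem_piFinset.2 fun p => Finset.mem_range.2 (hc p))
    have h7 : ∃ p, f p < L - M := by
      by_contra hc
      push Not at hc
      exact h4 (Fintype.mem_piFinset.2 fun p => Finset.mem_Ico.2 ⟨hc p, h5 p⟩)
    obtain ⟨p, hp⟩ := h6
    obtain ⟨q, hq⟩ := h7
    refine ⟨⟨ualc_pos hb0 hu hy, ?_⟩, ?_, ?_⟩
    · have h8 := ualc_sum_lt (b := base) (f := f) (N := L + M) h0 hu hy h5
      have e : base + ((L + M : ℕ) : ℝ) * u = R := by
        push_cast
        linarith
      rwa [e] at h8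
    · have h8 := ualc_sum_gt (b := base) (f := f) (a := L) (p := p) h0 hu hy hp
      have e : base + (L : ℝ) * u = s := by linarith
      rw [e] at h8
      exact h8.le
    · have h8 := ualc_last_lt (b := base) (f := f) (a := L - M) (p := q) h0 hu hy hq
      have e : base + ((L - M : ℕ) : ℝ) * u = s - t := by
        rw [Nat.cast_sub hML]
        linarith
      rwa [e] at h8

/-- The main theorem for sorted capacities, in non-strict form. -/
theorem main_sorted (h0 : 0 < n) {r : ℕ → ℝ} {x R : ℝ} {K k : ℕ} (hR : 0 < R) (hx : 0 < x)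
    (hK : K ≤ 2 ^ n) (hKk : K ≤ k) (hpos : ∀ i, i < k → 0 < r i)
    (hanti : ∀ i j, i ≤ j → j < k → r j ≤ r i) (hsmall : ∀ i, K ≤ i → i < k → r i ≤ x)
    (h0R : 0 < k → r 0 < R) (h01 : 1 < k → r 0 + r 1 < R)
    (hvol : ∑ i ∈ Finset.range k, r i ^ n ≤ (1 - 9 * n ^ 2 * √(x / R)) * R ^ n) :
    Fits n r (Set.Iio k) (openSimplex n R) := by
  classical
  rcases Nat.eq_zero_or_pos k with hk | hk
  · subst hk
    simpa using Fits.empty r _
  set y := √(x / R) with hy
  have hy0 : 0 < y := Real.sqrt_pos.2 (div_pos hx hR)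
  have hxy : x = y ^ 2 * R := by
    rw [hy, Real.sq_sqrt (div_pos hx hR).le]
    field_simp
  have hRn : 0 < R ^ n := by positivity
  have hsum : 0 < ∑ i ∈ Finset.range k, r i ^ n := by
    apply Finset.sum_pos
    · intro i hi
      have := hpos i (Finset.mem_range.1 hi)
      positivity
    · exact ⟨0, Finset.mem_range.2 hk⟩
  have hn1 : (1 : ℝ) ≤ n := by exact_mod_cast h0
  have hcoef : 0 < 1 - 9 * (n : ℝ) ^ 2 * y := by
    by_contra hc
    push Not at hc
    have := mul_nonpos_of_nonpos_of_nonneg hc hRn.le
    linarith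
  have hy1 : y ≤ 1 / 9 := by
    have : y ≤ (n : ℝ) ^ 2 * y := by
      have : (1 : ℝ) ≤ (n : ℝ) ^ 2 := by nlinarith
      nlinarith
    linarith
  have hr0R := h0R hk
  -- the two main parameters
  set s := max (r 0) (R / 2) with hsdef
  set t := R - s with htdef
  have hs : s + t = R := by simp only [htdef]; ring
  have hsR2 : R / 2 ≤ s := le_max_right _ _
  have hr0s : r 0 ≤ s := le_max_left _ _
  have hsR : s < R := max_lt hr0R (by linarith)
  have ht : 0 < t := by simp only [htdef]; linarith
  have hts : t ≤ s := by simp only [htdef]; linarith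
  have hr1 : ∀ i, 1 ≤ i → i < K → r i ≤ t := by
    intro i hi hiK
    have hik : i < k := by omega
    have h1 : r i ≤ r 1 := hanti 1 i hi hik
    have h2 := h01 (by omega)
    by_cases h3 : r 0 ≤ R / 2
    · have h4 : s = R / 2 := max_eq_right h3
      have h5 : r 1 ≤ r 0 := hanti 0 1 (by omega) (by omega)
      simp only [htdef, h4]
      linarith
    · push Not at h3
      have h4 : s = r 0 := max_eq_left h3.le
      simp only [htdef, h4]
      linarith
  have hitems : ∀ i, K ≤ i → i < k → 0 < r i ∧ r i ≤ x :=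
    fun i hi hi2 => ⟨hpos i hi2, hsmall i hi hi2⟩
  have hanti' : ∀ i j, K ≤ i → i ≤ j → j < k → r j ≤ r i :=
    fun i j _ hij hj => hanti i j hij hj
  have hrpos : ∀ i, i < K → 0 ≤ r i := fun i hi => (hpos i (by omega)).le
  have hr0 : 0 < K → r 0 ≤ s := fun _ => hr0s
  have hyR : 0 < y * R := by positivity
  by_cases htyR : t < y * R
  · -- no fine bins
    have hnum := num_coarse h0 hR hy0.le hy1 hxy hs hts ht htyR.le
    refine main_core h0 (R := R) (s := s) (t := t) (u := 1) (bf := 0) ∅ hs ht hts one_pos ?_ hK hKk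
      hitems hanti' hr0 hr1 hrpos hx.le ?_
    · intro f hf
      simp at hf
    · simp only [Finset.card_empty, Nat.cast_zero, zero_mul, add_zero]
      linarith
  · push Not at htyR
    -- fine bins
    set M := ⌊t / (y * R)⌋₊ with hMdef
    have hM1 : 1 ≤ M := by
      apply Nat.le_floor
      rw [Nat.cast_one, one_le_div hyR]
      exact htyR
    have hM0 : (0 : ℝ) < M := by exact_mod_cast hM1
    have hM1' : (1 : ℝ) ≤ M := by exact_mod_cast hM1
    set u := t / M with hudef
    have hu0 : 0 < u := div_pos ht hM0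
    have hMu : (M : ℝ) * u = t := by
      simp only [hudef]
      field_simp
    have hu1 : y * R ≤ u := by
      have := Nat.floor_le (show 0 ≤ t / (y * R) by positivity)
      rw [← hMdef, le_div_iff₀ hyR] at this
      rw [hudef, le_div_iff₀ hM0]
      linarith
    have hu2 : u ≤ 2 * y * R := by
      have := Nat.lt_floor_add_one (t / (y * R))
      rw [← hMdef, div_lt_iff₀ hyR] at this
      rw [hudef, div_le_iff₀ hM0]
      nlinarith
    set L := ⌊s / u⌋₊ with hLdef
    have hML : M ≤ L := by
      apply Nat.le_floor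
      rw [le_div_iff₀ hu0, hMu]
      exact hts
    have hLfloor : (L : ℝ) * u ≤ s := by
      have := Nat.floor_le (show 0 ≤ s / u by positivity)
      rwa [← hLdef, le_div_iff₀ hu0] at this
    have hLfloor2 : s < ((L : ℝ) + 1) * u := by
      have := Nat.lt_floor_add_one (s / u)
      rwa [← hLdef, div_lt_iff₀ hu0] at this
    set base := s - (L : ℝ) * u with hbase
    have hLu : (L : ℝ) * u + base = s := by simp only [hbase]; ring
    have hb0 : 0 ≤ base := by simp only [hbase]; linarith
    have hbu : base ≤ u := by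
      simp only [hbase]
      nlinarith
    obtain ⟨Fine, hF, hfine⟩ := exists_fine h0 hML hu0 hb0 hs hMu hLu
    have hnum := num_fine h0 hR hy0 hy1 hxy hs hts ht hMu hLu hb0 hbu hu1 hu2 hF
    exact main_core h0 (R := R) (s := s) (t := t) (u := u) (bf := base) Fine hs ht hts hu0 hfine hK
      hKk hitems hanti' hr0 hr1 hrpos hx.le (by linarith)

/-- Counting the large balls after sorting. -/
lemma sorted_small {k : ℕ} {r : Fin k → ℝ} {x : ℝ} {σ : Equiv.Perm (Fin k)} {s : ℕ → ℝ}
    (hs : ∀ i : Fin k, s i = r (σ i)) (hanti : ∀ i j, i ≤ j → j < k → s j ≤ s i)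
    (j : ℕ) (hj : j < k) (hK : (Finset.univ.filter fun i => x < r i).card ≤ j) : s j ≤ x := by
  classical
  by_contra hc
  push Not at hc
  have h1 : (Finset.univ : Finset (Fin (j + 1))).card ≤ (Finset.univ.filter fun i => x < r i).card := by
    apply Finset.card_le_card_of_injOn (fun i => σ (Fin.castLE (by omega) i))
    · intro i _
      simp only [Finset.coe_filter, Finset.mem_univ, true_and, Set.mem_setOf_eq]
      have h2 := hs (Fin.castLE (by omega) i)
      rw [← h2]
      have hi : (i : ℕ) ≤ j := by omega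
      have h3 := hanti (i : ℕ) j hi hj
      exact hc.trans_le (by simpa using h3)
    · intro a _ b _ he
      have := σ.injective he
      exact Fin.castLE_injective _ this
  simp only [Finset.card_univ, Fintype.card_fin] at h1
  omega

/-- Main theorem: two-ball condition for at most `2 ^ n` big balls, volume condition with defect. -/
theorem main_theorem (h0 : 0 < n) {k : ℕ} (r : Fin k → ℝ) (R x : ℝ) (hR : 0 < R) (hx : 0 ≤ x)
    (hpos : ∀ i, 0 < r i) (hlt : ∀ i, r i < R) (hij : ∀ i j, i ≠ j → r i + r j < R)
    (hbig : (Finset.univ.filter fun i => x < r i).card ≤ 2 ^ n)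
    (hvol : ∑ i, r i ^ n ≤ (1 - 10 * n ^ 2 * √(x / R)) * R ^ n) :
    SymplecticPacking n r R := by
  classical
  rcases hx.eq_or_lt with hx0 | hx0
  · -- no small balls
    subst hx0
    have hk : k ≤ 2 ^ n := by
      have : (Finset.univ.filter fun i => (0 : ℝ) < r i) = Finset.univ :=
        Finset.filter_true_of_mem fun i _ => hpos i
      rw [this] at hbig
      simpa using hbig
    exact packing_le_two_pow h0 hk r R hpos hlt hij
  -- small perturbation
  have hy0 : 0 < √(x / R) := Real.sqrt_pos.2 (div_pos hx0 hR)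
  have hRn : 0 < R ^ n := by positivity
  have hn1 : (1 : ℝ) ≤ n := by exact_mod_cast h0
  have hgap : ∑ i, r i ^ n < (1 - 9 * n ^ 2 * √(x / R)) * R ^ n := by
    have h1 : (1 - 10 * (n : ℝ) ^ 2 * √(x / R)) * R ^ n < (1 - 9 * n ^ 2 * √(x / R)) * R ^ n := by
      apply mul_lt_mul_of_pos_right _ hRn
      have : 0 < (n : ℝ) ^ 2 * √(x / R) := by positivity
      linarith
    linarith
  have ev1 : ∀ᶠ η in nhds (0 : ℝ), ∑ i, (r i + η) ^ n
      < (1 - 9 * (n : ℝ) ^ 2 * √((x + η) / R)) * R ^ n := by
    apply ContinuousAt.eventually_lt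
    · fun_prop
    · fun_prop
    · simpa using hgap
  have ev2 : ∀ᶠ η in nhds (0 : ℝ), ∀ i, r i + η < R := by
    apply Filter.eventually_all.2
    intro i
    apply ContinuousAt.eventually_lt
    · fun_prop
    · fun_prop
    · simpa using hlt i
  have ev3 : ∀ᶠ η in nhds (0 : ℝ), ∀ i j, i ≠ j → (r i + η) + (r j + η) < R := by
    apply Filter.eventually_all.2
    intro i
    apply Filter.eventually_all.2
    intro j
    by_cases he : i = j
    · exact Filter.Eventually.of_forall fun _ h => absurd he h
    · have : ∀ᶠ η in nhds (0 : ℝ), (r i + η) + (r j + η) < R := by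
        apply ContinuousAt.eventually_lt
        · fun_prop
        · fun_prop
        · simpa using hij i j he
      exact this.mono fun _ h _ => h
  obtain ⟨η, ⟨h1, h2, h3⟩, hη⟩ := ((ev1.and (ev2.and ev3)).filter_mono nhdsWithin_le_nhds
    |>.and self_mem_nhdsWithin : ∀ᶠ η in nhdsWithin (0 : ℝ) (Set.Ioi 0), _ ∧ η ∈ Set.Ioi 0).exists
  have hη0 : 0 < η := hη
  obtain ⟨σ, s, hs, hanti⟩ := exists_sorted r
  apply SymplecticPacking.of_perm σ
  set K := (Finset.univ.filter fun i => x < r i).card with hKdef
  have hKk : K ≤ k := by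
    simpa using Finset.card_filter_le (Finset.univ : Finset (Fin k)) (fun i => x < r i)
  have hfits : Fits n (fun i => s i + η) (Set.Iio k) (openSimplex n R) := by
    apply main_sorted h0 (x := x + η) (K := K) hR (by linarith) hbig hKk
    · intro i hi
      have := hs ⟨i, hi⟩
      simp only at this
      rw [this]
      have := hpos (σ ⟨i, hi⟩)
      linarith
    · intro i j hij hj
      have := hanti i j hij hj
      linarith
    · intro i hi hi2
      have := sorted_small hs hanti i hi2 (by rw [← hKdef]; exact hi)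
      linarith
    · intro hk
      have := hs ⟨0, hk⟩
      simp only at this
      rw [this]
      exact h2 _
    · intro hk
      have e0 := hs ⟨0, by omega⟩
      have e1 := hs ⟨1, hk⟩
      simp only at e0 e1
      rw [e0, e1]
      apply h3
      intro he
      have := σ.injective he
      simp [Fin.ext_iff] at this
    · have e : ∑ i ∈ Finset.range k, (s i + η) ^ n = ∑ i, (r i + η) ^ n := by
        rw [Finset.sum_range]
        rw [← Equiv.sum_comp σ (fun i => (r i + η) ^ n)]
        apply Finset.sum_congr rfl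
        intro i _
        rw [hs i]
      rw [e]
      exact h1.le
  refine packing_of_fits hfits _ ?_ ?_
  · intro i
    simp only [Function.comp]
    rw [hs i]
    linarith
  · intro i
    exact hpos _

end Vale.Agent.Lib.P209
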