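import Vale.Agent.Lib.P209.Cone
import Vale.Agent.Lib.P209.MainThm

open Real Matrix

namespace Vale.Agent.Lib.P209

variable {n : ℕ}

/-- The keys of cone cells, from the binary digits of `i`. -/
def coneKey (i : ℕ) (j : Fin n) : ℕ :=
  if (j : ℕ) = 0 then 0 else if i.testBit ((j : ℕ) - 1) then 2 else 1

lemma coneKey_spec (h0 : 0 < n) (i : ℕ) : ConeKey (⟨0, h0⟩ : Fin n) (coneKey i) := by
  refine ⟨by simp [coneKey], ?_⟩
  intro j hj
  have h1 : (j : ℕ) ≠ 0 := fun h => hj (Fin.ext h)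
  simp only [coneKey, h1, if_false]
  by_cases h2 : i.testBit ((j : ℕ) - 1) = true
  · simp [h2]
  · simp [h2]

lemma coneKey_inj {i i' : ℕ} (hi : i < 2 ^ (n - 1)) (hi' : i' < 2 ^ (n - 1))
    (h : (coneKey i : Fin n → ℕ) = coneKey i') : i = i' := by
  apply Nat.eq_of_testBit_eq
  intro b
  by_cases hb : b + 1 < n
  · have h1 := congrFun h ⟨b + 1, hb⟩
    simp only [coneKey, Nat.succ_ne_zero, if_false, Nat.add_sub_cancel] at h1
    by_cases h2 : i.testBit b = true <;> by_cases h3 : i'.testBit b = true <;> simp_all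
  · have hb2 : n - 1 ≤ b := by omega
    have e1 : i < 2 ^ b := hi.trans_le (Nat.pow_le_pow_right (by norm_num) hb2)
    have e2 : i' < 2 ^ b := hi'.trans_le (Nat.pow_le_pow_right (by norm_num) hb2)
    rw [Nat.testBit_lt_two_pow e1, Nat.testBit_lt_two_pow e2]

/-- Labels for `m ^ n` cells: the labels of index at least `y ^ n` take a value at least `y`. -/
lemma labels_tail (h0 : 0 < n) (y m : ℕ) (hym : y ≤ m) :
    ∃ g : ℕ → Fin n → ℕ, (∀ i, i < m ^ n → ∀ p, g i p < m) ∧
      (∀ i, y ^ n ≤ i → i < m ^ n → ∃ p, y ≤ g i p) ∧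
      (∀ i, i < m ^ n → ∀ j, j < m ^ n → g i = g j → i = j) := by
  classical
  obtain ⟨g, hg1, hg2⟩ := exists_labels h0 (m ^ n)
  have hroot : ∀ t i, i < t ^ n → rootJ n i < t := by
    intro t i hi
    by_contra hc
    push Not at hc
    have h1 : t ^ n ≤ rootJ n i ^ n := Nat.pow_le_pow_left hc n
    have h2 := rootJ_pow_le h0 i
    omega
  have hym' : y ^ n ≤ m ^ n := Nat.pow_le_pow_left hym n
  refine ⟨g, fun i hi p => (hg1 i hi p).trans_lt (hroot m i hi), ?_, hg2⟩
  intro i hi1 hi2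
  by_contra hc
  push Not at hc
  let A : Finset (Fin n → ℕ) := Fintype.piFinset fun _ => Finset.range y
  let B : Finset (Fin n → ℕ) := (Finset.range (y ^ n)).image g
  have hBA : B ⊆ A := by
    intro f hf
    obtain ⟨j, hj, rfl⟩ := Finset.mem_image.1 hf
    have hj' := Finset.mem_range.1 hj
    apply Fintype.mem_piFinset.2
    intro p
    apply Finset.mem_range.2
    exact (hg1 j (by omega) p).trans_lt (hroot y j hj')
  have hBcard : B.card = y ^ n := by
    rw [Finset.card_image_of_injOn, Finset.card_range]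
    intro a ha b hb hab
    have ha' := Finset.mem_range.1 (Finset.mem_coe.1 ha)
    have hb' := Finset.mem_range.1 (Finset.mem_coe.1 hb)
    exact hg2 a (by omega) b (by omega) hab
  have hAcard : A.card = y ^ n := by simp [A, Fintype.card_piFinset]
  have hEq : B = A := Finset.eq_of_subset_of_card_le hBA (by rw [hAcard, hBcard])
  have hmem : g i ∈ A := by
    apply Fintype.mem_piFinset.2
    intro p
    exact Finset.mem_range.2 (hc p)
  rw [← hEq] at hmem
  obtain ⟨j, hj, hji⟩ := Finset.mem_image.1 hmem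
  have hj' := Finset.mem_range.1 hj
  have := hg2 j (by omega) i hi2 hji
  omega

/-- The lower part of the construction: cone cells subdivided into alcoves. -/
lemma fits_cone_part (h0 : 0 < n) (q : ℕ) (hq : 0 < q) {R b : ℝ} (hb : 0 < b)
    (h1 : 2 * (q * b) ≤ R) (r' : ℕ → ℝ)
    (hr : ∀ i, i < q ^ n * 2 ^ (n - 1) → r' i ≤ b) :
    Fits n r' (Set.Iio (q ^ n * 2 ^ (n - 1)))
      {X | X ∈ openSimplex n R ∧ ∑ l, X l + X (lastIdx h0) < 2 * (q * b)} := by
  classical
  obtain ⟨g, hg1, hg2⟩ := exists_labels h0 (q ^ n)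
  have hqpos : 0 < q ^ n := by positivity
  have hroot : ∀ i, i < q ^ n → rootJ n i < q := by
    intro i hi
    by_contra hc
    push Not at hc
    have h1 : q ^ n ≤ rootJ n i ^ n := Nat.pow_le_pow_left hc n
    have h2 := rootJ_pow_le h0 i
    omega
  have hz : ∀ j : Fin n, (⟨0, h0⟩ : Fin n) ≤ j := fun j => Fin.mk_le_of_le_val (Nat.zero_le _)
  set z : Fin n := ⟨0, h0⟩ with hzdef
  have hinner : ∀ i : ℕ, ∀ x ∈ openSimplex n b,
      (alcoveCell (ugrid 0 b) (g (i % q ^ n))).act x ∈ openSimplex n (q * b) := by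
    intro i x hx
    have hi : i % q ^ n < q ^ n := Nat.mod_lt _ hqpos
    refine ⟨ualc_pos le_rfl hb hx, ?_⟩
    have h2 := ualc_sum_lt (b := 0) (f := g (i % q ^ n)) (N := q) h0 hb hx
      (fun p => (hg1 _ hi p).trans_lt (hroot _ hi))
    simpa using h2
  refine ⟨fun i => (coneCell z (q * b) (coneKey (i / q ^ n))).comp
    (alcoveCell (ugrid 0 b) (g (i % q ^ n))), fun _ => b, ?_, ?_, ?_⟩
  · intro i hi
    exact hr i hi
  · intro i _ x hx
    rw [Cell.comp_act]
    have hy := hinner i x hx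
    have hF := coneKey_spec h0 (i / q ^ n)
    refine ⟨⟨cone_act_pos hF hz hy, ?_⟩, ?_⟩
    · exact (cone_sum_lt h0 hF hz hy).trans_le h1
    · exact cone_w_lt h0 hF hz hy
  · intro i hi j hj hij x hx x' hx' he
    simp only at hx hx' he
    rw [Cell.comp_act, Cell.comp_act] at he
    have hy := hinner i x hx
    have hy' := hinner j x' hx'
    have hi' : i < q ^ n * 2 ^ (n - 1) := hi
    have hj' : j < q ^ n * 2 ^ (n - 1) := hj
    have hkey := cone_disj (coneKey_spec h0 (i / q ^ n)) (coneKey_spec h0 (j / q ^ n)) hz hy hy' he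
    have hdiv : i / q ^ n = j / q ^ n :=
      coneKey_inj (Nat.div_lt_of_lt_mul hi') (Nat.div_lt_of_lt_mul hj') hkey
    rw [hkey] at he
    have hin := act_injective _ he
    have hlab := ualc_disj hb hx hx' hin
    have hmod : i % q ^ n = j % q ^ n :=
      hg2 _ (Nat.mod_lt _ hqpos) _ (Nat.mod_lt _ hqpos) hlab
    apply hij
    rw [← Nat.div_add_mod i (q ^ n), ← Nat.div_add_mod j (q ^ n), hdiv, hmod]

/-- The upper part of the construction: alcoves of a shifted grid. -/
lemma fits_grid_part (h0 : 0 < n) (N y m : ℕ) (hym : y ≤ m) {R c s κ : ℝ} (hc : 0 < c) (hs : 0 ≤ s)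
    (h2 : s + m * c ≤ R) (h3 : κ ≤ 2 * s + y * c) (r' : ℕ → ℝ)
    (hr : ∀ i, N ≤ i → i < N + (m ^ n - y ^ n) → r' i ≤ c) :
    Fits n r' (Set.Ico N (N + (m ^ n - y ^ n)))
      {X | X ∈ openSimplex n R ∧ κ ≤ ∑ l, X l + X (lastIdx h0)} := by
  classical
  obtain ⟨g, hg1, hg2, hg3⟩ := labels_tail h0 y m hym
  have hmy : y ^ n ≤ m ^ n := Nat.pow_le_pow_left hym n
  refine ⟨fun i => alcoveCell (ugrid s c) (g (i - N + y ^ n)), fun _ => c, ?_, ?_, ?_⟩
  · intro i hi
    exact hr i hi.1 hi.2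
  · intro i hi x hx
    have hi1 : i - N + y ^ n < m ^ n := by
      have h1 := hi.1
      have h4 := hi.2
      omega
    have hi2 : y ^ n ≤ i - N + y ^ n := by omega
    obtain ⟨p, hp⟩ := hg2 _ hi2 hi1
    have h4 := ualc_sum_lt (b := s) (f := g (i - N + y ^ n)) (N := m) h0 hc hx (hg1 _ hi1)
    have h5 := ualc_sum_gt (b := s) (f := g (i - N + y ^ n)) (a := y) (p := p) h0 hc hx hp
    have h6 := ualc_last_gt (b := s) (f := g (i - N + y ^ n)) (a := 0) h0 hc hx
      (fun _ => Nat.zero_le _)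
    refine ⟨⟨ualc_pos hs hc hx, h4.trans_le h2⟩, ?_⟩
    push_cast at h6
    linarith
  · intro i hi j hj hij x hx x' hx' he
    simp only at hx hx' he
    have hi1 : i - N + y ^ n < m ^ n := by
      have h1 := hi.1
      have h4 := hi.2
      omega
    have hj1 : j - N + y ^ n < m ^ n := by
      have h1 := hj.1
      have h4 := hj.2
      omega
    have hlab := ualc_disj hc hx hx' he
    have := hg3 _ hi1 _ hj1 hlab
    have h1 := hi.1
    have h4 := hj.1
    omega

/-- The combined construction. -/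
theorem beyond_fits (h0 : 0 < n) (m q : ℕ) (hq : 0 < q) (hm : 2 * q - 1 ≤ m) {R b c s : ℝ}
    (hb : 0 < b) (hc : 0 < c) (hs : 0 ≤ s) (h1 : 2 * (q * b) ≤ R) (h2 : s + m * c ≤ R)
    (h3 : 2 * (q * b) ≤ 2 * s + ((2 * q - 1 : ℕ) : ℝ) * c) (r' : ℕ → ℝ)
    (hA : ∀ i, i < q ^ n * 2 ^ (n - 1) → r' i ≤ b)
    (hB : ∀ i, q ^ n * 2 ^ (n - 1) ≤ i → r' i ≤ c) :
    Fits n r' (Set.Iio (q ^ n * 2 ^ (n - 1) + (m ^ n - (2 * q - 1) ^ n))) (openSimplex n R) := by
  have hX := fits_cone_part h0 q hq hb h1 r' hA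
  have hY := fits_grid_part h0 (q ^ n * 2 ^ (n - 1)) (2 * q - 1) m hm hc hs h2 h3 r'
    (fun i hi _ => hB i hi)
  have hU := Fits.union hX hY (by
    rw [Set.disjoint_left]
    intro X hX1 hX2
    have e1 := hX1.2
    have e2 := hX2.2
    linarith)
  refine hU.mono ?_ ?_
  · intro i hi
    have hi' : i < q ^ n * 2 ^ (n - 1) + (m ^ n - (2 * q - 1) ^ n) := hi
    by_cases h : i < q ^ n * 2 ^ (n - 1)
    · exact Or.inl h
    · exact Or.inr ⟨not_lt.1 h, hi'⟩
  · rintro X (h | h)
    · exact h.1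
    · exact h.1

/-- Sorted capacities below a value, non-strict counting version. -/
lemma sorted_small' {k : ℕ} {r : Fin k → ℝ} {x : ℝ} {σ : Equiv.Perm (Fin k)} {s : ℕ → ℝ}
    (hs : ∀ i : Fin k, s i = r (σ i)) (hanti : ∀ i j, i ≤ j → j < k → s j ≤ s i)
    (j : ℕ) (hj : j < k) (hK : (Finset.univ.filter fun i => x ≤ r i).card ≤ j) : s j < x := by
  classical
  by_contra hc
  push Not at hc
  have h1 : (Finset.univ : Finset (Fin (j + 1))).card ≤ (Finset.univ.filter fun i => x ≤ r i).card := by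
    apply Finset.card_le_card_of_injOn (fun i => σ (Fin.castLE (by omega) i))
    · intro i _
      simp only [Finset.coe_filter, Finset.mem_univ, true_and, Set.mem_setOf_eq]
      have h2 := hs (Fin.castLE (by omega) i)
      rw [← h2]
      have hi : (i : ℕ) ≤ j := by omega
      have h3 := hanti (i : ℕ) j hi hj
      exact hc.trans (by simpa using h3)
    · intro a _ b _ he
      have := σ.injective he
      exact Fin.castLE_injective _ this
  simp only [Finset.card_univ, Fintype.card_fin] at h1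
  omega

/-- Packings beyond the grid, general form with two sizes. -/
theorem beyond_theorem (h0 : 0 < n) (m q : ℕ) (hq : 0 < q) (hm : 2 * q ≤ m + 1) {k : ℕ}
    (r : Fin k → ℝ) (R b c : ℝ) (hb : 0 < b) (hc : 0 < c)
    (h1 : 2 * q * b ≤ R) (h2 : 2 * q * b + (2 * m - 2 * q + 1) * c ≤ 2 * R)
    (h3 : (2 * q - 1) * c ≤ 2 * q * b)
    (hk : k ≤ q ^ n * 2 ^ (n - 1) + (m ^ n - (2 * q - 1) ^ n))
    (hpos : ∀ i, 0 < r i) (hrb : ∀ i, r i < b)
    (hcount : (Finset.univ.filter fun i => c ≤ r i).card ≤ q ^ n * 2 ^ (n - 1)) :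
    SymplecticPacking n r R := by
  classical
  obtain ⟨σ, s, hs, hanti⟩ := exists_sorted r
  apply SymplecticPacking.of_perm σ
  have hcast : ((2 * q - 1 : ℕ) : ℝ) = 2 * (q : ℝ) - 1 := by
    rw [Nat.cast_sub (by omega)]
    push_cast
    ring
  let r' : ℕ → ℝ := fun i => if i < q ^ n * 2 ^ (n - 1) then b else c
  have hfits := beyond_fits (n := n) h0 m q hq (by omega) (R := R) (b := b) (c := c)
    (s := q * b - (2 * q - 1) * c / 2) hb hc (by linarith) (by linarith) (by linarith)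
    (by rw [hcast]; linarith) r'
    (fun i hi => by simp only [r', if_pos hi]; exact le_rfl)
    (fun i hi => by simp only [r', if_neg (not_lt.2 hi)]; exact le_rfl)
  have hfits' : Fits n r' (Set.Iio k) (openSimplex n R) :=
    hfits.mono (fun i hi => lt_of_lt_of_le hi hk) subset_rfl
  apply packing_of_fits hfits' (r ∘ σ)
  · intro i
    by_cases hi : (i : ℕ) < q ^ n * 2 ^ (n - 1)
    · simp only [r', if_pos hi, Function.comp]
      exact hrb _
    · simp only [r', if_neg hi, Function.comp]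
      have h4 := sorted_small' hs hanti i i.isLt (hcount.trans (not_lt.1 hi))
      rw [hs i] at h4
      exact h4
  · intro i
    exact hpos _

end Vale.Agent.Lib.P209
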