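import Vale.Agent.Lib.P209.Assemble

open Real Matrix

namespace Vale.Agent.Lib.P209

variable {n : ℕ}

/-- A uniform grid. -/
def ugrid (b h : ℝ) (a : ℕ) : ℝ := b + a * h

section ugrid

variable {b h : ℝ} {f : Fin n → ℕ} {y : Fin n → ℝ}

lemma ugrid_hlev (hh : 0 < h) : ∀ k k', k < k' → ugrid b h k + (fun _ : ℕ => h) k ≤ ugrid b h k' := by
  intro k k' hk
  have h1 : ((k : ℝ) + 1) ≤ k' := by exact_mod_cast hk
  simp only [ugrid]
  nlinarith

lemma ugrid_nonneg (hb : 0 ≤ b) (hh : 0 < h) (k : ℕ) : 0 ≤ ugrid b h k := by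
  simp only [ugrid]
  positivity

lemma ualc_pos (hb : 0 ≤ b) (hh : 0 < h) (hy : y ∈ openSimplex n h) (j : Fin n) :
    0 < (alcoveCell (ugrid b h) f).act y j :=
  alcove_act_pos (len := fun _ => h) (ugrid_hlev hh) (ugrid_nonneg hb hh) hy (fun _ => le_rfl) j

lemma ualc_sum_lt (h0 : 0 < n) (hh : 0 < h) (hy : y ∈ openSimplex n h) {N : ℕ}
    (hf : ∀ p, f p < N) : ∑ j, (alcoveCell (ugrid b h) f).act y j < b + N * h := by
  apply alcove_sum_lt (len := fun _ => h) h0 hy (fun _ => le_rfl)
  intro p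
  have h1 : ((f p : ℝ) + 1) ≤ N := by exact_mod_cast hf p
  simp only [ugrid]
  nlinarith

lemma ualc_sum_gt (h0 : 0 < n) (hh : 0 < h) (hy : y ∈ openSimplex n h) {a : ℕ} {p : Fin n}
    (hf : a ≤ f p) : b + a * h < ∑ j, (alcoveCell (ugrid b h) f).act y j := by
  apply alcove_sum_gt (len := fun _ => h) h0 (ugrid_hlev hh) hy (fun _ => le_rfl) _ p
  have h1 : (a : ℝ) ≤ f p := by exact_mod_cast hf
  simp only [ugrid]
  nlinarith

/-- The last coordinate. -/
def lastIdx (h0 : 0 < n) : Fin n := ⟨n - 1, by omega⟩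

lemma ualc_last (h0 : 0 < n) :
    (alcoveCell (ugrid b h) f).act y (lastIdx h0) = alcoveY (ugrid b h) f y (lastIdx h0) := by
  rw [alcove_act, dif_apply_of_last]
  simp only [lastIdx]
  omega

lemma ualc_last_gt (h0 : 0 < n) (hh : 0 < h) (hy : y ∈ openSimplex n h) {a : ℕ}
    (hf : ∀ p, a ≤ f p) : b + a * h < (alcoveCell (ugrid b h) f).act y (lastIdx h0) := by
  rw [ualc_last]
  have h1 := cum_pos hy.1 (sortPerm f (lastIdx h0))
  have h2 : (a : ℝ) ≤ f (sortPerm f (lastIdx h0)) := by exact_mod_cast hf _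
  simp only [alcoveY, ugrid]
  nlinarith

lemma ualc_last_lt (h0 : 0 < n) (hh : 0 < h) (hy : y ∈ openSimplex n h) {a : ℕ} {p : Fin n}
    (hf : f p < a) : (alcoveCell (ugrid b h) f).act y (lastIdx h0) < b + a * h := by
  rw [ualc_last]
  obtain ⟨i, rfl⟩ := (sortPerm f).surjective p
  have hanti := alcoveY_strictAnti (lev := ugrid b h) (len := fun _ => h) (ugrid_hlev hh) hy (f := f)
    (fun _ => le_rfl)
  have h1 : alcoveY (ugrid b h) f y (lastIdx h0) ≤ alcoveY (ugrid b h) f y i := by
    apply hanti.antitone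
    rw [Fin.le_def]
    simp only [lastIdx]
    have := i.isLt
    omega
  have h2 := cum_lt hy (sortPerm f i)
  have h3 : ((f (sortPerm f i) : ℕ) : ℝ) + 1 ≤ a := by exact_mod_cast hf
  simp only [alcoveY, ugrid] at h1 ⊢
  nlinarith

lemma ualc_disj (hh : 0 < h) {f' : Fin n → ℕ} {y' : Fin n → ℝ} (hy : y ∈ openSimplex n h)
    (hy' : y' ∈ openSimplex n h)
    (he : (alcoveCell (ugrid b h) f).act y = (alcoveCell (ugrid b h) f').act y') : f = f' :=
  alcove_disj (len := fun _ => h) (ugrid_hlev hh) hy (fun _ => le_rfl) hy' (fun _ => le_rfl) he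

end ugrid

/-- Values of the labels: the label `0` is constant `0`, other labels are `0`-`1` valued, not
constant `0`. -/
lemma labels_spec (h0 : 0 < n) :
    ∃ g : ℕ → Fin n → ℕ, (∀ i, i < 2 ^ n → ∀ p, g i p ≤ 1) ∧
      (∀ i, i < 2 ^ n → i ≠ 0 → ∃ p, g i p = 1) ∧
      (∀ i, i < 2 ^ n → ∀ j, j < 2 ^ n → g i = g j → i = j) := by
  obtain ⟨g, hg1, hg2⟩ := exists_labels h0 (2 ^ n)
  have hroot : ∀ i, i < 2 ^ n → rootJ n i ≤ 1 := by
    intro i hi
    by_contra hc
    push Not at hc
    have h1 : 2 ^ n ≤ rootJ n i ^ n := Nat.pow_le_pow_left hc n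
    have h2 := rootJ_pow_le h0 i
    omega
  have hzero : ∀ p, g 0 p = 0 := by
    intro p
    have h1 := hg1 0 (by positivity) p
    have h2 : rootJ n 0 = 0 := by
      have := rootJ_pow_le h0 0
      simpa [h0.ne'] using this
    omega
  refine ⟨g, fun i hi p => (hg1 i hi p).trans (hroot i hi), ?_, hg2⟩
  intro i hi hi0
  by_contra hc
  push Not at hc
  have h1 : g i = g 0 := by
    funext p
    have h2 := (hg1 i hi p).trans (hroot i hi)
    have h3 := hc p
    rw [hzero p]
    omega
  exact hi0 (hg2 i hi 0 (by positivity) h1)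

/-- Capacity of a bin of size `τ` after the loss of the layered lemma. -/
noncomputable def binCap (n : ℕ) (x τ : ℝ) : ℝ := (max (τ - n * x) 0) ^ n

/-- The main construction, given a family of fine alcoves. -/
theorem main_core (h0 : 0 < n) {r : ℕ → ℝ} {x R s t u bf : ℝ} {K k : ℕ}
    (Fine : Finset (Fin n → ℕ)) (hs : s + t = R) (ht : 0 < t) (hts : t ≤ s) (hu : 0 < u)
    (hfine : ∀ f ∈ Fine, ∀ y ∈ openSimplex n u,
      (alcoveCell (ugrid bf u) f).act y ∈ openSimplex n R ∧
      s ≤ ∑ j, (alcoveCell (ugrid bf u) f).act y j ∧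
      (alcoveCell (ugrid bf u) f).act y (lastIdx h0) < s - t)
    (hK : K ≤ 2 ^ n) (hKk : K ≤ k)
    (hitems : ∀ i, K ≤ i → i < k → 0 < r i ∧ r i ≤ x)
    (hanti : ∀ i j, K ≤ i → i ≤ j → j < k → r j ≤ r i)
    (hr0 : 0 < K → r 0 ≤ s) (hr1 : ∀ i, 1 ≤ i → i < K → r i ≤ t) (hrpos : ∀ i, i < K → 0 ≤ r i)
    (hx : 0 ≤ x)
    (hnum : ∑ i ∈ Finset.range k, r i ^ n
      ≤ binCap n x s + ((2 ^ n : ℕ) - 1 : ℝ) * binCap n x t + (Fine.card : ℝ) * binCap n x u
        - (((2 ^ n : ℕ) : ℝ) + Fine.card) * x ^ n) :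
    Fits n r (Set.Iio k) (openSimplex n R) := by
  classical
  obtain ⟨g, hg1, hg2, hg3⟩ := labels_spec h0
  have hR : s ≤ R := by linarith
  have hb' : 0 ≤ s - t := by linarith
  let cellB : ℕ → Cell n := fun i => if i = 0 then Cell.idCell n else alcoveCell (ugrid (s - t) t) (g i)
  let τB : ℕ → ℝ := fun i => if i = 0 then s else t
  let σB : ℕ → ℝ := fun i => if i < K then r i else 0
  let JB : ℕ → Set ℕ := fun i => if i < K then {i} else ∅
  -- coarse regions
  have hcoarse : ∀ i, i < 2 ^ n → i ≠ 0 → ∀ y ∈ openSimplex n t,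
      (alcoveCell (ugrid (s - t) t) (g i)).act y ∈ openSimplex n R ∧
      s < ∑ j, (alcoveCell (ugrid (s - t) t) (g i)).act y j ∧
      s - t < (alcoveCell (ugrid (s - t) t) (g i)).act y (lastIdx h0) := by
    intro i hi hi0 y hy
    refine ⟨⟨ualc_pos hb' ht hy, ?_⟩, ?_, ?_⟩
    · have h1 := ualc_sum_lt (b := s - t) (f := g i) (N := 2) h0 ht hy
        (fun p => by have := hg1 i hi p; omega)
      have e : s - t + (2 : ℕ) * t = R := by push_cast; linarith
      rwa [e] at h1
    · obtain ⟨p, hp⟩ := hg2 i hi hi0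
      have h1 := ualc_sum_gt (b := s - t) (f := g i) (a := 1) (p := p) h0 ht hy (by omega)
      have e : s - t + (1 : ℕ) * t = s := by push_cast; linarith
      rwa [e] at h1
    · have h1 := ualc_last_gt (b := s - t) (f := g i) (a := 0) h0 ht hy (fun _ => Nat.zero_le _)
      have e : s - t + (0 : ℕ) * t = s - t := by push_cast; linarith
      rwa [e] at h1
  refine assemble (β := ℕ ⊕ (Fin n → ℕ)) h0 ((Finset.range (2 ^ n)).disjSum Fine)
    (Sum.elim cellB (alcoveCell (ugrid bf u))) (Sum.elim τB (fun _ => u))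
    (Sum.elim σB (fun _ => 0)) (Sum.elim JB (fun _ => ∅)) ?_ ?_ ?_ ?_ ?_ hitems hanti hKk ?_ hx ?_
  · -- nonnegativity of `σ`
    rintro (i | f) _
    · simp only [Sum.elim_inl, σB]
      split_ifs with h
      · exact hrpos i h
      · exact le_rfl
    · simp
  · -- `σ ≤ τ`
    rintro (i | f) _
    · simp only [Sum.elim_inl, σB, τB]
      by_cases h : i < K
      · rw [if_pos h]
        by_cases h' : i = 0
        · rw [if_pos h']
          subst h'
          exact hr0 h
        · rw [if_neg h']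
          exact hr1 i (by omega) h
      · rw [if_neg h]
        split_ifs <;> linarith
    · simpa using hu.le
  · -- corners
    rintro (i | f) _
    · simp only [Sum.elim_inl, σB, JB]
      by_cases h : i < K
      · rw [if_pos h, if_pos h]
        exact Fits.single r i le_rfl
      · rw [if_neg h, if_neg h]
        exact Fits.empty r _
    · exact Fits.empty r _
  · -- disjointness
    have hcc : ∀ i, i ∈ Finset.range (2 ^ n) → ∀ j, j ∈ Finset.range (2 ^ n) → i ≠ j →
        Disjoint ((cellB i).act '' openSimplex n (τB i)) ((cellB j).act '' openSimplex n (τB j)) := by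
      have hcore : ∀ j, j < 2 ^ n → j ≠ 0 →
          Disjoint ((cellB 0).act '' openSimplex n (τB 0)) ((cellB j).act '' openSimplex n (τB j)) := by
        intro j hj hj0
        rw [Set.disjoint_left]
        rintro X ⟨y, hy, rfl⟩ ⟨y', hy', he⟩
        simp only [cellB, τB, if_true, if_neg hj0, Cell.idCell_act] at hy hy' he ⊢
        have h1 := (hcoarse j hj hj0 y' hy').2.1
        rw [he] at h1
        have h2 := hy.2
        linarith
      intro i hi j hj hij
      have hi := Finset.mem_range.1 hi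
      have hj := Finset.mem_range.1 hj
      by_cases hi0 : i = 0
      · subst hi0
        exact hcore j hj (Ne.symm hij)
      · by_cases hj0 : j = 0
        · subst hj0
          exact (hcore i hi hi0).symm
        · rw [Set.disjoint_left]
          rintro X ⟨y, hy, rfl⟩ ⟨y', hy', he⟩
          simp only [cellB, τB, if_neg hi0, if_neg hj0] at hy hy' he
          exact hij (hg3 i hi j hj (ualc_disj ht hy hy' he.symm))
    have hcf : ∀ i, i ∈ Finset.range (2 ^ n) → ∀ f, f ∈ Fine →
        Disjoint ((cellB i).act '' openSimplex n (τB i))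
          ((alcoveCell (ugrid bf u) f).act '' openSimplex n u) := by
      intro i hi f hf
      have hi := Finset.mem_range.1 hi
      rw [Set.disjoint_left]
      rintro X ⟨y, hy, rfl⟩ ⟨y', hy', he⟩
      obtain ⟨h1, h2, h3⟩ := hfine f hf y' hy'
      rw [he] at h2 h3
      by_cases hi0 : i = 0
      · subst hi0
        simp only [cellB, τB, if_true, Cell.idCell_act] at hy h2
        have := hy.2
        linarith
      · simp only [cellB, τB, if_neg hi0] at hy h3
        have := (hcoarse i hi hi0 y hy).2.2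
        linarith
    rintro (i | f) hb (j | f') hb' hne
    · simp only [Sum.elim_inl]
      simp only [Finset.inl_mem_disjSum] at hb hb'
      exact hcc i hb j hb' (fun e => hne (by rw [e]))
    · simp only [Sum.elim_inl, Sum.elim_inr]
      simp only [Finset.inl_mem_disjSum, Finset.inr_mem_disjSum] at hb hb'
      exact hcf i hb f' hb'
    · simp only [Sum.elim_inl, Sum.elim_inr]
      simp only [Finset.inl_mem_disjSum, Finset.inr_mem_disjSum] at hb hb'
      exact (hcf j hb' f hb).symm
    · simp only [Sum.elim_inr]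
      rw [Set.disjoint_left]
      rintro X ⟨y, hy, rfl⟩ ⟨y', hy', he⟩
      exact hne (by rw [ualc_disj hu hy hy' he.symm])
  · -- inside the big simplex
    rintro (i | f) hb
    · simp only [Sum.elim_inl]
      simp only [Finset.inl_mem_disjSum] at hb
      have hi := Finset.mem_range.1 hb
      rintro X ⟨y, hy, rfl⟩
      by_cases hi0 : i = 0
      · subst hi0
        simp only [cellB, τB, if_true, Cell.idCell_act] at hy ⊢
        exact ⟨hy.1, hy.2.trans_le hR⟩
      · simp only [cellB, τB, if_neg hi0] at hy ⊢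
        exact (hcoarse i hi hi0 y hy).1
    · simp only [Sum.elim_inr]
      simp only [Finset.inr_mem_disjSum] at hb
      rintro X ⟨y, hy, rfl⟩
      exact (hfine f hb y hy).1
  · -- the big balls are covered
    intro i hi
    refine ⟨Sum.inl i, ?_, ?_⟩
    · simp only [Finset.inl_mem_disjSum, Finset.mem_range]
      omega
    · simp only [Sum.elim_inl, JB, if_pos hi, Set.mem_singleton_iff]
  · -- the numerical condition
    rw [Finset.sum_disjSum]
    simp only [Sum.elim_inl, Sum.elim_inr]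
    have h1 : ∑ i ∈ Finset.range (2 ^ n), (binCap n x (τB i) - σB i ^ n - x ^ n)
        ≤ ∑ i ∈ Finset.range (2 ^ n), max ((max (τB i - n * x) 0) ^ n - σB i ^ n - x ^ n) 0 :=
      Finset.sum_le_sum fun i _ => le_max_left _ _
    have h2 : ∑ f ∈ Fine, (binCap n x u - (0 : ℝ) ^ n - x ^ n)
        ≤ ∑ f ∈ Fine, max ((max (u - n * x) 0) ^ n - (0 : ℝ) ^ n - x ^ n) 0 :=
      Finset.sum_le_sum fun i _ => le_max_left _ _
    have h3 : ∑ f ∈ Fine, (binCap n x u - (0 : ℝ) ^ n - x ^ n)
        = (Fine.card : ℝ) * binCap n x u - (Fine.card : ℝ) * x ^ n := by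
      rw [Finset.sum_const, nsmul_eq_mul, zero_pow h0.ne']
      ring
    have h4 : ∑ i ∈ Finset.range (2 ^ n), σB i ^ n = ∑ i ∈ Finset.range K, r i ^ n := by
      have hsub : Finset.range K ⊆ Finset.range (2 ^ n) := Finset.range_subset_range.2 hK
      rw [← Finset.sum_subset hsub]
      · apply Finset.sum_congr rfl
        intro i hi
        simp only [σB, if_pos (Finset.mem_range.1 hi)]
      · intro i _ hi
        simp only [Finset.mem_range] at hi
        simp only [σB, if_neg hi, zero_pow h0.ne']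
    have h5 : ∑ i ∈ Finset.range (2 ^ n), binCap n x (τB i)
        = binCap n x s + ((2 ^ n : ℕ) - 1 : ℝ) * binCap n x t := by
      obtain ⟨m, hm⟩ : ∃ m, 2 ^ n = m + 1 := ⟨2 ^ n - 1, by
        have : 0 < 2 ^ n := by positivity
        omega⟩
      rw [hm, Finset.sum_range_succ']
      have : ∀ i ∈ Finset.range m, binCap n x (τB (i + 1)) = binCap n x t := by
        intro i _
        simp [τB]
      rw [Finset.sum_congr rfl this, Finset.sum_const, Finset.card_range, nsmul_eq_mul]
      simp only [τB, if_true]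
      push_cast
      ring
    have h6 : ∑ i ∈ Finset.range (2 ^ n), (binCap n x (τB i) - σB i ^ n - x ^ n)
        = binCap n x s + ((2 ^ n : ℕ) - 1 : ℝ) * binCap n x t - ∑ i ∈ Finset.range K, r i ^ n
          - ((2 ^ n : ℕ) : ℝ) * x ^ n := by
      rw [Finset.sum_sub_distrib, Finset.sum_sub_distrib, h4, h5, Finset.sum_const,
        Finset.card_range, nsmul_eq_mul]
    have h7 : ∑ i ∈ Finset.Ico K k, r i ^ n
        = ∑ i ∈ Finset.range k, r i ^ n - ∑ i ∈ Finset.range K, r i ^ n :=
      Finset.sum_Ico_eq_sub _ hKk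
    rw [h7]
    rw [h6] at h1
    rw [h3] at h2
    have h8 : (((2 ^ n : ℕ) : ℝ) + Fine.card) * x ^ n
        = ((2 ^ n : ℕ) : ℝ) * x ^ n + (Fine.card : ℝ) * x ^ n := by ring
    rw [h8] at hnum
    linarith

end Vale.Agent.Lib.P209
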