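import Vale.Agent.Lib.P209.Torus

open Real Matrix

namespace Vale.Agent.Lib.P209

variable {n : ℕ}

/-- Cumulative sums from the right. -/
def cMat (n : ℕ) : Matrix (Fin n) (Fin n) ℤ := Matrix.of fun p l => if p ≤ l then 1 else 0

/-- Successive differences. -/
def dMat (n : ℕ) : Matrix (Fin n) (Fin n) ℤ :=
  Matrix.of fun i l => (if l = i then 1 else 0) - (if (l : ℕ) = i + 1 then 1 else 0)

lemma dMat_mul_cMat : dMat n * cMat n = 1 := by
  ext i m
  rw [Matrix.mul_apply, Matrix.one_apply]
  have h : ∀ l : Fin n, dMat n i l * cMat n l m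
      = (if l = i then cMat n l m else 0) - (if (l : ℕ) = i + 1 then cMat n l m else 0) := by
    intro l
    simp only [dMat, Matrix.of_apply, sub_mul, ite_mul, one_mul, zero_mul]
  simp only [h, Finset.sum_sub_distrib, Finset.sum_ite_eq', Finset.mem_univ, if_true]
  by_cases hlast : (i : ℕ) + 1 < n
  · have h2 : ∑ l : Fin n, (if (l : ℕ) = i + 1 then cMat n l m else 0)
        = cMat n ⟨i + 1, hlast⟩ m := by
      rw [Finset.sum_eq_single (⟨i + 1, hlast⟩ : Fin n)]
      · simp
      · intro b _ hb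
        rw [if_neg]
        intro h3
        exact hb (Fin.ext h3)
      · simp
    rw [h2]
    simp only [cMat, Matrix.of_apply, Fin.le_def]
    rcases lt_trichotomy (i : ℕ) m with h4 | h4 | h4
    · have h5 : i ≠ m := fun h6 => by simp [h6] at h4
      rw [if_pos (by omega), if_pos (by omega), if_neg h5]; norm_num
    · have h5 : i = m := Fin.ext h4
      rw [if_pos (by omega), if_neg (by omega), if_pos h5]; norm_num
    · have h5 : i ≠ m := fun h6 => by simp [h6] at h4
      rw [if_neg (by omega), if_neg (by omega), if_neg h5]; norm_num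
  · have h2 : ∑ l : Fin n, (if (l : ℕ) = i + 1 then cMat n l m else 0) = 0 := by
      apply Finset.sum_eq_zero
      intro l _
      rw [if_neg]
      have := l.isLt
      omega
    rw [h2]
    simp only [cMat, Matrix.of_apply, Fin.le_def]
    have hm := m.isLt
    have hi := i.isLt
    by_cases h4 : (i : ℕ) ≤ m
    · have h5 : i = m := Fin.ext (by omega)
      rw [if_pos h4, if_pos h5]; norm_num
    · have h5 : i ≠ m := fun h6 => h4 (by simp [h6])
      rw [if_neg h4, if_neg h5]; norm_num

lemma cMat_mul_dMat : cMat n * dMat n = 1 := mul_eq_one_comm.1 dMat_mul_cMat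

/-- The permutation matrix of a permutation. -/
def permMat (σ : Equiv.Perm (Fin n)) : Matrix (Fin n) (Fin n) ℤ :=
  (1 : Matrix (Fin n) (Fin n) ℤ).submatrix σ id

lemma permMat_transpose_mul (σ : Equiv.Perm (Fin n)) :
    (permMat σ).transpose * permMat σ = 1 := by
  unfold permMat
  rw [Matrix.transpose_submatrix, Matrix.transpose_one]
  have h := Matrix.submatrix_mul_equiv (1 : Matrix (Fin n) (Fin n) ℤ)
    (1 : Matrix (Fin n) (Fin n) ℤ) id σ id
  rw [h, Matrix.one_mul]
  exact Matrix.submatrix_one _ Function.injective_id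

lemma map_cast_mul (M N : Matrix (Fin n) (Fin n) ℤ) :
    (M * N).map (Int.cast : ℤ → ℝ) = M.map (Int.cast : ℤ → ℝ) * N.map (Int.cast : ℤ → ℝ) := by
  ext i j
  simp [Matrix.mul_apply]

/-- Cumulative sums of a real vector. -/
noncomputable def cum (x : Fin n → ℝ) : Fin n → ℝ := (cMat n).map (Int.cast : ℤ → ℝ) *ᵥ x

/-- Differences of a real vector. -/
noncomputable def dif (y : Fin n → ℝ) : Fin n → ℝ := (dMat n).map (Int.cast : ℤ → ℝ) *ᵥ y

lemma cum_dif (y : Fin n → ℝ) : cum (dif y) = y := by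
  unfold cum dif
  rw [Matrix.mulVec_mulVec, ← map_cast_mul, cMat_mul_dMat]
  have : (1 : Matrix (Fin n) (Fin n) ℤ).map (Int.cast : ℤ → ℝ) = 1 := by
    ext i j; simp [Matrix.one_apply]
  rw [this, Matrix.one_mulVec]

lemma dif_cum (y : Fin n → ℝ) : dif (cum y) = y := by
  unfold cum dif
  rw [Matrix.mulVec_mulVec, ← map_cast_mul, dMat_mul_cMat]
  have : (1 : Matrix (Fin n) (Fin n) ℤ).map (Int.cast : ℤ → ℝ) = 1 := by
    ext i j; simp [Matrix.one_apply]
  rw [this, Matrix.one_mulVec]

lemma dif_add (y z : Fin n → ℝ) : dif (y + z) = dif y + dif z := by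
  unfold dif; rw [Matrix.mulVec_add]

lemma cum_apply (x : Fin n → ℝ) (p : Fin n) :
    cum x p = ∑ l, if p ≤ l then x l else 0 := by
  simp only [cum, Matrix.mulVec, dotProduct, Matrix.map_apply, cMat, Matrix.of_apply]
  apply Finset.sum_congr rfl
  intro l _
  split_ifs <;> simp

lemma dif_apply (y : Fin n → ℝ) (i : Fin n) :
    dif y i = y i - ∑ l : Fin n, if (l : ℕ) = i + 1 then y l else 0 := by
  simp only [dif, Matrix.mulVec, dotProduct, Matrix.map_apply, dMat, Matrix.of_apply]
  have h : ∀ l : Fin n, (((if l = i then 1 else 0) - (if (l : ℕ) = i + 1 then 1 else 0) : ℤ) : ℝ) * y l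
      = (if l = i then y l else 0) - (if (l : ℕ) = i + 1 then y l else 0) := by
    intro l
    push_cast
    rw [sub_mul]
    split_ifs <;> simp
  simp only [h, Finset.sum_sub_distrib, Finset.sum_ite_eq', Finset.mem_univ, if_true]

lemma dif_apply_of_lt (y : Fin n → ℝ) (i : Fin n) (h : (i : ℕ) + 1 < n) :
    dif y i = y i - y ⟨i + 1, h⟩ := by
  rw [dif_apply]
  congr 1
  rw [Finset.sum_eq_single (⟨i + 1, h⟩ : Fin n)]
  · simp
  · intro b _ hb
    rw [if_neg]
    intro h3
    exact hb (Fin.ext h3)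
  · simp

lemma dif_apply_of_last (y : Fin n → ℝ) (i : Fin n) (h : ¬ (i : ℕ) + 1 < n) :
    dif y i = y i := by
  rw [dif_apply, Finset.sum_eq_zero, sub_zero]
  intro l _
  rw [if_neg]
  have := l.isLt
  omega

section cumlemmas
variable {x : Fin n → ℝ}

lemma cum_pos (hx : ∀ j, 0 < x j) (p : Fin n) : 0 < cum x p := by
  rw [cum_apply]
  apply Finset.sum_pos'
  · intro l _
    split_ifs
    · exact (hx l).le
    · exact le_rfl
  · exact ⟨p, Finset.mem_univ _, by simpa using hx p⟩

lemma cum_strictAnti (hx : ∀ j, 0 < x j) : StrictAnti (cum x) := by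
  intro p q hpq
  rw [cum_apply, cum_apply]
  apply Finset.sum_lt_sum
  · intro l _
    by_cases h1 : q ≤ l
    · rw [if_pos h1, if_pos (hpq.le.trans h1)]
    · rw [if_neg h1]
      split_ifs
      · exact (hx l).le
      · exact le_rfl
  · refine ⟨p, Finset.mem_univ _, ?_⟩
    rw [if_neg (not_le.2 hpq), if_pos le_rfl]
    exact hx p

lemma cum_le_sum (hx : ∀ j, 0 < x j) (p : Fin n) : cum x p ≤ ∑ l, x l := by
  rw [cum_apply]
  apply Finset.sum_le_sum
  intro l _
  split_ifs
  · exact le_rfl
  · exact (hx l).le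

lemma cum_lt {t : ℝ} (hx : x ∈ openSimplex n t) (p : Fin n) : cum x p < t :=
  (cum_le_sum hx.1 p).trans_lt hx.2

end cumlemmas

lemma sum_eq_cum_zero (h0 : 0 < n) (X : Fin n → ℝ) : ∑ l, X l = cum X ⟨0, h0⟩ := by
  rw [cum_apply]
  apply Finset.sum_congr rfl
  intro l _
  rw [if_pos (Fin.mk_le_of_le_val (Nat.zero_le _))]

/-- The permutation sorting by decreasing level, then by increasing position. -/
def sortPerm (f : Fin n → ℕ) : Equiv.Perm (Fin n) :=
  Tuple.sort (fun p : Fin n => -(f p : ℤ) * (n : ℤ) + ((p : ℕ) : ℤ))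

lemma sort_key (f : Fin n → ℕ) {i i' : Fin n} (h : i < i') :
    f (sortPerm f i') < f (sortPerm f i) ∨
      (f (sortPerm f i) = f (sortPerm f i') ∧ sortPerm f i < sortPerm f i') := by
  have hm := Tuple.monotone_sort (fun p : Fin n => -(f p : ℤ) * (n : ℤ) + ((p : ℕ) : ℤ))
  have h1 := hm h.le
  simp only [Function.comp] at h1
  change -(f (sortPerm f i) : ℤ) * (n : ℤ) + (((sortPerm f i : Fin n) : ℕ) : ℤ)
    ≤ -(f (sortPerm f i') : ℤ) * (n : ℤ) + (((sortPerm f i' : Fin n) : ℕ) : ℤ) at h1
  set p := sortPerm f i with hp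
  set q := sortPerm f i' with hq
  have hpq : p ≠ q := fun e => (ne_of_lt h) ((sortPerm f).injective e)
  have hplt := p.isLt
  have hqlt := q.isLt
  rcases lt_trichotomy (f p) (f q) with h2 | h2 | h2
  · exfalso
    have h3 : (f p : ℤ) + 1 ≤ f q := by exact_mod_cast h2
    have hn : (0 : ℤ) ≤ n := by positivity
    nlinarith
  · right
    refine ⟨h2, ?_⟩
    rw [h2] at h1
    have h3 : ((p : ℕ) : ℤ) ≤ ((q : ℕ) : ℤ) := by linarith
    have h4 : (p : ℕ) ≤ q := by exact_mod_cast h3
    exact lt_of_le_of_ne h4 hpq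
  · left; exact h2

/-- An alcove cell. -/
noncomputable def alcoveCell (lev : ℕ → ℝ) (f : Fin n → ℕ) : Cell n where
  A := dMat n * permMat (sortPerm f) * cMat n
  B := (cMat n).transpose * permMat (sortPerm f) * (dMat n).transpose
  b := dif (fun i => lev (f (sortPerm f i)))
  AB := by
    simp only [Matrix.transpose_mul]
    calc (cMat n).transpose * ((permMat (sortPerm f)).transpose * (dMat n).transpose) *
          ((cMat n).transpose * permMat (sortPerm f) * (dMat n).transpose)
        = (cMat n).transpose * ((permMat (sortPerm f)).transpose *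
            (((dMat n).transpose * (cMat n).transpose) * permMat (sortPerm f))) *
            (dMat n).transpose := by
          simp only [Matrix.mul_assoc]
      _ = 1 := by
          rw [← Matrix.transpose_mul, cMat_mul_dMat, Matrix.transpose_one, Matrix.one_mul,
            permMat_transpose_mul, Matrix.mul_one, ← Matrix.transpose_mul, dMat_mul_cMat,
            Matrix.transpose_one]

/-- The `y`-coordinates of a point of an alcove cell. -/
noncomputable def alcoveY (lev : ℕ → ℝ) (f : Fin n → ℕ) (x : Fin n → ℝ) (i : Fin n) : ℝ :=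
  cum x (sortPerm f i) + lev (f (sortPerm f i))

lemma permMat_mulVec (σ : Equiv.Perm (Fin n)) (v : Fin n → ℝ) (i : Fin n) :
    ((permMat σ).map (Int.cast : ℤ → ℝ) *ᵥ v) i = v (σ i) := by
  simp only [permMat, Matrix.mulVec, dotProduct, Matrix.map_apply, Matrix.submatrix_apply, id,
    Matrix.one_apply]
  rw [Finset.sum_eq_single (σ i)]
  · simp
  · intro b _ hb
    rw [if_neg (Ne.symm hb)]
    simp
  · simp

lemma alcove_act (lev : ℕ → ℝ) (f : Fin n → ℕ) (x : Fin n → ℝ) :
    (alcoveCell lev f).act x = dif (alcoveY lev f x) := by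
  unfold Cell.act
  have e : alcoveY lev f x
      = (fun i => cum x (sortPerm f i)) + (fun i => lev (f (sortPerm f i))) := by
    funext i; rfl
  rw [e, dif_add]
  congr 1
  change ((dMat n * permMat (sortPerm f) * cMat n).map (Int.cast : ℤ → ℝ)) *ᵥ x = _
  rw [map_cast_mul, map_cast_mul, ← Matrix.mulVec_mulVec, ← Matrix.mulVec_mulVec]
  unfold dif
  congr 1
  funext i
  rw [permMat_mulVec]
  rfl

lemma cum_alcove_act (lev : ℕ → ℝ) (f : Fin n → ℕ) (x : Fin n → ℝ) :
    cum ((alcoveCell lev f).act x) = alcoveY lev f x := by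
  rw [alcove_act, cum_dif]

section alcove
variable {lev len : ℕ → ℝ} {f f' : Fin n → ℕ} {x x' : Fin n → ℝ} {τ τ' : ℝ}

lemma alcoveY_strictAnti (hlev : ∀ k k', k < k' → lev k + len k ≤ lev k')
    (hx : x ∈ openSimplex n τ) (hτ : ∀ p, τ ≤ len (f p)) : StrictAnti (alcoveY lev f x) := by
  intro i i' h
  rcases sort_key f h with h1 | ⟨h1, h2⟩
  · have h3 := hlev _ _ h1
    have h4 := cum_pos hx.1 (sortPerm f i)
    have h5 := cum_lt hx (sortPerm f i')
    have h6 := hτ (sortPerm f i')
    simp only [alcoveY]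
    linarith
  · have h3 := cum_strictAnti hx.1 h2
    simp only [alcoveY]
    rw [h1]
    linarith

lemma alcove_act_pos (hlev : ∀ k k', k < k' → lev k + len k ≤ lev k') (hlev0 : ∀ k, 0 ≤ lev k)
    (hx : x ∈ openSimplex n τ) (hτ : ∀ p, τ ≤ len (f p)) (j : Fin n) :
    0 < (alcoveCell lev f).act x j := by
  rw [alcove_act]
  by_cases h : (j : ℕ) + 1 < n
  · rw [dif_apply_of_lt _ _ h]
    have := alcoveY_strictAnti hlev hx hτ (show j < ⟨j + 1, h⟩ from Fin.lt_def.2 (Nat.lt_succ_self _))
    linarith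
  · rw [dif_apply_of_last _ _ h]
    have h1 := cum_pos hx.1 (sortPerm f j)
    have h2 := hlev0 (f (sortPerm f j))
    simp only [alcoveY]
    linarith

lemma alcove_sum (h0 : 0 < n) :
    ∑ l, (alcoveCell lev f).act x l = alcoveY lev f x ⟨0, h0⟩ := by
  rw [sum_eq_cum_zero h0, cum_alcove_act]

/-- Upper bound for the sum of coordinates. -/
lemma alcove_sum_lt (h0 : 0 < n) (hx : x ∈ openSimplex n τ) (hτ : ∀ p, τ ≤ len (f p)) (B : ℝ)
    (hB : ∀ p, lev (f p) + len (f p) ≤ B) : ∑ l, (alcoveCell lev f).act x l < B := by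
  rw [alcove_sum h0]
  have h1 := cum_lt hx (sortPerm f ⟨0, h0⟩)
  have h2 := hB (sortPerm f ⟨0, h0⟩)
  have h3 := hτ (sortPerm f ⟨0, h0⟩)
  simp only [alcoveY]
  linarith

/-- Lower bound for the sum of coordinates. -/
lemma alcove_sum_gt (h0 : 0 < n) (hlev : ∀ k k', k < k' → lev k + len k ≤ lev k')
    (hx : x ∈ openSimplex n τ) (hτ : ∀ p, τ ≤ len (f p)) (B : ℝ) (p : Fin n)
    (hB : B ≤ lev (f p)) : B < ∑ l, (alcoveCell lev f).act x l := by
  rw [alcove_sum h0]
  obtain ⟨i, rfl⟩ := (sortPerm f).surjective p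
  have hanti := alcoveY_strictAnti hlev hx hτ
  have h1 : alcoveY lev f x i ≤ alcoveY lev f x ⟨0, h0⟩ := hanti.antitone (Fin.mk_le_of_le_val (Nat.zero_le _))
  have h2 := cum_pos hx.1 (sortPerm f i)
  simp only [alcoveY] at h1 ⊢
  linarith

/-- Different alcoves of one grid are disjoint. -/
lemma alcove_disj (hlev : ∀ k k', k < k' → lev k + len k ≤ lev k')
    (hx : x ∈ openSimplex n τ) (hτ : ∀ p, τ ≤ len (f p))
    (hx' : x' ∈ openSimplex n τ') (hτ' : ∀ p, τ' ≤ len (f' p))
    (h : (alcoveCell lev f).act x = (alcoveCell lev f').act x') : f = f' := by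
  have hY : alcoveY lev f x = alcoveY lev f' x' := by
    rw [← cum_alcove_act, ← cum_alcove_act, h]
  have hi : ∀ i, f (sortPerm f i) = f' (sortPerm f' i) ∧
      cum x (sortPerm f i) = cum x' (sortPerm f' i) := by
    intro i
    have h1 := congrFun hY i
    simp only [alcoveY] at h1
    have h2 := cum_pos hx.1 (sortPerm f i)
    have h3 := cum_pos hx'.1 (sortPerm f' i)
    have h4 := cum_lt hx (sortPerm f i)
    have h5 := cum_lt hx' (sortPerm f' i)
    have h6 := hτ (sortPerm f i)
    have h7 := hτ' (sortPerm f' i)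
    rcases lt_trichotomy (f (sortPerm f i)) (f' (sortPerm f' i)) with h8 | h8 | h8
    · have := hlev _ _ h8
      exfalso; linarith
    · rw [h8] at h1
      exact ⟨h8, by linarith⟩
    · have := hlev _ _ h8
      exfalso; linarith
  -- the two sorting permutations agree
  let e : Fin n → Fin n := fun p => sortPerm f' ((sortPerm f).symm p)
  have he : ∀ p, cum x p = cum x' (e p) := by
    intro p
    have := (hi ((sortPerm f).symm p)).2
    simpa [e] using this
  have hemono : StrictMono e := by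
    intro p q hpq
    have h1 := cum_strictAnti hx.1 hpq
    rw [he p, he q] at h1
    exact (cum_strictAnti hx'.1).lt_iff_gt.1 h1
  have heid : e = id := by
    have hr : Set.range e = Set.range (id : Fin n → Fin n) := by
      rw [Set.range_id]
      apply Set.range_eq_univ.2
      intro q
      refine ⟨sortPerm f ((sortPerm f').symm q), ?_⟩
      simp [e]
    exact (StrictMono.range_inj hemono strictMono_id).1 hr
  have hperm : ∀ i, sortPerm f' i = sortPerm f i := by
    intro i
    have := congrFun heid (sortPerm f i)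
    simpa [e] using this
  funext p
  obtain ⟨i, rfl⟩ := (sortPerm f).surjective p
  have h1 := (hi i).1
  rw [hperm i] at h1
  exact h1

end alcove

end Vale.Agent.Lib.P209
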