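import Vale.Agent.Lib.P209.Bins

open Real Matrix

namespace Vale.Agent.Lib.P209

variable {n : ℕ}

/-- The involution used for cone cells: with `d = cum x`, the index `z` goes to `- d z`, indices of
key `1` go to `d j - d z`, other indices to `d j`. -/
def coneD (z : Fin n) (F : Fin n → ℕ) : Matrix (Fin n) (Fin n) ℤ := Matrix.of fun j l =>
  if j = z then (if l = z then -1 else 0)
  else (if l = j then 1 else 0) - (if F j = 1 ∧ l = z then 1 else 0)

lemma coneD_row (z : Fin n) (F : Fin n → ℕ) (j l : Fin n) :
    coneD z F j l = if j = z then (if l = z then -1 else 0)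
      else (if l = j then 1 else 0) - (if F j = 1 then (if l = z then 1 else 0) else 0) := by
  simp only [coneD, Matrix.of_apply]
  by_cases h : j = z
  · simp [h]
  · by_cases h2 : F j = 1 <;> simp [h, h2]

lemma coneD_mul_self (z : Fin n) (F : Fin n → ℕ) : coneD z F * coneD z F = 1 := by
  ext j l
  rw [Matrix.mul_apply, Matrix.one_apply]
  by_cases hj : j = z
  · subst hj
    have h : ∀ k, coneD j F j k * coneD j F k l = if k = j then - coneD j F j l else 0 := by
      intro k
      rw [coneD_row j F j k]
      by_cases hk : k = j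
      · subst hk; simp
      · simp [hk]
    simp only [h, Finset.sum_ite_eq', Finset.mem_univ, if_true]
    rw [coneD_row]
    by_cases hl : l = j
    · subst hl; simp
    · simp [hl, Ne.symm hl]
  · have h : ∀ k, coneD z F j k * coneD z F k l
        = (if k = j then coneD z F j l else 0)
          - (if F j = 1 then (if k = z then coneD z F z l else 0) else 0) := by
      intro k
      rw [coneD_row z F j k]
      rw [if_neg hj]
      by_cases hk : k = j
      · subst hk
        have : ¬ (k = z) := hj
        simp [this]
      · by_cases hk2 : k = z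
        · subst hk2
          by_cases h2 : F j = 1
          · simp [h2, hk]
          · simp [h2, hk]
        · by_cases h2 : F j = 1 <;> simp [h2, hk, hk2]
    simp only [h, Finset.sum_sub_distrib, Finset.sum_ite_eq', Finset.mem_univ, if_true]
    have e2 : (∑ k : Fin n, if F j = 1 then (if k = z then coneD z F z l else 0) else 0)
        = if F j = 1 then coneD z F z l else 0 := by
      by_cases h2 : F j = 1 <;> simp [h2]
    rw [e2, coneD_row z F j l, coneD_row z F z l, if_neg hj]
    by_cases h2 : F j = 1
    · by_cases hl : l = z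
      · subst hl
        have : ¬ (j = l) := hj
        simp [h2, this, Ne.symm this]
      · by_cases hl2 : l = j
        · subst hl2; simp [h2, hl]
        · simp [h2, hl, hl2, Ne.symm hl2]
    · by_cases hl2 : l = j
      · subst hl2; simp [h2]
      · simp [h2, hl2, Ne.symm hl2]

/-- The unsorted coordinates of a point of a cone cell. -/
noncomputable def coneU (z : Fin n) (a : ℝ) (F : Fin n → ℕ) (d : Fin n → ℝ) (j : Fin n) : ℝ :=
  if j = z then a - d z else if F j = 1 then a - d z + d j else a + d j

lemma coneD_mulVec (z : Fin n) (F : Fin n → ℕ) (a : ℝ) (d : Fin n → ℝ) (j : Fin n) :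
    ((coneD z F).map (Int.cast : ℤ → ℝ) *ᵥ d) j + a = coneU z a F d j := by
  simp only [Matrix.mulVec, dotProduct, Matrix.map_apply, coneU]
  have h : ∀ l, (((coneD z F j l : ℤ) : ℝ)) * d l =
      if j = z then (if l = z then - d l else 0)
      else (if l = j then d l else 0) - (if F j = 1 then (if l = z then d l else 0) else 0) := by
    intro l
    rw [coneD_row]
    by_cases hj : j = z
    · by_cases hl : l = z <;> simp [hj, hl]
    · rw [if_neg hj, if_neg hj]
      have hzj : ¬ z = j := fun e => hj e.symm
      by_cases hl : l = z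
      · subst hl
        by_cases h2 : F j = 1 <;> simp [h2, hzj]
      · by_cases hl2 : l = j
        · subst hl2
          by_cases h2 : F l = 1 <;> simp [h2, hl]
        · by_cases h2 : F j = 1 <;> simp [h2, hl, hl2]
  simp only [h]
  by_cases hj : j = z
  · subst hj
    simp only [if_true, Finset.sum_ite_eq', Finset.mem_univ]
    ring
  · simp only [hj, if_false, Finset.sum_sub_distrib, Finset.sum_ite_eq', Finset.mem_univ, if_true]
    by_cases h2 : F j = 1
    · simp [h2]; ring
    · simp [h2]; ring

/-- A cone cell: the image of the open simplex of size `a` lies in the simplex where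
`∑ X + X_last < 2 a`. -/
noncomputable def coneCell (z : Fin n) (a : ℝ) (F : Fin n → ℕ) : Cell n where
  A := dMat n * permMat (sortPerm F) * coneD z F * cMat n
  B := (cMat n).transpose * permMat (sortPerm F) * (coneD z F).transpose * (dMat n).transpose
  b := dif (fun _ => a)
  AB := by
    simp only [Matrix.transpose_mul]
    calc (cMat n).transpose * ((coneD z F).transpose * ((permMat (sortPerm F)).transpose *
          (dMat n).transpose)) *
          ((cMat n).transpose * permMat (sortPerm F) * (coneD z F).transpose * (dMat n).transpose)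
        = (cMat n).transpose * ((coneD z F).transpose * ((permMat (sortPerm F)).transpose *
            (((dMat n).transpose * (cMat n).transpose) * permMat (sortPerm F))
            * (coneD z F).transpose)) * (dMat n).transpose := by
          simp only [Matrix.mul_assoc]
      _ = 1 := by
          rw [← Matrix.transpose_mul, cMat_mul_dMat, Matrix.transpose_one, Matrix.one_mul,
            permMat_transpose_mul, Matrix.one_mul, ← Matrix.transpose_mul, coneD_mul_self,
            Matrix.transpose_one, Matrix.mul_one, ← Matrix.transpose_mul, dMat_mul_cMat,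
            Matrix.transpose_one]

/-- The `y`-coordinates of a point of a cone cell. -/
noncomputable def coneY (z : Fin n) (a : ℝ) (F : Fin n → ℕ) (x : Fin n → ℝ) (i : Fin n) : ℝ :=
  coneU z a F (cum x) (sortPerm F i)

lemma cone_act (z : Fin n) (a : ℝ) (F : Fin n → ℕ) (x : Fin n → ℝ) :
    (coneCell z a F).act x = dif (coneY z a F x) := by
  unfold Cell.act
  have e : coneY z a F x
      = (fun i => ((coneD z F).map (Int.cast : ℤ → ℝ) *ᵥ cum x) (sortPerm F i)) + (fun _ => a) := by
    funext i
    simp only [coneY, Pi.add_apply]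
    exact (coneD_mulVec z F a (cum x) (sortPerm F i)).symm
  rw [e, dif_add]
  congr 1
  change ((dMat n * permMat (sortPerm F) * coneD z F * cMat n).map (Int.cast : ℤ → ℝ)) *ᵥ x = _
  rw [map_cast_mul, map_cast_mul, map_cast_mul, ← Matrix.mulVec_mulVec, ← Matrix.mulVec_mulVec,
    ← Matrix.mulVec_mulVec]
  unfold dif
  congr 1
  funext i
  rw [permMat_mulVec]
  rfl

lemma cum_cone_act (z : Fin n) (a : ℝ) (F : Fin n → ℕ) (x : Fin n → ℝ) :
    cum ((coneCell z a F).act x) = coneY z a F x := by
  rw [cone_act, cum_dif]

section cone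

variable {z j : Fin n} {a : ℝ} {F F' : Fin n → ℕ} {x x' : Fin n → ℝ}

/-- Admissible keys. -/
def ConeKey (z : Fin n) (F : Fin n → ℕ) : Prop := F z = 0 ∧ ∀ j, j ≠ z → F j = 1 ∨ F j = 2

lemma coneU_of_one (hj : j ≠ z) (h : F j = 1) {d : Fin n → ℝ} :
    coneU z a F d j = a - d z + d j := by
  simp [coneU, hj, h]

lemma coneU_of_two (hj : j ≠ z) (h : F j = 2) {d : Fin n → ℝ} :
    coneU z a F d j = a + d j := by
  simp [coneU, hj, h]

lemma coneU_self {d : Fin n → ℝ} : coneU z a F d z = a - d z := by
  simp [coneU]

lemma cum_lt_z (hz : ∀ j : Fin n, z ≤ j) (hx : ∀ j, 0 < x j) {j : Fin n} (hj : j ≠ z) :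
    cum x j < cum x z :=
  cum_strictAnti hx (lt_of_le_of_ne (hz j) (Ne.symm hj))

/-- The order of the unsorted coordinates. -/
lemma coneU_lt (hF : ConeKey z F) (hz : ∀ j : Fin n, z ≤ j) (hx : x ∈ openSimplex n a)
    {p q : Fin n} (h : F q < F p ∨ (F p = F q ∧ p < q)) :
    coneU z a F (cum x) q < coneU z a F (cum x) p := by
  have hd0 := cum_pos hx.1
  by_cases hq : q = z
  · subst hq
    rw [hF.1] at h
    have hp : p ≠ q := by
      rintro rfl
      rcases h with h | ⟨_, h⟩
      · rw [hF.1] at h; omega
      · exact lt_irrefl _ h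
    rw [coneU_self]
    rcases hF.2 p hp with h1 | h1
    · rw [coneU_of_one hp h1]
      linarith [hd0 p]
    · rw [coneU_of_two hp h1]
      linarith [hd0 p, hd0 q]
  · by_cases hp : p = z
    · subst hp
      rw [hF.1] at h
      exfalso
      have h3 := hF.2 q hq
      rcases h with h | ⟨h, h2⟩ <;> omega
    · have hanti := cum_strictAnti hx.1
      rcases hF.2 q hq with h1 | h1 <;> rcases hF.2 p hp with h2 | h2
      · rw [coneU_of_one hq h1, coneU_of_one hp h2]
        rcases h with h | ⟨_, h⟩
        · omega
        · linarith [hanti h]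
      · rw [coneU_of_one hq h1, coneU_of_two hp h2]
        linarith [cum_lt_z hz hx.1 hq, hd0 p]
      · rw [h1, h2] at h
        rcases h with h | ⟨h, _⟩ <;> omega
      · rw [coneU_of_two hq h1, coneU_of_two hp h2]
        rcases h with h | ⟨_, h⟩
        · omega
        · linarith [hanti h]

lemma coneY_strictAnti (hF : ConeKey z F) (hz : ∀ j : Fin n, z ≤ j) (hx : x ∈ openSimplex n a) :
    StrictAnti (coneY z a F x) := by
  intro i i' h
  apply coneU_lt hF hz hx
  rcases sort_key F h with h1 | ⟨h1, h2⟩
  · exact Or.inl h1
  · exact Or.inr ⟨h1, h2⟩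

lemma coneU_ge (hF : ConeKey z F) (hx : x ∈ openSimplex n a) (j : Fin n) :
    a - cum x z ≤ coneU z a F (cum x) j := by
  have hd0 := cum_pos hx.1
  by_cases hj : j = z
  · subst hj; rw [coneU_self]
  · rcases hF.2 j hj with h1 | h1
    · rw [coneU_of_one hj h1]; linarith [hd0 j]
    · rw [coneU_of_two hj h1]; linarith [hd0 j, hd0 z]

lemma coneU_lt_add (hF : ConeKey z F) (hz : ∀ j : Fin n, z ≤ j) (hx : x ∈ openSimplex n a)
    (j : Fin n) : coneU z a F (cum x) j < a + cum x z := by
  have hd0 := cum_pos hx.1
  by_cases hj : j = z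
  · subst hj; rw [coneU_self]; linarith [hd0 j]
  · rcases hF.2 j hj with h1 | h1
    · rw [coneU_of_one hj h1]; linarith [cum_lt_z hz hx.1 hj, hd0 z]
    · rw [coneU_of_two hj h1]; linarith [cum_lt_z hz hx.1 hj]

lemma cone_act_pos (hF : ConeKey z F) (hz : ∀ j : Fin n, z ≤ j) (hx : x ∈ openSimplex n a)
    (j : Fin n) : 0 < (coneCell z a F).act x j := by
  rw [cone_act]
  by_cases h : (j : ℕ) + 1 < n
  · rw [dif_apply_of_lt _ _ h]
    have := coneY_strictAnti hF hz hx
      (show j < ⟨j + 1, h⟩ from Fin.lt_def.2 (Nat.lt_succ_self _))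
    linarith
  · rw [dif_apply_of_last _ _ h]
    have h1 := coneU_ge hF hx (sortPerm F j)
    have h2 := cum_lt hx z
    simp only [coneY]
    linarith

lemma cone_sum (h0 : 0 < n) (x : Fin n → ℝ) :
    ∑ l, (coneCell z a F).act x l = coneY z a F x ⟨0, h0⟩ := by
  rw [sum_eq_cum_zero h0, cum_cone_act]

lemma cone_last (h0 : 0 < n) (x : Fin n → ℝ) :
    (coneCell z a F).act x (lastIdx h0) = coneY z a F x (lastIdx h0) := by
  rw [cone_act, dif_apply_of_last]
  simp only [lastIdx]
  omega

/-- The main inequality for cone cells. -/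
lemma cone_w_lt (h0 : 0 < n) (hF : ConeKey z F) (hz : ∀ j : Fin n, z ≤ j)
    (hx : x ∈ openSimplex n a) :
    ∑ l, (coneCell z a F).act x l + (coneCell z a F).act x (lastIdx h0) < 2 * a := by
  rw [cone_sum h0, cone_last h0]
  have h1 := coneU_lt_add hF hz hx (sortPerm F ⟨0, h0⟩)
  obtain ⟨q, hq⟩ := (sortPerm F).surjective z
  have hanti := coneY_strictAnti hF hz hx
  have h2 : coneY z a F x (lastIdx h0) ≤ coneY z a F x q := by
    apply hanti.antitone
    rw [Fin.le_def]
    simp only [lastIdx]
    have := q.isLt
    omega
  have h3 : coneY z a F x q = a - cum x z := by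
    simp only [coneY, hq, coneU_self]
  simp only [coneY] at h1 h2 h3 ⊢
  linarith

lemma cone_sum_lt (h0 : 0 < n) (hF : ConeKey z F) (hz : ∀ j : Fin n, z ≤ j)
    (hx : x ∈ openSimplex n a) : ∑ l, (coneCell z a F).act x l < 2 * a := by
  have h1 := cone_w_lt h0 hF hz hx
  have h2 := cone_act_pos hF hz hx (lastIdx h0)
  linarith

/-- Cone cells with different keys are disjoint. -/
lemma cone_disj (hF : ConeKey z F) (hF' : ConeKey z F') (hz : ∀ j : Fin n, z ≤ j)
    (hx : x ∈ openSimplex n a) (hx' : x' ∈ openSimplex n a)
    (h : (coneCell z a F).act x = (coneCell z a F').act x') : F = F' := by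
  have hY : coneY z a F x = coneY z a F' x' := by
    rw [← cum_cone_act, ← cum_cone_act, h]
  have hi : ∀ i, coneU z a F (cum x) (sortPerm F i) = coneU z a F' (cum x') (sortPerm F' i) :=
    fun i => congrFun hY i
  -- first step: the distinguished coordinate agrees
  have hzz : cum x z = cum x' z := by
    obtain ⟨q, hq⟩ := (sortPerm F).surjective z
    obtain ⟨q', hq'⟩ := (sortPerm F').surjective z
    have h1 := hi q
    have h2 := hi q'
    rw [hq, coneU_self] at h1
    rw [hq', coneU_self] at h2
    have h3 := coneU_ge hF' hx' (sortPerm F' q)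
    have h4 := coneU_ge hF hx (sortPerm F q')
    linarith
  have hd0 := cum_pos hx.1
  have hd0' := cum_pos hx'.1
  -- second step: compare each coordinate
  have hcomp : ∀ i, F (sortPerm F i) = F' (sortPerm F' i) ∧
      cum x (sortPerm F i) = cum x' (sortPerm F' i) := by
    intro i
    have h1 := hi i
    set p := sortPerm F i with hp
    set p' := sortPerm F' i with hp'
    by_cases hpz : p = z
    · by_cases hpz' : p' = z
      · rw [hpz, hpz', hF.1, hF'.1]
        exact ⟨rfl, hzz⟩
      · exfalso
        rw [hpz, coneU_self] at h1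
        rcases hF'.2 p' hpz' with h2 | h2
        · rw [coneU_of_one hpz' h2] at h1
          linarith [hd0' p']
        · rw [coneU_of_two hpz' h2] at h1
          linarith [hd0' p', hd0' z]
    · by_cases hpz' : p' = z
      · exfalso
        rw [hpz', coneU_self] at h1
        rcases hF.2 p hpz with h2 | h2
        · rw [coneU_of_one hpz h2] at h1
          linarith [hd0 p]
        · rw [coneU_of_two hpz h2] at h1
          linarith [hd0 p, hd0 z]
      · rcases hF.2 p hpz with h2 | h2 <;> rcases hF'.2 p' hpz' with h3 | h3
        · rw [coneU_of_one hpz h2, coneU_of_one hpz' h3] at h1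
          exact ⟨h2.trans h3.symm, by linarith⟩
        · exfalso
          rw [coneU_of_one hpz h2, coneU_of_two hpz' h3] at h1
          linarith [cum_lt_z hz hx.1 hpz, hd0' p']
        · exfalso
          rw [coneU_of_two hpz h2, coneU_of_one hpz' h3] at h1
          linarith [cum_lt_z hz hx'.1 hpz', hd0 p]
        · rw [coneU_of_two hpz h2, coneU_of_two hpz' h3] at h1
          exact ⟨h2.trans h3.symm, by linarith⟩
  -- third step: the two sorting permutations agree
  let e : Fin n → Fin n := fun p => sortPerm F' ((sortPerm F).symm p)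
  have he : ∀ p, cum x p = cum x' (e p) := by
    intro p
    have := (hcomp ((sortPerm F).symm p)).2
    simpa [e] using this
  have hemono : StrictMono e := by
    intro p q hpq
    have h1 := cum_strictAnti hx.1 hpq
    rw [he p, he q] at h1
    exact (cum_strictAnti hx'.1).lt_iff_gt.1 h1
  have heid : e = id := by
    have hr : Set.range e = Set.range (id : Fin n → Fin n) := by
      rw [Set.range_id]
      apply Set.range_eq_univ.2
      intro q
      refine ⟨sortPerm F ((sortPerm F').symm q), ?_⟩
      simp [e]
    exact (StrictMono.range_inj hemono strictMono_id).1 hr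
  have hperm : ∀ i, sortPerm F' i = sortPerm F i := by
    intro i
    have := congrFun heid (sortPerm F i)
    simpa [e] using this
  funext p
  obtain ⟨i, rfl⟩ := (sortPerm F).surjective p
  have h1 := (hcomp i).1
  rw [hperm i] at h1
  exact h1

end cone

end Vale.Agent.Lib.P209
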