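import Mathlib

open scoped ContDiff

namespace Vale.Agent.Lib.P209

/-- The function `π ∑ |z_j|²` on `ℂⁿ`: the closed ball of capacity `R` is `{z | cap z ≤ R}` and its
interior is `{z | cap z < R}`. -/
noncomputable def cap {n : ℕ} (z : Fin n → ℂ) : ℝ := Real.pi * ∑ j, ‖z j‖ ^ 2

/-- The standard symplectic form `ω₀ = ∑ dx_j ∧ dy_j` on `ℂⁿ`. -/
def omega {n : ℕ} (v w : Fin n → ℂ) : ℝ :=
  ∑ j, ((v j).re * (w j).im - (v j).im * (w j).re)

/-- `f` is a symplectic embedding of the closed ball of capacity `r`: on some open neighbourhood `U`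
of the ball, `f` is smooth, a topological embedding, and pulls `ω₀` back to `ω₀`. -/
def IsSymplecticBallEmbedding {n : ℕ} (r : ℝ) (f : (Fin n → ℂ) → (Fin n → ℂ)) : Prop :=
  ∃ U : Set (Fin n → ℂ), IsOpen U ∧ {z | cap z ≤ r} ⊆ U ∧ ContDiffOn ℝ ∞ f U ∧
    Topology.IsEmbedding (U.restrict f) ∧
    ∀ z ∈ U, ∀ v w, omega (fderiv ℝ f z v) (fderiv ℝ f z w) = omega v w

/-- There is a symplectic embedding of the disjoint union of the closed balls of capacities `r i`
into the open ball of capacity `R`: symplectic embeddings of the balls whose images of the closed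
balls lie in the open ball and are pairwise disjoint. -/
def SymplecticPacking (n : ℕ) {k : ℕ} (r : Fin k → ℝ) (R : ℝ) : Prop :=
  ∃ f : Fin k → (Fin n → ℂ) → (Fin n → ℂ),
    (∀ i, IsSymplecticBallEmbedding (r i) (f i)) ∧
    (∀ i z, cap z ≤ r i → cap (f i z) < R) ∧
    (∀ i j, i ≠ j → ∀ z w, cap z ≤ r i → cap w ≤ r j → f i z ≠ f j w)

end Vale.Agent.Lib.P209
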