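import Vale.Agent.Lib.P209.Polar

open Real Complex
open scoped ContDiff

namespace Vale.Agent.Lib.P209

/-- Sawtooth profile as a function of a unit vector. -/
noncomputable def hatH (A r : ℝ) (u : ℂ) : ℝ :=
  A * (π / 2 - Real.arctan (r * u.im / (1 - r * u.re)))

/-- Sawtooth profile as a function of the angle. -/
noncomputable def sawH (A r : ℝ) (θ : ℝ) : ℝ :=
  A * (π / 2 - Real.arctan (r * Real.sin θ / (1 - r * Real.cos θ)))

lemma hatH_exp (A r θ : ℝ) : hatH A r (cexp ((θ : ℂ) * I)) = sawH A r θ := by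
  simp only [hatH, sawH, Complex.exp_ofReal_mul_I_re, Complex.exp_ofReal_mul_I_im]

lemma hatH_pos (A r : ℝ) (hA : 0 < A) (u : ℂ) : 0 < hatH A r u := by
  have := Real.arctan_lt_pi_div_two (r * u.im / (1 - r * u.re))
  unfold hatH
  apply mul_pos hA; linarith

lemma sawH_pos (A r : ℝ) (hA : 0 < A) (θ : ℝ) : 0 < sawH A r θ := by
  rw [← hatH_exp]; exact hatH_pos A r hA _

section deriv
variable {A r : ℝ}

lemma denom_pos (hr0 : 0 ≤ r) (hr1 : r < 1) (θ : ℝ) : 0 < 1 - r * Real.cos θ := by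
  have : r * Real.cos θ ≤ r * 1 := mul_le_mul_of_nonneg_left (Real.cos_le_one θ) hr0
  linarith

lemma sawH_hasDerivAt (hr0 : 0 ≤ r) (hr1 : r < 1) (θ : ℝ) :
    HasDerivAt (sawH A r)
      (A * ((r ^ 2 - r * Real.cos θ) / (1 - 2 * r * Real.cos θ + r ^ 2))) θ := by
  have hd := denom_pos hr0 hr1 θ
  have h1 : HasDerivAt (fun t => r * Real.sin t) (r * Real.cos θ) θ :=
    (Real.hasDerivAt_sin θ).const_mul r
  have h2 : HasDerivAt (fun t => 1 - r * Real.cos t) (r * Real.sin θ) θ := by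
    have := ((Real.hasDerivAt_cos θ).const_mul r).const_sub 1
    have e : - (r * -Real.sin θ) = r * Real.sin θ := by ring
    rwa [e] at this
  have h3 : HasDerivAt (fun t => r * Real.sin t / (1 - r * Real.cos t))
      ((r * Real.cos θ * (1 - r * Real.cos θ) - r * Real.sin θ * (r * Real.sin θ))
        / (1 - r * Real.cos θ) ^ 2) θ := h1.div h2 hd.ne'
  have h4 := h3.arctan
  have h5 := ((hasDerivAt_const θ (π / 2)).sub h4).const_mul A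
  have hD : 0 < 1 - 2 * r * Real.cos θ + r ^ 2 := by
    have : 1 - 2 * r * Real.cos θ + r ^ 2
        = (1 - r * Real.cos θ) ^ 2 + (r * Real.sin θ) ^ 2 := by
      have := Real.sin_sq_add_cos_sq θ
      nlinarith
    rw [this]; positivity
  have e : 1 + (r * Real.sin θ / (1 - r * Real.cos θ)) ^ 2
      = (1 - 2 * r * Real.cos θ + r ^ 2) / (1 - r * Real.cos θ) ^ 2 := by
    have := Real.sin_sq_add_cos_sq θ
    field_simp
    nlinarith
  have e2 : (0 - 1 / (1 + (r * Real.sin θ / (1 - r * Real.cos θ)) ^ 2) *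
      ((r * Real.cos θ * (1 - r * Real.cos θ) - r * Real.sin θ * (r * Real.sin θ))
        / (1 - r * Real.cos θ) ^ 2))
      = (r ^ 2 - r * Real.cos θ) / (1 - 2 * r * Real.cos θ + r ^ 2) := by
    rw [e]
    have hd' := hd.ne'
    have hD' := hD.ne'
    have hs : Real.sin θ ^ 2 = 1 - Real.cos θ ^ 2 := by
      have := Real.sin_sq_add_cos_sq θ; linarith
    field_simp
    ring_nf
    rw [hs]
    ring
  rw [e2] at h5
  exact h5

lemma sawH_deriv_le (hA : 0 < A) (hr0 : 0 ≤ r) (hr1 : r < 1) (θ : ℝ) :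
    A * ((r ^ 2 - r * Real.cos θ) / (1 - 2 * r * Real.cos θ + r ^ 2)) ≤ A := by
  have hd := denom_pos hr0 hr1 θ
  have hD : 0 < 1 - 2 * r * Real.cos θ + r ^ 2 := by
    have : 1 - 2 * r * Real.cos θ + r ^ 2
        = (1 - r * Real.cos θ) ^ 2 + (r * Real.sin θ) ^ 2 := by
      have := Real.sin_sq_add_cos_sq θ
      nlinarith
    rw [this]; positivity
  have h : (r ^ 2 - r * Real.cos θ) / (1 - 2 * r * Real.cos θ + r ^ 2) ≤ 1 := by
    rw [div_le_one hD]; linarith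
  nlinarith

/-- The sawtooth rises at rate at most `A`. -/
lemma sawH_rise (hA : 0 < A) (hr0 : 0 ≤ r) (hr1 : r < 1) (θ γ : ℝ) (hγ : 0 ≤ γ) :
    sawH A r (θ + γ) ≤ sawH A r θ + A * γ := by
  have hd : Differentiable ℝ (sawH A r) := fun t =>
    (sawH_hasDerivAt hr0 hr1 t).differentiableAt
  have key := image_sub_le_mul_sub_of_deriv_le hd (C := A)
    (fun t => by rw [(sawH_hasDerivAt hr0 hr1 t).deriv]; exact sawH_deriv_le hA hr0 hr1 t)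
    (x := θ) (y := θ + γ) (by linarith)
  have e : θ + γ - θ = γ := by ring
  rw [e] at key
  linarith

lemma sawH_value_pos (δ : ℝ) (hδ : 0 < δ) (hδ' : δ < π) :
    sawH A (Real.cos δ) δ = A * δ := by
  have hs : 0 < Real.sin δ := Real.sin_pos_of_pos_of_lt_pi hδ hδ'
  have h : Real.cos δ * Real.sin δ / (1 - Real.cos δ * Real.cos δ)
      = Real.tan (π / 2 - δ) := by
    rw [Real.tan_pi_div_two_sub, Real.tan_eq_sin_div_cos]
    have h1 : 1 - Real.cos δ * Real.cos δ = Real.sin δ ^ 2 := by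
      have := Real.sin_sq_add_cos_sq δ; nlinarith
    rw [h1, inv_div]
    field_simp
  unfold sawH
  rw [h, Real.arctan_tan (by linarith) (by linarith)]
  ring

lemma sawH_value_neg (δ : ℝ) (hδ : 0 < δ) (hδ' : δ < π) :
    sawH A (Real.cos δ) (-δ) = A * (π - δ) := by
  have hs : 0 < Real.sin δ := Real.sin_pos_of_pos_of_lt_pi hδ hδ'
  have h : Real.cos δ * Real.sin (-δ) / (1 - Real.cos δ * Real.cos (-δ))
      = - Real.tan (π / 2 - δ) := by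
    rw [Real.tan_pi_div_two_sub, Real.tan_eq_sin_div_cos, Real.sin_neg, Real.cos_neg]
    have h1 : 1 - Real.cos δ * Real.cos δ = Real.sin δ ^ 2 := by
      have := Real.sin_sq_add_cos_sq δ; nlinarith
    rw [h1, inv_div]
    field_simp
  unfold sawH
  rw [h, Real.arctan_neg, Real.arctan_tan (by linarith) (by linarith)]
  ring

end deriv

/-- Radial part: the level value. -/
noncomputable def fc (A r : ℝ) (z : ℂ) : ℝ :=
  π * ‖z‖ ^ 2 - hatH A r (z / ((‖z‖ : ℝ) : ℂ))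

/-- Angular part: the rotated unit vector. -/
noncomputable def fu (A r : ℝ) (g : ℝ → ℝ) (z : ℂ) : ℂ :=
  z / ((‖z‖ : ℝ) : ℂ) * cexp ((g (fc A r z) : ℂ) * I)

/-- The finger map. -/
noncomputable def fingerMap (A r : ℝ) (g : ℝ → ℝ) (z : ℂ) : ℂ :=
  ((√((fc A r z + hatH A r (fu A r g z)) / π) : ℝ) : ℂ) * fu A r g z

/-- The same map in area-angle coordinates. -/
noncomputable def Rt (A r : ℝ) (g : ℝ → ℝ) (p : ℝ × ℝ) : ℝ × ℝ :=
  (fun q : ℝ × ℝ => (q.1 + sawH A r q.2, q.2))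
    ((fun q : ℝ × ℝ => (q.1, q.2 + g q.1))
      ((fun q : ℝ × ℝ => (q.1 + (fun t => - sawH A r t) q.2, q.2)) p))

lemma Rt_fst (A r : ℝ) (g : ℝ → ℝ) (p : ℝ × ℝ) :
    (Rt A r g p).1 = p.1 - sawH A r p.2 + sawH A r (p.2 + g (p.1 - sawH A r p.2)) := by
  simp [Rt, sub_eq_add_neg]

lemma Rt_snd (A r : ℝ) (g : ℝ → ℝ) (p : ℝ × ℝ) :
    (Rt A r g p).2 = p.2 + g (p.1 - sawH A r p.2) := by
  simp [Rt, sub_eq_add_neg]

lemma polar1_norm (y : ℝ × ℝ) (hy : 0 < y.1) : ‖polar1 y‖ = √(y.1 / π) := by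
  have hq : 0 ≤ y.1 / π := (div_pos hy Real.pi_pos).le
  simp [polar1, Complex.norm_exp_ofReal_mul_I, abs_of_nonneg (Real.sqrt_nonneg _)]

lemma polar1_cap (y : ℝ × ℝ) (hy : 0 < y.1) : π * ‖polar1 y‖ ^ 2 = y.1 := by
  have hq : 0 ≤ y.1 / π := (div_pos hy Real.pi_pos).le
  rw [polar1_norm y hy, Real.sq_sqrt hq]
  field_simp

lemma polar1_unit (y : ℝ × ℝ) (hy : 0 < y.1) :
    polar1 y / (‖polar1 y‖ : ℂ) = cexp ((y.2 : ℂ) * I) := by
  have hq : 0 < y.1 / π := div_pos hy Real.pi_pos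
  have h : ((√(y.1 / π) : ℝ) : ℂ) ≠ 0 := by
    exact_mod_cast (Real.sqrt_pos.2 hq).ne'
  rw [polar1_norm y hy, polar1]
  field_simp

lemma exists_polar (z : ℂ) (hz : z ≠ 0) :
    ∃ y : ℝ × ℝ, 0 < y.1 ∧ polar1 y = z := by
  have hn : 0 < ‖z‖ := norm_pos_iff.2 hz
  refine ⟨(π * ‖z‖ ^ 2, Complex.arg z), by positivity, ?_⟩
  have h : √(π * ‖z‖ ^ 2 / π) = ‖z‖ := by
    have : π * ‖z‖ ^ 2 / π = ‖z‖ ^ 2 := by
      field_simp
    rw [this, Real.sqrt_sq hn.le]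
  simp only [polar1, h]
  exact Complex.norm_mul_exp_arg_mul_I z

lemma fc_polar (A r : ℝ) (y : ℝ × ℝ) (hy : 0 < y.1) :
    fc A r (polar1 y) = y.1 - sawH A r y.2 := by
  rw [fc, polar1_cap y hy, polar1_unit y hy, hatH_exp]

lemma fu_polar (A r : ℝ) (g : ℝ → ℝ) (y : ℝ × ℝ) (hy : 0 < y.1) :
    fu A r g (polar1 y) = cexp (((y.2 + g (y.1 - sawH A r y.2) : ℝ) : ℂ) * I) := by
  rw [fu, polar1_unit y hy, fc_polar A r y hy, ← Complex.exp_add]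
  congr 1
  push_cast
  ring

lemma fingerMap_polar (A r : ℝ) (g : ℝ → ℝ) (y : ℝ × ℝ) (hy : 0 < y.1) :
    fingerMap A r g (polar1 y) = polar1 (Rt A r g y) := by
  rw [fingerMap, fu_polar A r g y hy, fc_polar A r y hy, hatH_exp, polar1, Rt_fst, Rt_snd]

lemma Rt_pos (A r : ℝ) (hA : 0 < A) (g : ℝ → ℝ) (c₁ : ℝ) (hc₁ : 0 ≤ c₁)
    (hg : ∀ c, c ≤ c₁ → g c = 0) (y : ℝ × ℝ) (hy : 0 < y.1) : 0 < (Rt A r g y).1 := by
  rw [Rt_fst]
  by_cases h : y.1 - sawH A r y.2 ≤ c₁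
  · rw [hg _ h]; simpa using hy
  · have := sawH_pos A r hA (y.2 + g (y.1 - sawH A r y.2))
    push Not at h
    linarith

lemma Rt_neg_Rt (A r : ℝ) (g : ℝ → ℝ) (y : ℝ × ℝ) :
    Rt A r (fun c => - g c) (Rt A r g y) = y := by
  ext
  · rw [Rt_fst, Rt_snd, Rt_fst]
    have e : y.1 - sawH A r y.2 + sawH A r (y.2 + g (y.1 - sawH A r y.2)) -
        sawH A r (y.2 + g (y.1 - sawH A r y.2)) = y.1 - sawH A r y.2 := by ring
    rw [e]
    simp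
  · rw [Rt_snd, Rt_fst, Rt_snd]
    have e : y.1 - sawH A r y.2 + sawH A r (y.2 + g (y.1 - sawH A r y.2)) -
        sawH A r (y.2 + g (y.1 - sawH A r y.2)) = y.1 - sawH A r y.2 := by ring
    rw [e]
    ring

lemma fingerMap_zero (A r : ℝ) (g : ℝ → ℝ) : fingerMap A r g 0 = 0 := by
  simp [fingerMap, fu]

lemma fingerMap_leftInv (A r : ℝ) (hA : 0 < A) (g : ℝ → ℝ) (c₁ : ℝ) (hc₁ : 0 ≤ c₁)
    (hg : ∀ c, c ≤ c₁ → g c = 0) (z : ℂ) :
    fingerMap A r (fun c => - g c) (fingerMap A r g z) = z := by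
  by_cases hz : z = 0
  · rw [hz, fingerMap_zero, fingerMap_zero]
  · obtain ⟨y, hy, rfl⟩ := exists_polar z hz
    rw [fingerMap_polar A r g y hy,
      fingerMap_polar A r _ _ (Rt_pos A r hA g c₁ hc₁ hg y hy), Rt_neg_Rt]

lemma fingerMap_injective (A r : ℝ) (hA : 0 < A) (g : ℝ → ℝ) (c₁ : ℝ) (hc₁ : 0 ≤ c₁)
    (hg : ∀ c, c ≤ c₁ → g c = 0) : Function.Injective (fingerMap A r g) :=
  Function.LeftInverse.injective (fingerMap_leftInv A r hA g c₁ hc₁ hg)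

/-- Near the origin the map is the identity. -/
lemma fingerMap_eq_self (A r : ℝ) (hA : 0 < A) (g : ℝ → ℝ) (c₁ : ℝ)
    (hg : ∀ c, c ≤ c₁ → g c = 0) (z : ℂ) (hz : π * ‖z‖ ^ 2 < c₁) : fingerMap A r g z = z := by
  by_cases h0 : z = 0
  · rw [h0, fingerMap_zero]
  · obtain ⟨y, hy, rfl⟩ := exists_polar z h0
    rw [fingerMap_polar A r g y hy]
    have h1 : y.1 < c₁ := by rwa [polar1_cap y hy] at hz
    have h2 := sawH_pos A r hA y.2
    have h3 : g (y.1 - sawH A r y.2) = 0 := hg _ (by linarith)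
    have e : Rt A r g y = y := by
      ext
      · rw [Rt_fst, h3]; simp
      · rw [Rt_snd, h3]; simp
    rw [e]

/-- Radial estimate of the finger map. -/
lemma fingerMap_cap (A r : ℝ) (hA : 0 < A) (hr0 : 0 ≤ r) (hr1 : r < 1) (g : ℝ → ℝ) (c₁ G : ℝ)
    (hc₁ : 0 ≤ c₁) (hg : ∀ c, c ≤ c₁ → g c = 0) (hg0 : ∀ c, 0 ≤ g c) (hgG : ∀ c, g c ≤ G)
    (z : ℂ) : π * ‖fingerMap A r g z‖ ^ 2 ≤ π * ‖z‖ ^ 2 + A * G := by
  have hG : 0 ≤ G := (hg0 0).trans (hgG 0)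
  by_cases h0 : z = 0
  · rw [h0, fingerMap_zero]
    simp
    positivity
  · obtain ⟨y, hy, rfl⟩ := exists_polar z h0
    rw [fingerMap_polar A r g y hy, polar1_cap _ (Rt_pos A r hA g c₁ hc₁ hg y hy),
      polar1_cap y hy, Rt_fst]
    have h1 := sawH_rise hA hr0 hr1 y.2 (g (y.1 - sawH A r y.2)) (hg0 _)
    have h2 : A * g (y.1 - sawH A r y.2) ≤ A * G := mul_le_mul_of_nonneg_left (hgG _) hA.le
    linarith

lemma fingerMap_hits (δ A : ℝ) (hA : 0 < A) (hδ : 0 < δ) (hδ' : δ < π) (g : ℝ → ℝ)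
    (hg : g (A * δ) = 2 * δ) :
    fingerMap A (Real.cos δ) g (polar1 (A * π, -δ)) = polar1 (2 * A * δ, δ) := by
  have hp : 0 < A * π := mul_pos hA Real.pi_pos
  rw [fingerMap_polar A _ g (A * π, -δ) hp]
  congr 1
  have e1 : A * π - sawH A (Real.cos δ) (-δ) = A * δ := by
    rw [sawH_value_neg δ hδ hδ']; ring
  ext
  · rw [Rt_fst]
    simp only []
    rw [e1, hg]
    have : -δ + 2 * δ = δ := by ring
    rw [this, sawH_value_pos δ hδ hδ']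
    ring
  · rw [Rt_snd]
    simp only []
    rw [e1, hg]
    ring

section smooth

lemma hatH_contDiffAt (A r : ℝ) (u : ℂ) (h : 1 - r * u.re ≠ 0) :
    ContDiffAt ℝ ∞ (hatH A r) u := by
  have hre : ContDiffAt ℝ ∞ (fun u : ℂ => u.re) u := Complex.reCLM.contDiff.contDiffAt
  have him : ContDiffAt ℝ ∞ (fun u : ℂ => u.im) u := Complex.imCLM.contDiff.contDiffAt
  unfold hatH
  apply contDiffAt_const.mul
  apply contDiffAt_const.sub
  apply ContDiffAt.arctan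
  exact (contDiffAt_const.mul him).div (contDiffAt_const.sub (contDiffAt_const.mul hre)) h

lemma contDiffAt_unit (z : ℂ) (hz : z ≠ 0) :
    ContDiffAt ℝ ∞ (fun z : ℂ => z / ((‖z‖ : ℝ) : ℂ)) z := by
  have h1 : ContDiffAt ℝ ∞ (fun z : ℂ => ((‖z‖ : ℝ) : ℂ)) z :=
    Complex.ofRealCLM.contDiff.contDiffAt.comp z (contDiffAt_norm ℝ hz)
  have hne : ((‖z‖ : ℝ) : ℂ) ≠ 0 := by exact_mod_cast (norm_pos_iff.2 hz).ne'
  have h2 : ContDiffAt ℝ ∞ (fun z : ℂ => z * (((‖z‖ : ℝ) : ℂ))⁻¹) z :=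
    ContDiffAt.mul (f := fun z : ℂ => z) contDiffAt_id (h1.inv hne)
  simpa only [div_eq_mul_inv] using h2

lemma unit_norm (z : ℂ) (hz : z ≠ 0) : ‖z / ((‖z‖ : ℝ) : ℂ)‖ = 1 := by
  have hn : 0 < ‖z‖ := norm_pos_iff.2 hz
  simp [hn.ne']

lemma denom_ne_of_norm (r : ℝ) (hr0 : 0 ≤ r) (hr1 : r < 1) (u : ℂ) (hu : ‖u‖ = 1) :
    1 - r * u.re ≠ 0 := by
  have h1 : u.re ≤ 1 := by
    have := Complex.re_le_norm u
    rwa [hu] at this
  have h2 : r * u.re ≤ r * 1 := mul_le_mul_of_nonneg_left h1 hr0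
  have : 0 < 1 - r * u.re := by linarith
  exact this.ne'

lemma fc_contDiffAt (A r : ℝ) (hr0 : 0 ≤ r) (hr1 : r < 1) (z : ℂ) (hz : z ≠ 0) :
    ContDiffAt ℝ ∞ (fc A r) z := by
  unfold fc
  have h1 : ContDiffAt ℝ ∞ (fun z : ℂ => π * ‖z‖ ^ 2) z :=
    contDiffAt_const.mul (contDiff_norm_sq ℝ).contDiffAt
  have h2 : ContDiffAt ℝ ∞ (fun z : ℂ => hatH A r (z / ((‖z‖ : ℝ) : ℂ))) z := by
    have hne := denom_ne_of_norm r hr0 hr1 _ (unit_norm z hz)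
    exact ContDiffAt.comp (g := hatH A r) (f := fun z : ℂ => z / ((‖z‖ : ℝ) : ℂ)) z
      (hatH_contDiffAt A r _ hne) (contDiffAt_unit z hz)
  exact h1.sub h2

lemma fu_contDiffAt (A r : ℝ) (hr0 : 0 ≤ r) (hr1 : r < 1) (g : ℝ → ℝ) (hg : ContDiff ℝ ∞ g)
    (z : ℂ) (hz : z ≠ 0) : ContDiffAt ℝ ∞ (fu A r g) z := by
  unfold fu
  have h1 : ContDiffAt ℝ ∞ (fun z : ℂ => ((g (fc A r z) : ℝ) : ℂ)) z :=
    Complex.ofRealCLM.contDiff.contDiffAt.comp z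
      (hg.contDiffAt.comp z (fc_contDiffAt A r hr0 hr1 z hz))
  have h2 : ContDiffAt ℝ ∞ (fun z : ℂ => cexp (((g (fc A r z) : ℝ) : ℂ) * I)) z :=
    (h1.mul contDiffAt_const).cexp
  exact (contDiffAt_unit z hz).mul h2

lemma fu_norm (A r : ℝ) (g : ℝ → ℝ) (z : ℂ) (hz : z ≠ 0) : ‖fu A r g z‖ = 1 := by
  rw [fu, norm_mul, unit_norm z hz, Complex.norm_exp_ofReal_mul_I, one_mul]

lemma fsum_pos (A r : ℝ) (hA : 0 < A) (g : ℝ → ℝ) (c₁ : ℝ) (hc₁ : 0 ≤ c₁)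
    (hg : ∀ c, c ≤ c₁ → g c = 0) (z : ℂ) (hz : z ≠ 0) :
    0 < fc A r z + hatH A r (fu A r g z) := by
  obtain ⟨y, hy, rfl⟩ := exists_polar z hz
  have := Rt_pos A r hA g c₁ hc₁ hg y hy
  rw [Rt_fst] at this
  rw [fc_polar A r y hy, fu_polar A r g y hy, hatH_exp]
  exact this

lemma fingerMap_contDiffAt_ne (A r : ℝ) (hA : 0 < A) (hr0 : 0 ≤ r) (hr1 : r < 1) (g : ℝ → ℝ)
    (hg : ContDiff ℝ ∞ g) (c₁ : ℝ) (hc₁ : 0 ≤ c₁) (hg0 : ∀ c, c ≤ c₁ → g c = 0)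
    (z : ℂ) (hz : z ≠ 0) : ContDiffAt ℝ ∞ (fingerMap A r g) z := by
  unfold fingerMap
  have hu := fu_contDiffAt A r hr0 hr1 g hg z hz
  have hfc := fc_contDiffAt A r hr0 hr1 z hz
  have hH : ContDiffAt ℝ ∞ (fun z => hatH A r (fu A r g z)) z :=
    ContDiffAt.comp (g := hatH A r) (f := fu A r g) z
      (hatH_contDiffAt A r _ (denom_ne_of_norm r hr0 hr1 _ (fu_norm A r g z hz))) hu
  have hs : ContDiffAt ℝ ∞ (fun z => (fc A r z + hatH A r (fu A r g z)) / π) z :=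
    (hfc.add hH).div contDiffAt_const Real.pi_pos.ne'
  have hp := fsum_pos A r hA g c₁ hc₁ hg0 z hz
  have hq : (fc A r z + hatH A r (fu A r g z)) / π ≠ 0 := (div_pos hp Real.pi_pos).ne'
  have hsq := hs.sqrt hq
  have hc : ContDiffAt ℝ ∞ (fun z => ((√((fc A r z + hatH A r (fu A r g z)) / π) : ℝ) : ℂ)) z :=
    Complex.ofRealCLM.contDiff.contDiffAt.comp z hsq
  exact hc.mul hu

lemma fingerMap_eventually_id (A r : ℝ) (hA : 0 < A) (g : ℝ → ℝ) (c₁ : ℝ) (hc₁ : 0 < c₁)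
    (hg0 : ∀ c, c ≤ c₁ → g c = 0) : fingerMap A r g =ᶠ[nhds 0] id := by
  have hc : Continuous (fun z : ℂ => π * ‖z‖ ^ 2) := by fun_prop
  have h0 : (fun z : ℂ => π * ‖z‖ ^ 2) 0 < c₁ := by simpa using hc₁
  filter_upwards [hc.continuousAt.eventually (gt_mem_nhds h0)] with z hz
  exact fingerMap_eq_self A r hA g c₁ hg0 z hz

lemma fingerMap_contDiff (A r : ℝ) (hA : 0 < A) (hr0 : 0 ≤ r) (hr1 : r < 1) (g : ℝ → ℝ)
    (hg : ContDiff ℝ ∞ g) (c₁ : ℝ) (hc₁ : 0 < c₁) (hg0 : ∀ c, c ≤ c₁ → g c = 0) :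
    ContDiff ℝ ∞ (fingerMap A r g) := by
  rw [contDiff_iff_contDiffAt]
  intro z
  by_cases hz : z = 0
  · subst hz
    exact contDiffAt_id.congr_of_eventuallyEq (fingerMap_eventually_id A r hA g c₁ hc₁ hg0)
  · exact fingerMap_contDiffAt_ne A r hA hr0 hr1 g hg c₁ hc₁.le hg0 z hz

lemma Rt_hasFDerivAt (A r : ℝ) (hr0 : 0 ≤ r) (hr1 : r < 1) (g : ℝ → ℝ) (hg : ContDiff ℝ ∞ g)
    (y : ℝ × ℝ) :
    ∃ L : ℝ × ℝ →L[ℝ] ℝ × ℝ, HasFDerivAt (Rt A r g) L y ∧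
      ∀ v w, omStd (L v) (L w) = omStd v w := by
  have hgd : Differentiable ℝ g := hg.differentiable (by simp)
  have hH : ∀ t, HasDerivAt (sawH A r) _ t := fun t => sawH_hasDerivAt (A := A) hr0 hr1 t
  obtain ⟨L₀, h₀, p₀⟩ := shear1_hasFDerivAt (fun t => - sawH A r t) _ y
    ((hH y.2).neg)
  obtain ⟨L₁, h₁, p₁⟩ := shear2_hasFDerivAt g _
    ((fun q : ℝ × ℝ => (q.1 + (fun t => - sawH A r t) q.2, q.2)) y) (hgd _).hasDerivAt
  obtain ⟨L₂, h₂, p₂⟩ := shear1_hasFDerivAt (sawH A r) _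
    ((fun q : ℝ × ℝ => (q.1, q.2 + g q.1))
      ((fun q : ℝ × ℝ => (q.1 + (fun t => - sawH A r t) q.2, q.2)) y)) (hH _)
  have hcomp := h₂.comp y (h₁.comp y h₀)
  refine ⟨L₂.comp (L₁.comp L₀), hcomp, fun v w => ?_⟩
  simp only [ContinuousLinearMap.comp_apply]
  rw [p₂, p₁, p₀]

lemma fingerMap_symp (A r : ℝ) (hA : 0 < A) (hr0 : 0 ≤ r) (hr1 : r < 1) (g : ℝ → ℝ)
    (hg : ContDiff ℝ ∞ g) (c₁ : ℝ) (hc₁ : 0 < c₁) (hg0 : ∀ c, c ≤ c₁ → g c = 0)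
    (z v w : ℂ) :
    om (fderiv ℝ (fingerMap A r g) z v) (fderiv ℝ (fingerMap A r g) z w) = om v w := by
  have hsm := fingerMap_contDiff A r hA hr0 hr1 g hg c₁ hc₁ hg0
  have hdiff : Differentiable ℝ (fingerMap A r g) := hsm.differentiable (by simp)
  by_cases hz : z = 0
  · subst hz
    have h1 : fderiv ℝ (fingerMap A r g) 0 = ContinuousLinearMap.id ℝ ℂ := by
      rw [(fingerMap_eventually_id A r hA g c₁ hc₁ hg0).fderiv_eq]
      exact fderiv_id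
    rw [h1]
    rfl
  · obtain ⟨y, hy, rfl⟩ := exists_polar z hz
    have hRt := Rt_pos A r hA g c₁ hc₁.le hg0 y hy
    obtain ⟨L, hL, hLf⟩ := polar1_hasFDerivAt y hy
    obtain ⟨L', hL', hLf'⟩ := polar1_hasFDerivAt (Rt A r g y) hRt
    obtain ⟨DTt, hDTt, hDTtom⟩ := Rt_hasFDerivAt A r hr0 hr1 g hg y
    refine chart_transfer omStd om (1 / (2 * π)) polar1 (fingerMap A r g) (Rt A r g) y
      L L' _ DTt hL hL' (hdiff _).hasFDerivAt hDTt ?_ (polar1_om _ hRt L' hLf')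
      (polar1_om y hy L hLf) hDTtom (polar1_surj y hy L hLf) v w
    have hopen : ∀ᶠ p : ℝ × ℝ in nhds y, 0 < p.1 :=
      continuous_fst.continuousAt.eventually (lt_mem_nhds hy)
    filter_upwards [hopen] with p hp
    exact fingerMap_polar A r g p hp

end smooth

/-- The twist profile. -/
noncomputable def twist (A δ c : ℝ) : ℝ := 2 * δ * Real.smoothTransition (2 * c / (A * δ) - 1)

lemma twist_contDiff (A δ : ℝ) : ContDiff ℝ ∞ (twist A δ) := by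
  unfold twist
  apply contDiff_const.mul
  have h : ContDiff ℝ ∞ (fun c : ℝ => 2 * c / (A * δ) - 1) := by
    apply ContDiff.sub _ contDiff_const
    apply ContDiff.div_const
    exact contDiff_const.mul contDiff_id
  exact Real.smoothTransition.contDiff.comp h

lemma twist_at (A δ : ℝ) (hA : 0 < A) (hδ : 0 < δ) : twist A δ (A * δ) = 2 * δ := by
  unfold twist
  have : 2 * (A * δ) / (A * δ) - 1 = 1 := by field_simp; norm_num
  rw [this, Real.smoothTransition.one]; ring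

lemma twist_low (A δ : ℝ) (hA : 0 < A) (hδ : 0 < δ) (c : ℝ) (hc : c ≤ A * δ / 2) :
    twist A δ c = 0 := by
  unfold twist
  have hp : 0 < A * δ := mul_pos hA hδ
  have : 2 * c / (A * δ) - 1 ≤ 0 := by
    have h : 2 * c / (A * δ) ≤ 1 := by
      rw [div_le_one hp]; linarith
    linarith
  rw [Real.smoothTransition.zero_of_nonpos this]; ring

lemma twist_nonneg (A δ : ℝ) (hδ : 0 < δ) (c : ℝ) : 0 ≤ twist A δ c := by
  unfold twist
  have := Real.smoothTransition.nonneg (2 * c / (A * δ) - 1)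
  positivity

lemma twist_le (A δ : ℝ) (hδ : 0 < δ) (c : ℝ) : twist A δ c ≤ 2 * δ := by
  unfold twist
  have := Real.smoothTransition.le_one (2 * c / (A * δ) - 1)
  nlinarith

lemma real_est1 (s τ x O : ℝ) (hs0 : 0 < s) (hτ0 : 0 < τ) (hτ1 : τ ≤ 1 / 2)
    (hx : x ≤ s) (h6 : O ≤ x + 3 * (s * τ)) (hO0 : 0 ≤ O) :
    O ^ 2 ≤ x ^ 2 + 15 * s ^ 2 * τ := by
  have h7 : O ^ 2 ≤ (x + 3 * (s * τ)) ^ 2 := pow_le_pow_left₀ hO0 h6 2
  have h8 : (x + 3 * (s * τ)) ^ 2 = x ^ 2 + 6 * x * (s * τ) + 9 * s ^ 2 * τ ^ 2 := by ring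
  have hst : 0 ≤ s * τ := by positivity
  have h10 : 6 * x * (s * τ) ≤ 6 * s * (s * τ) := by
    apply mul_le_mul_of_nonneg_right _ hst
    linarith
  have h11 : 6 * s * (s * τ) = 6 * s ^ 2 * τ := by ring
  have h12 : 9 * s ^ 2 * τ ^ 2 ≤ 9 * s ^ 2 * τ := by
    have h13 : τ ^ 2 ≤ τ := by nlinarith
    exact mul_le_mul_of_nonneg_left h13 (by positivity)
  linarith

lemma finger_est (a τ : ℝ) (ha : 0 < a) (hτ0 : 0 < τ) (hτ1 : τ ≤ 1 / 2) (R : ℂ → ℂ) (O q : ℂ)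
    (hRcap : ∀ z, π * ‖R z‖ ^ 2 ≤ π * ‖z‖ ^ 2 + a * τ ^ 2) (hOcap : π * ‖O‖ ^ 2 = a * τ ^ 2)
    (hqnorm : ‖q‖ ^ 2 = a) (hRq : R q = O) (hRinj : Function.Injective R) (z : ℂ)
    (hz : π * ‖z‖ ^ 2 ≤ a) :
    R (z + O) - O ≠ 0 ∧ π * ‖R (z + O) - O‖ ^ 2 ≤ π * ‖z‖ ^ 2 + 15 * a * τ := by
  obtain ⟨p, hp0, hp2⟩ : ∃ p : ℝ, 0 < p ∧ p ^ 2 = π :=
    ⟨√π, Real.sqrt_pos.2 Real.pi_pos, Real.sq_sqrt Real.pi_pos.le⟩
  obtain ⟨s, hs0, hs2⟩ : ∃ s : ℝ, 0 < s ∧ s ^ 2 = a :=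
    ⟨√a, Real.sqrt_pos.2 ha, Real.sq_sqrt ha.le⟩
  have hpi3 : 3 < π := Real.pi_gt_three
  have hp1 : (3 / 2 : ℝ) < p := by
    have : (3 / 2 : ℝ) ^ 2 < p ^ 2 := by rw [hp2]; norm_num; linarith
    exact lt_of_pow_lt_pow_left₀ 2 hp0.le this
  have hzn : p * ‖z‖ ≤ s := by
    have : (p * ‖z‖) ^ 2 ≤ s ^ 2 := by
      rw [mul_pow, hp2, hs2]; exact hz
    exact le_of_sq_le_sq this hs0.le
  have hst : 0 < s * τ := by positivity
  have hOn : p * ‖O‖ = s * τ := by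
    have h1 : (p * ‖O‖) ^ 2 = (s * τ) ^ 2 := by
      rw [mul_pow, mul_pow, hp2, hs2, hOcap]
    have h2 : 0 ≤ p * ‖O‖ := by positivity
    exact (pow_left_inj₀ h2 hst.le (by norm_num)).1 h1
  have hRest : ∀ w, p * ‖R w‖ ≤ p * ‖w‖ + s * τ := by
    intro w
    have h1 : (p * ‖R w‖) ^ 2 ≤ (p * ‖w‖ + s * τ) ^ 2 := by
      have h2 := hRcap w
      have h3 : (p * ‖R w‖) ^ 2 = π * ‖R w‖ ^ 2 := by rw [mul_pow, hp2]
      have h4 : (p * ‖w‖ + s * τ) ^ 2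
          = p ^ 2 * ‖w‖ ^ 2 + 2 * (p * ‖w‖) * (s * τ) + s ^ 2 * τ ^ 2 := by ring
      rw [h3, h4, hp2, hs2]
      have h6 : 0 ≤ 2 * (p * ‖w‖) * (s * τ) := by positivity
      linarith
    exact le_of_sq_le_sq h1 (by positivity)
  constructor
  · intro h0
    have h1 : R (z + O) = R q := by
      rw [hRq]; exact sub_eq_zero.1 h0
    have h2 : z + O = q := hRinj h1
    have h3 : ‖q‖ ≤ ‖z‖ + ‖O‖ := by rw [← h2]; exact norm_add_le _ _
    have h4 : p * ‖q‖ ≤ p * ‖z‖ + p * ‖O‖ := by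
      rw [← mul_add]; exact mul_le_mul_of_nonneg_left h3 hp0.le
    have h5 : p * ‖q‖ = p * s := by
      have h6 : ‖q‖ = s := by
        have h7 : ‖q‖ ^ 2 = s ^ 2 := by rw [hqnorm, hs2]
        exact (pow_left_inj₀ (norm_nonneg _) hs0.le (by norm_num)).1 h7
      rw [h6]
    rw [h5, hOn] at h4
    have h8 : p * s ≤ s + s * τ := by linarith
    have h9 : p ≤ 1 + τ := by
      have : s * p ≤ s * (1 + τ) := by nlinarith
      exact le_of_mul_le_mul_left this hs0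
    linarith
  · have h1 : ‖R (z + O) - O‖ ≤ ‖R (z + O)‖ + ‖O‖ := norm_sub_le _ _
    have h2 : p * ‖R (z + O) - O‖ ≤ p * ‖R (z + O)‖ + p * ‖O‖ := by
      rw [← mul_add]; exact mul_le_mul_of_nonneg_left h1 hp0.le
    have h3 := hRest (z + O)
    have h4 : ‖z + O‖ ≤ ‖z‖ + ‖O‖ := norm_add_le _ _
    have h5 : p * ‖z + O‖ ≤ p * ‖z‖ + p * ‖O‖ := by
      rw [← mul_add]; exact mul_le_mul_of_nonneg_left h4 hp0.le
    have h6 : p * ‖R (z + O) - O‖ ≤ p * ‖z‖ + 3 * (s * τ) := by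
      rw [hOn] at h2 h5; linarith
    have h7 := real_est1 s τ (p * ‖z‖) (p * ‖R (z + O) - O‖) hs0 hτ0 hτ1
      hzn h6 (by positivity)
    rw [mul_pow, mul_pow, hp2, hs2] at h7
    exact h7

/-- The finger map with its parameters. -/
lemma exists_finger_aux (a τ : ℝ) (ha : 0 < a) (hτ0 : 0 < τ) (hτ1 : τ ≤ 1 / 2) :
    ∃ (R : ℂ → ℂ) (O q : ℂ), ContDiff ℝ ∞ R ∧ Function.Injective R ∧
      (∀ z v w, om (fderiv ℝ R z v) (fderiv ℝ R z w) = om v w) ∧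
      (∀ z, π * ‖R z‖ ^ 2 ≤ π * ‖z‖ ^ 2 + a * τ ^ 2) ∧ π * ‖O‖ ^ 2 = a * τ ^ 2 ∧
      ‖q‖ ^ 2 = a ∧ R q = O := by
  have hδ0 : 0 < τ ^ 2 / 2 := by positivity
  have hδ1 : τ ^ 2 / 2 ≤ 1 / 8 := by
    have : τ ^ 2 ≤ (1 / 2) ^ 2 := pow_le_pow_left₀ hτ0.le hτ1 2
    linarith
  have hpi3 : 3 < π := Real.pi_gt_three
  have hδπ : τ ^ 2 / 2 < π := by linarith
  have hδπ2 : τ ^ 2 / 2 < π / 2 := by linarith
  have hr0 : 0 ≤ Real.cos (τ ^ 2 / 2) := (Real.cos_pos_of_mem_Ioo ⟨by linarith, hδπ2⟩).le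
  have hr1 : Real.cos (τ ^ 2 / 2) < 1 := by
    have h := Real.cos_lt_cos_of_nonneg_of_le_pi (le_refl (0 : ℝ)) hδπ.le hδ0
    rwa [Real.cos_zero] at h
  have hgsm : ContDiff ℝ ∞ (twist a (τ ^ 2 / 2)) := twist_contDiff a _
  have hc₁ : 0 < a * (τ ^ 2 / 2) / 2 := by positivity
  have hglow : ∀ c, c ≤ a * (τ ^ 2 / 2) / 2 → twist a (τ ^ 2 / 2) c = 0 :=
    fun c hc => twist_low a _ ha hδ0 c hc
  have hgat : twist a (τ ^ 2 / 2) (a * (τ ^ 2 / 2)) = 2 * (τ ^ 2 / 2) := twist_at a _ ha hδ0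
  have hg0 : ∀ c, 0 ≤ twist a (τ ^ 2 / 2) c := fun c => twist_nonneg a _ hδ0 c
  have hgG : ∀ c, twist a (τ ^ 2 / 2) c ≤ 2 * (τ ^ 2 / 2) := fun c => twist_le a _ hδ0 c
  refine ⟨fingerMap a (Real.cos (τ ^ 2 / 2)) (twist a (τ ^ 2 / 2)),
    polar1 (2 * a * (τ ^ 2 / 2), τ ^ 2 / 2), polar1 (a * π, -(τ ^ 2 / 2)),
    fingerMap_contDiff a _ ha hr0 hr1 _ hgsm _ hc₁ hglow,
    fingerMap_injective a _ ha _ _ hc₁.le hglow,
    fingerMap_symp a _ ha hr0 hr1 _ hgsm _ hc₁ hglow, ?_, ?_, ?_,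
    fingerMap_hits _ a ha hδ0 hδπ _ hgat⟩
  · intro z
    have := fingerMap_cap a _ ha hr0 hr1 _ _ _ hc₁.le hglow hg0 hgG z
    have e : a * (2 * (τ ^ 2 / 2)) = a * τ ^ 2 := by ring
    rwa [e] at this
  · have := polar1_cap (2 * a * (τ ^ 2 / 2), τ ^ 2 / 2) (by positivity)
    rw [this]; ring
  · have hqcap := polar1_cap (a * π, -(τ ^ 2 / 2)) (by positivity)
    have hpi0 := Real.pi_pos
    have : π * ‖polar1 (a * π, -(τ ^ 2 / 2))‖ ^ 2 = π * a := by rw [hqcap]; ring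
    exact mul_left_cancel₀ hpi0.ne' this

/-- The main planar lemma: an area-preserving injective smooth map of the plane that misses the
origin on the disc of area `a` and increases `π |z|²` by at most `ε` there. -/
theorem exists_finger (a ε : ℝ) (ha : 0 < a) (hε : 0 < ε) :
    ∃ ψ : ℂ → ℂ, ContDiff ℝ ∞ ψ ∧ Function.Injective ψ ∧
      (∀ z v w, om (fderiv ℝ ψ z v) (fderiv ℝ ψ z w) = om v w) ∧
      ∀ z, π * ‖z‖ ^ 2 ≤ a → ψ z ≠ 0 ∧ π * ‖ψ z‖ ^ 2 ≤ π * ‖z‖ ^ 2 + ε := by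
  obtain ⟨τ, hτ0, hτ1, hτ2⟩ : ∃ τ : ℝ, 0 < τ ∧ τ ≤ 1 / 2 ∧ 15 * a * τ ≤ ε := by
    refine ⟨min (1 / 2) (ε / (15 * a)), lt_min (by norm_num) (by positivity),
      min_le_left _ _, ?_⟩
    have : min (1 / 2) (ε / (15 * a)) ≤ ε / (15 * a) := min_le_right _ _
    rwa [le_div_iff₀ (by positivity), mul_comm] at this
  obtain ⟨R, O, q, hRsm, hRinj, hRsymp, hRcap, hOcap, hqnorm, hRq⟩ :=
    exists_finger_aux a τ ha hτ0 hτ1
  refine ⟨fun z => R (z + O) - O, ?_, ?_, ?_, ?_⟩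
  · exact (hRsm.comp (contDiff_id.add contDiff_const)).sub contDiff_const
  · intro z z' h
    have h1 : R (z + O) = R (z' + O) := by simpa using h
    simpa using hRinj h1
  · intro z v w
    have hd : HasFDerivAt R (fderiv ℝ R (z + O)) (z + O) :=
      ((hRsm.differentiable (by simp)) _).hasFDerivAt
    have h2 : HasFDerivAt (fun x => R (x + O)) (fderiv ℝ R (z + O)) z :=
      (hasFDerivAt_comp_add_right (f := R) (f' := fderiv ℝ R (z + O)) O).2 hd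
    have h3 : fderiv ℝ (fun z => R (z + O) - O) z = fderiv ℝ R (z + O) :=
      (h2.sub_const O).fderiv
    rw [h3]
    exact hRsymp _ v w
  · intro z hz
    obtain ⟨h1, h2⟩ := finger_est a τ ha hτ0 hτ1 R O q hRcap hOcap hqnorm hRq hRinj z hz
    exact ⟨h1, by linarith⟩

end Vale.Agent.Lib.P209
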