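import Vale.Agent.Lib.P209.TwoPow

open Real Matrix

namespace Vale.Agent.Lib.P209

variable {n : ℕ}

/-- Composition of cells. -/
noncomputable def Cell.comp (c d : Cell n) : Cell n where
  A := c.A * d.A
  B := c.B * d.B
  b := (c.A.map (Int.cast : ℤ → ℝ)) *ᵥ d.b + c.b
  AB := by
    rw [Matrix.transpose_mul]
    calc d.A.transpose * c.A.transpose * (c.B * d.B)
        = d.A.transpose * (c.A.transpose * c.B) * d.B := by simp only [Matrix.mul_assoc]
      _ = 1 := by rw [c.AB, Matrix.mul_one, d.AB]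

lemma Cell.comp_act (c d : Cell n) (x : Fin n → ℝ) : (c.comp d).act x = c.act (d.act x) := by
  unfold Cell.act Cell.comp
  simp only
  rw [map_cast_mul, Matrix.mulVec_add, Matrix.mulVec_mulVec, add_assoc]

/-- The identity cell. -/
def Cell.idCell (n : ℕ) : Cell n where
  A := 1
  B := 1
  b := 0
  AB := by simp

lemma Cell.idCell_act (x : Fin n → ℝ) : (Cell.idCell n).act x = x := by
  unfold Cell.act Cell.idCell
  have : (1 : Matrix (Fin n) (Fin n) ℤ).map (Int.cast : ℤ → ℝ) = 1 := by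
    ext i j; simp [Matrix.one_apply]
  simp [this]

/-- A placement of the items `r i`, `i ∈ I`, in the region `S`: each item gets its own cell of size
at least its capacity, with image in `S`, and the images are pairwise disjoint. -/
def Fits (n : ℕ) (r : ℕ → ℝ) (I : Set ℕ) (S : Set (Fin n → ℝ)) : Prop :=
  ∃ (c : ℕ → Cell n) (t : ℕ → ℝ), (∀ i ∈ I, r i ≤ t i) ∧
    (∀ i ∈ I, ∀ x ∈ openSimplex n (t i), (c i).act x ∈ S) ∧
    (∀ i ∈ I, ∀ j ∈ I, i ≠ j → ∀ x ∈ openSimplex n (t i), ∀ x' ∈ openSimplex n (t j),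
      (c i).act x ≠ (c j).act x')

namespace Fits

variable {r : ℕ → ℝ} {I I₁ I₂ : Set ℕ} {S S₁ S₂ : Set (Fin n → ℝ)}

lemma empty (r : ℕ → ℝ) (S : Set (Fin n → ℝ)) : Fits n r ∅ S :=
  ⟨fun _ => Cell.idCell n, fun _ => 0, by simp, by simp, by simp⟩

lemma mono (h : Fits n r I S) (hI : I₁ ⊆ I) (hS : S ⊆ S₁) : Fits n r I₁ S₁ := by
  obtain ⟨c, t, h1, h2, h3⟩ := h
  exact ⟨c, t, fun i hi => h1 i (hI hi), fun i hi x hx => hS (h2 i (hI hi) x hx),
    fun i hi j hj => h3 i (hI hi) j (hj |> fun h => hI h)⟩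

lemma union (h₁ : Fits n r I₁ S₁) (h₂ : Fits n r I₂ S₂) (hS : Disjoint S₁ S₂) :
    Fits n r (I₁ ∪ I₂) (S₁ ∪ S₂) := by
  classical
  obtain ⟨c₁, t₁, a₁, b₁, d₁⟩ := h₁
  obtain ⟨c₂, t₂, a₂, b₂, d₂⟩ := h₂
  refine ⟨fun i => if i ∈ I₁ then c₁ i else c₂ i, fun i => if i ∈ I₁ then t₁ i else t₂ i,
    ?_, ?_, ?_⟩
  · intro i hi
    by_cases h : i ∈ I₁
    · simp only [h, if_true]; exact a₁ i h
    · simp only [h, if_false]; exact a₂ i (hi.resolve_left h)
  · intro i hi x hx
    by_cases h : i ∈ I₁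
    · simp only [h, if_true] at hx ⊢; exact Or.inl (b₁ i h x hx)
    · simp only [h, if_false] at hx ⊢; exact Or.inr (b₂ i (hi.resolve_left h) x hx)
  · intro i hi j hj hij x hx x' hx'
    by_cases h : i ∈ I₁ <;> by_cases h' : j ∈ I₁
    · simp only [h, h', if_true] at hx hx' ⊢
      exact d₁ i h j h' hij x hx x' hx'
    · simp only [h, h', if_true, if_false] at hx hx' ⊢
      intro he
      exact Set.disjoint_left.1 hS (b₁ i h x hx) (he ▸ b₂ j (hj.resolve_left h') x' hx')
    · simp only [h, h', if_true, if_false] at hx hx' ⊢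
      intro he
      exact Set.disjoint_left.1 hS (he ▸ b₁ j h' x' hx') (b₂ i (hi.resolve_left h) x hx)
    · simp only [h, h', if_false] at hx hx' ⊢
      exact d₂ i (hi.resolve_left h) j (hj.resolve_left h') hij x hx x' hx'

/-- Placements can be moved by a cell. -/
lemma map (h : Fits n r I S) (c : Cell n) : Fits n r I (c.act '' S) := by
  obtain ⟨d, t, a, b, e⟩ := h
  refine ⟨fun i => c.comp (d i), t, a, ?_, ?_⟩
  · intro i hi x hx
    rw [Cell.comp_act]
    exact ⟨_, b i hi x hx, rfl⟩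
  · intro i hi j hj hij x hx x' hx' he
    rw [Cell.comp_act, Cell.comp_act] at he
    exact e i hi j hj hij x hx x' hx' (act_injective c he)

/-- One item in a corner. -/
lemma single (r : ℕ → ℝ) (i : ℕ) {a : ℝ} (h : r i ≤ a) : Fits n r {i} (openSimplex n a) := by
  refine ⟨fun _ => Cell.idCell n, fun _ => a, ?_, ?_, ?_⟩
  · intro j hj
    rw [Set.mem_singleton_iff] at hj
    rw [hj]; exact h
  · intro j _ x hx
    rw [Cell.idCell_act]; exact hx
  · intro j hj l hl hjl
    rw [Set.mem_singleton_iff] at hj hl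
    exact absurd (hj.trans hl.symm) hjl

/-- Union over finitely many regions. -/
lemma biUnion {β : Type*} (s : Finset β) (J : β → Set ℕ) (T : β → Set (Fin n → ℝ))
    (hdis : ∀ b ∈ s, ∀ b' ∈ s, b ≠ b' → Disjoint (T b) (T b'))
    (h : ∀ b ∈ s, Fits n r (J b) (T b)) :
    Fits n r (⋃ b ∈ s, J b) (⋃ b ∈ s, T b) := by
  classical
  induction s using Finset.induction_on with
  | empty => simpa using empty r _
  | insert b s hb ih =>
    have h1 := ih (fun a ha a' ha' => hdis a (Finset.mem_insert_of_mem ha) a'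
      (Finset.mem_insert_of_mem ha')) (fun a ha => h a (Finset.mem_insert_of_mem ha))
    have h2 := h b (Finset.mem_insert_self _ _)
    have h3 : Disjoint (T b) (⋃ a ∈ s, T a) := by
      rw [Set.disjoint_iUnion₂_right]
      intro a ha
      exact hdis b (Finset.mem_insert_self _ _) a (Finset.mem_insert_of_mem ha)
        (fun e => hb (e ▸ ha))
    have h4 := union h2 h1 h3
    simpa [Finset.set_biUnion_insert] using h4

end Fits

/-- The part of an open simplex where the sum of coordinates is at least `σ`. -/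
def shell (n : ℕ) (σ a : ℝ) : Set (Fin n → ℝ) := {x | x ∈ openSimplex n a ∧ σ ≤ ∑ j, x j}

/-- From a placement to a symplectic packing. -/
theorem packing_of_fits {k : ℕ} {r' : ℕ → ℝ} {R : ℝ}
    (h : Fits n r' (Set.Iio k) (openSimplex n R)) (r : Fin k → ℝ)
    (hr : ∀ i : Fin k, r i < r' i) (h0 : ∀ i : Fin k, 0 < r i) : SymplecticPacking n r R := by
  obtain ⟨c, t, a, b, e⟩ := h
  refine packing_of_cells (fun i => c i) (fun i => t i) r R ?_ ?_ ?_ ?_ ?_
  · intro i
    have := a i i.isLt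
    linarith [hr i, h0 i]
  · intro i
    have := a i i.isLt
    linarith [hr i]
  · intro i x hx j
    exact (b i i.isLt x hx).1 j
  · intro i x hx
    exact (b i i.isLt x hx).2
  · intro i j hij x hx x' hx'
    exact e i i.isLt j j.isLt (fun h => hij (Fin.ext h)) x hx x' hx'

/-- Mean value bound for powers, upper form. -/
lemma pow_sub_pow_le {a b : ℝ} (hb : 0 ≤ b) (hab : b ≤ a) (m : ℕ) :
    a ^ m - b ^ m ≤ m * (a - b) * a ^ (m - 1) := by
  induction m with
  | zero => simp
  | succ m ih =>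
    have ha : 0 ≤ a := hb.trans hab
    rcases m with _ | m
    · simp
    · simp only [Nat.add_sub_cancel] at ih ⊢
      have h1 : b ^ (m + 1) ≤ a ^ (m + 1) := pow_le_pow_left₀ hb hab _
      have h2 : 0 ≤ a - b := by linarith
      have h3 : (0 : ℝ) ≤ a ^ (m + 1) := by positivity
      push_cast at ih ⊢
      have h4 : a ^ (m + 1 + 1) - b ^ (m + 1 + 1)
          = a * (a ^ (m + 1) - b ^ (m + 1)) + (a - b) * b ^ (m + 1) := by ring
      rw [h4]
      have h5 : a * (a ^ (m + 1) - b ^ (m + 1)) ≤ a * (((m : ℝ) + 1) * (a - b) * a ^ m) :=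
        mul_le_mul_of_nonneg_left ih ha
      have h6 : (a - b) * b ^ (m + 1) ≤ (a - b) * a ^ (m + 1) :=
        mul_le_mul_of_nonneg_left h1 h2
      calc a * (a ^ (m + 1) - b ^ (m + 1)) + (a - b) * b ^ (m + 1)
          ≤ a * (((m : ℝ) + 1) * (a - b) * a ^ m) + (a - b) * a ^ (m + 1) := add_le_add h5 h6
        _ = ((m : ℝ) + 1 + 1) * (a - b) * a ^ (m + 1) := by ring

/-- Lower bound for consecutive differences of powers. -/
lemma nat_pow_succ_sub_ge (y m : ℕ) : y ^ m + m * y ^ (m - 1) ≤ (y + 1) ^ m := by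
  induction m with
  | zero => simp
  | succ m ih =>
    rcases m with _ | m
    · simp
    · simp only [Nat.add_sub_cancel] at ih ⊢
      have h1 : y ^ (m + 1) ≤ (y + 1) ^ (m + 1) := Nat.pow_le_pow_left (Nat.le_succ y) _
      calc y ^ (m + 1 + 1) + (m + 1 + 1) * y ^ (m + 1)
          = y * (y ^ (m + 1)) + y ^ (m + 1) + (m + 1) * y ^ (m + 1) := by ring
        _ = y * (y ^ (m + 1) + (m + 1) * y ^ m) + y ^ (m + 1) := by ring
        _ ≤ y * (y + 1) ^ (m + 1) + (y + 1) ^ (m + 1) :=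
            add_le_add (Nat.mul_le_mul_left _ ih) h1
        _ = (y + 1) ^ (m + 1 + 1) := by ring

end Vale.Agent.Lib.P209
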