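import Vale.Agent.Lib.P209.Cells

open Real Matrix

namespace Vale.Agent.Lib.P209

variable {n : ℕ}

/-- A family of alcoves of one grid gives a symplectic packing. -/
theorem packing_of_alcoves {k : ℕ} (h0 : 0 < n) (lev len : ℕ → ℝ)
    (hlev : ∀ a b, a < b → lev a + len a ≤ lev b) (hlev0 : ∀ a, 0 ≤ lev a) (R : ℝ)
    (g : Fin k → Fin n → ℕ) (hg : Function.Injective g)
    (hR : ∀ i p, lev (g i p) + len (g i p) ≤ R)
    (t r : Fin k → ℝ) (ht : ∀ i, 0 < t i) (hr : ∀ i, r i < t i) (htlen : ∀ i p, t i ≤ len (g i p)) :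
    SymplecticPacking n r R := by
  refine packing_of_cells (fun i => alcoveCell lev (g i)) t r R ht hr ?_ ?_ ?_
  · intro i x hx j
    exact alcove_act_pos hlev hlev0 hx (htlen i) j
  · intro i x hx
    exact alcove_sum_lt h0 hx (htlen i) R (hR i)
  · intro i j hij x hx x' hx' h
    exact hij (hg (alcove_disj hlev hx (htlen i) hx' (htlen j) h))

/-- The largest `j` with `j ^ n ≤ i`. -/
noncomputable def rootJ (n i : ℕ) : ℕ := Nat.findGreatest (fun j => j ^ n ≤ i) i

lemma rootJ_pow_le (h0 : 0 < n) (i : ℕ) : rootJ n i ^ n ≤ i := by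
  have : (fun j => j ^ n ≤ i) (rootJ n i) :=
    Nat.findGreatest_spec (P := fun j => j ^ n ≤ i) (m := 0) (Nat.zero_le i)
      (by simp [h0.ne'])
  exact this

lemma lt_succ_rootJ_pow (h0 : 0 < n) (i : ℕ) : i < (rootJ n i + 1) ^ n := by
  by_cases h : rootJ n i + 1 ≤ i
  · have h1 := Nat.findGreatest_is_greatest (P := fun j => j ^ n ≤ i) (n := i) (k := rootJ n i + 1)
      (Nat.lt_succ_self _) h
    exact not_le.1 h1
  · push Not at h
    have h2 : i + 1 ≤ rootJ n i + 1 := by omega
    calc i < i + 1 := Nat.lt_succ_self _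
      _ ≤ rootJ n i + 1 := h2
      _ ≤ (rootJ n i + 1) ^ n := Nat.le_self_pow h0.ne' _

/-- Functions with values bounded by the root counter can be chosen injectively. -/
lemma exists_labels (h0 : 0 < n) (K : ℕ) :
    ∃ g : ℕ → Fin n → ℕ, (∀ i < K, ∀ p, g i p ≤ rootJ n i) ∧
      ∀ i < K, ∀ j < K, g i = g j → i = j := by
  classical
  induction K with
  | zero => exact ⟨fun _ _ => 0, by simp, by simp⟩
  | succ K ih =>
    obtain ⟨g, hg1, hg2⟩ := ih
    let A : Finset (Fin n → ℕ) := Fintype.piFinset fun _ => Finset.range (rootJ n K + 1)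
    let B : Finset (Fin n → ℕ) := (Finset.range K).image g
    have hA : A.card = (rootJ n K + 1) ^ n := by
      simp [A, Fintype.card_piFinset]
    have hB : B.card ≤ K := by
      simpa using Finset.card_image_le (s := Finset.range K) (f := g)
    have hlt : B.card < A.card := by
      rw [hA]
      exact hB.trans_lt (lt_succ_rootJ_pow h0 K)
    obtain ⟨new, hnew, hnot⟩ := Finset.exists_mem_notMem_of_card_lt_card hlt
    refine ⟨Function.update g K new, ?_, ?_⟩
    · intro i hi p
      by_cases h : i = K
      · subst h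
        simp only [Function.update_self]
        have := (Fintype.mem_piFinset.1 hnew) p
        simp only [Finset.mem_range] at this
        omega
      · rw [Function.update_of_ne h]
        exact hg1 i (by omega) p
    · intro i hi j hj he
      by_cases hiK : i = K
      · by_cases hjK : j = K
        · omega
        · exfalso
          subst hiK
          rw [Function.update_self, Function.update_of_ne hjK] at he
          apply hnot
          rw [he]
          exact Finset.mem_image_of_mem _ (Finset.mem_range.2 (by omega))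
      · by_cases hjK : j = K
        · exfalso
          subst hjK
          rw [Function.update_self, Function.update_of_ne hiK] at he
          apply hnot
          rw [← he]
          exact Finset.mem_image_of_mem _ (Finset.mem_range.2 (by omega))
        · rw [Function.update_of_ne hiK, Function.update_of_ne hjK] at he
          exact hg2 i (by omega) j (by omega) he

/-- The grid criterion for sorted capacities. -/
theorem grid_criterion (h0 : 0 < n) (k m : ℕ) (r : ℕ → ℝ) (R : ℝ)
    (hpos : ∀ i, i < k → 0 < r i) (hanti : ∀ i j, i ≤ j → j < k → r j ≤ r i)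
    (hm : k ≤ m ^ n) (hmin : ∀ j, j < m → j ^ n < k)
    (hsum : ∑ j ∈ Finset.range m, r (j ^ n) < R) :
    SymplecticPacking n (fun i : Fin k => r i) R := by
  classical
  -- slack
  rcases Nat.eq_zero_or_pos m with hm0 | hmpos
  · have hk0 : k = 0 := by
      subst hm0
      simpa [h0.ne'] using hm
    subst hk0
    exact ⟨fun i => i.elim0, fun i => i.elim0, fun i => i.elim0, fun i => i.elim0⟩
  have hmR : (0 : ℝ) < m := by exact_mod_cast hmpos
  set η : ℝ := (R - ∑ j ∈ Finset.range m, r (j ^ n)) / m with hη
  have hη0 : 0 < η := div_pos (by linarith) hmR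
  let len : ℕ → ℝ := fun j => if j < m then r (j ^ n) + η else 0
  have hlenm : ∀ j, j < m → len j = r (j ^ n) + η := fun j hj => if_pos hj
  have hlen0 : ∀ j, 0 ≤ len j := by
    intro j
    by_cases hj : j < m
    · rw [hlenm j hj]
      have := hpos _ (hmin j hj)
      linarith
    · simp [len, hj]
  let lev : ℕ → ℝ := fun a => ∑ l ∈ Finset.range a, len l
  have hlevsucc : ∀ a, lev (a + 1) = lev a + len a := fun a => Finset.sum_range_succ _ _
  have hlevmono : Monotone lev := monotone_nat_of_le_succ fun a => by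
    rw [hlevsucc]; linarith [hlen0 a]
  have hlev : ∀ a b, a < b → lev a + len a ≤ lev b := by
    intro a b hab
    rw [← hlevsucc]
    exact hlevmono hab
  have hlev0 : ∀ a, 0 ≤ lev a := fun a => Finset.sum_nonneg fun l _ => hlen0 l
  have hlevm : lev m ≤ R := by
    have : lev m = ∑ l ∈ Finset.range m, (r (l ^ n) + η) :=
      Finset.sum_congr rfl fun l hl => hlenm l (Finset.mem_range.1 hl)
    rw [this, Finset.sum_add_distrib, Finset.sum_const, Finset.card_range, nsmul_eq_mul, hη]
    have hne : (m : ℝ) ≠ 0 := hmR.ne'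
    field_simp
    linarith
  have hJ : ∀ i, i < k → rootJ n i < m := by
    intro i hi
    by_contra hc
    push Not at hc
    have h1 : m ^ n ≤ rootJ n i ^ n := Nat.pow_le_pow_left hc n
    have h2 := rootJ_pow_le h0 i
    omega
  obtain ⟨g, hg1, hg2⟩ := exists_labels h0 k
  refine packing_of_alcoves h0 lev len hlev hlev0 R (fun i : Fin k => g i) ?_ ?_
    (fun i : Fin k => len (rootJ n i)) _ ?_ ?_ ?_
  · intro i j h
    exact Fin.ext (hg2 i i.isLt j j.isLt h)
  · intro i p
    have h1 : g i p < m := lt_of_le_of_lt (hg1 i i.isLt p) (hJ i i.isLt)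
    rw [← hlevsucc]
    exact (hlevmono h1).trans hlevm
  · intro i
    rw [hlenm _ (hJ i i.isLt)]
    have := hpos _ (hmin _ (hJ i i.isLt))
    linarith
  · intro i
    rw [hlenm _ (hJ i i.isLt)]
    have h1 := hanti (rootJ n i ^ n) i (rootJ_pow_le h0 i) i.isLt
    linarith
  · intro i p
    have h1 : g i p ≤ rootJ n i := hg1 i i.isLt p
    have h2 : g i p < m := lt_of_le_of_lt h1 (hJ i i.isLt)
    rw [hlenm _ (hJ i i.isLt), hlenm _ h2]
    have h3 := hanti (g i p ^ n) (rootJ n i ^ n) (Nat.pow_le_pow_left h1 n) (hmin _ (hJ i i.isLt))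
    linarith

end Vale.Agent.Lib.P209
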