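import Vale.Agent.Lib.P209.Fits

open Real Matrix

namespace Vale.Agent.Lib.P209

variable {n : ℕ}

/-- Injective labelling of an interval of indices by elements of a finite set. -/
lemma exists_injOn_Ico {α : Type*} [Inhabited α] (T : Finset α) (M C : ℕ) (hC : C ≤ T.card) :
    ∃ φ : ℕ → α, (∀ i, M ≤ i → i < M + C → φ i ∈ T) ∧
      (∀ i j, M ≤ i → i < M + C → M ≤ j → j < M + C → φ i = φ j → i = j) := by
  classical
  refine ⟨fun i => if h : i - M < T.card then (T.equivFin.symm ⟨i - M, h⟩).1 else default, ?_, ?_⟩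
  · intro i hi hi2
    have h : i - M < T.card := by omega
    simp only [dif_pos h]
    exact (T.equivFin.symm ⟨i - M, h⟩).2
  · intro i j hi hi2 hj hj2 he
    have h : i - M < T.card := by omega
    have h' : j - M < T.card := by omega
    simp only [dif_pos h, dif_pos h'] at he
    have h1 := T.equivFin.symm.injective (Subtype.ext he)
    simp only [Fin.mk.injEq] at h1
    omega

/-- The outer layer of alcoves. -/
lemma fits_outer_layer (h0 : 0 < n) {r : ℕ → ℝ} {h base : ℝ} (hh : 0 < h) (hbase : 0 ≤ base)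
    (N' M C : ℕ) (hC : C + N' ^ n ≤ (N' + 1) ^ n) (hr : ∀ i, M ≤ i → i < M + C → r i ≤ h) :
    Fits n r (Set.Ico M (M + C)) (shell n (base + N' * h) (base + (N' + 1) * h)) := by
  classical
  let A : Finset (Fin n → ℕ) := Fintype.piFinset fun _ => Finset.range (N' + 1)
  let B : Finset (Fin n → ℕ) := Fintype.piFinset fun _ => Finset.range N'
  have hBA : B ⊆ A := by
    intro f hf
    rw [Fintype.mem_piFinset] at hf ⊢
    intro p
    have := Finset.mem_range.1 (hf p)
    exact Finset.mem_range.2 (by omega)
  have hcard : C ≤ (A \ B).card := by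
    rw [Finset.card_sdiff_of_subset hBA]
    simp only [A, B, Fintype.card_piFinset, Finset.card_range, Finset.prod_const, Finset.card_univ,
      Fintype.card_fin]
    omega
  obtain ⟨φ, hφ1, hφ2⟩ := exists_injOn_Ico (A \ B) M C hcard
  let lev : ℕ → ℝ := fun k => base + k * h
  let len : ℕ → ℝ := fun _ => h
  have hlev : ∀ k k', k < k' → lev k + len k ≤ lev k' := by
    intro k k' hk
    have h1 : ((k : ℝ) + 1) ≤ k' := by exact_mod_cast hk
    simp only [lev, len]
    nlinarith
  have hlev0 : ∀ k, 0 ≤ lev k := by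
    intro k
    simp only [lev]
    positivity
  refine ⟨fun i => alcoveCell lev (φ i), fun _ => h, ?_, ?_, ?_⟩
  · intro i hi
    exact hr i hi.1 hi.2
  · intro i hi x hx
    obtain ⟨h1, h2⟩ := Finset.mem_sdiff.1 (hφ1 i hi.1 hi.2)
    have h3 : ∀ p, φ i p ≤ N' := by
      intro p
      have := Finset.mem_range.1 ((Fintype.mem_piFinset.1 h1) p)
      omega
    have h4 : ∃ p, N' ≤ φ i p := by
      by_contra hc
      push Not at hc
      exact h2 (Fintype.mem_piFinset.2 fun p => Finset.mem_range.2 (hc p))
    obtain ⟨p, hp⟩ := h4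
    have hτ : ∀ p, h ≤ len (φ i p) := fun _ => le_rfl
    refine ⟨⟨alcove_act_pos hlev hlev0 hx hτ, ?_⟩, ?_⟩
    · apply alcove_sum_lt h0 hx hτ
      intro q
      have h5 : ((φ i q : ℕ) : ℝ) ≤ N' := by exact_mod_cast h3 q
      simp only [lev, len]
      nlinarith
    · apply le_of_lt
      apply alcove_sum_gt h0 hlev hx hτ _ p
      have h5 : ((N' : ℕ) : ℝ) ≤ φ i p := by exact_mod_cast hp
      simp only [lev]
      nlinarith
  · intro i hi j hj hij x hx x' hx' he
    have hτ : ∀ q, h ≤ len (φ i q) := fun _ => le_rfl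
    have hτ' : ∀ q, h ≤ len (φ j q) := fun _ => le_rfl
    exact hij (hφ2 i j hi.1 hi.2 hj.1 hj.2 (alcove_disj hlev hx hτ hx' hτ' he))

/-- The numerical heart of the layered lemma. -/
lemma layer_ineq (h0 : 0 < n) {a h h' W S : ℝ} {N' C : ℕ} (hh' : 0 < h') (hh'h : h' ≤ h)
    (hA : 0 ≤ a - n * h) (ha : a < (N' + 2) * h) (hC : (N' + 1) ^ n = C + N' ^ n)
    (hS : 0 ≤ S) (hW : h' ^ n ≤ W) (hvol : W + S + C * h' ^ n ≤ (a - n * h) ^ n) :
    0 ≤ a - h - n * h' ∧ W + S ≤ (a - h - n * h') ^ n := by
  have hn1 : (1 : ℝ) ≤ n := by exact_mod_cast h0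
  have hh : 0 < h := hh'.trans_le hh'h
  set A := a - n * h with hAdef
  have hCh : (0 : ℝ) ≤ C * h' ^ n := by positivity
  have h1 : h' ^ n ≤ A ^ n := by linarith
  have h2 : h' ≤ A := (pow_le_pow_iff_left₀ hh'.le hA h0.ne').1 h1
  set ε := n * h' - (n - 1) * h with hε
  have hε2 : ε ≤ h' := by
    have : ((n : ℝ) - 1) * h' ≤ (n - 1) * h := mul_le_mul_of_nonneg_left hh'h (by linarith)
    simp only [hε]
    linarith
  have he : a - h - n * h' = A - ε := by
    simp only [hAdef, hε]; ring
  rw [he]
  have h3 : 0 ≤ A - ε := by linarith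
  refine ⟨h3, ?_⟩
  by_cases hε0 : ε ≤ 0
  · have h4 : A ^ n ≤ (A - ε) ^ n := pow_le_pow_left₀ hA (by linarith) _
    linarith
  · push Not at hε0
    have h4 : A ^ n - (A - ε) ^ n ≤ n * (A - (A - ε)) * A ^ (n - 1) :=
      pow_sub_pow_le h3 (by linarith) n
    have h5 : A - (A - ε) = ε := by ring
    rw [h5] at h4
    -- bound on `A ^ (n-1)`
    have h6 : A ^ (n - 1) ≤ ((N' : ℝ) * h) ^ (n - 1) := by
      rcases Nat.lt_or_ge n 2 with hn | hn
      · have : n - 1 = 0 := by omega
        simp [this]
      · apply pow_le_pow_left₀ hA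
        have hn2 : (2 : ℝ) ≤ n := by exact_mod_cast hn
        simp only [hAdef]
        nlinarith
    -- Bernoulli
    have h7 : h ^ n - h' ^ n ≤ n * (h - h') * h ^ (n - 1) := pow_sub_pow_le hh'.le hh'h n
    have h8 : h ^ n = h * h ^ (n - 1) := by
      rw [← pow_succ']
      congr 1
      omega
    have h9 : ε * h ^ (n - 1) ≤ h' ^ n := by
      simp only [hε]
      rw [h8] at h7
      nlinarith
    -- counting
    have h10 : n * N' ^ (n - 1) ≤ C := by
      have := nat_pow_succ_sub_ge N' n
      omega
    have h10' : (n : ℝ) * (N' : ℝ) ^ (n - 1) ≤ C := by exact_mod_cast h10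
    have hN'0 : (0 : ℝ) ≤ N' := Nat.cast_nonneg _
    have hhp : 0 ≤ h ^ (n - 1) := by positivity
    have hNp : (0 : ℝ) ≤ (N' : ℝ) ^ (n - 1) := by positivity
    have h11 : n * ε * A ^ (n - 1) ≤ C * h' ^ n := by
      calc n * ε * A ^ (n - 1) ≤ n * ε * ((N' : ℝ) * h) ^ (n - 1) :=
            mul_le_mul_of_nonneg_left h6 (by positivity)
        _ = (n * (N' : ℝ) ^ (n - 1)) * (ε * h ^ (n - 1)) := by rw [mul_pow]; ring
        _ ≤ (n * (N' : ℝ) ^ (n - 1)) * h' ^ n := mul_le_mul_of_nonneg_left h9 (by positivity)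
        _ ≤ C * h' ^ n := mul_le_mul_of_nonneg_right h10' (by positivity)
    linarith

/-- The layered lemma: items of decreasing capacities can be placed in a shell. -/
theorem layered (h0 : 0 < n) (r : ℕ → ℝ) (σ : ℝ) (hσ : 0 ≤ σ) :
    ∀ (m M : ℕ) (a : ℝ), (∀ i, M ≤ i → i < M + m → 0 < r i) →
      (∀ i j, M ≤ i → i ≤ j → j < M + m → r j ≤ r i) → 0 ≤ a - n * r M →
      ∑ i ∈ Finset.Ico M (M + m), r i ^ n + σ ^ n ≤ (a - n * r M) ^ n →
      Fits n r (Set.Ico M (M + m)) (shell n σ a) := by
  intro m
  induction m using Nat.strong_induction_on with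
  | _ m ih =>
    intro M a hpos hanti hA hvol
    rcases Nat.eq_zero_or_pos m with hm | hm
    · subst hm
      simpa using Fits.empty r _
    have hM : M < M + m := by omega
    set h := r M with hhdef
    have hh : 0 < h := hpos M le_rfl hM
    have hn1 : (1 : ℝ) ≤ n := by exact_mod_cast h0
    have ha_ge : h ≤ a := by nlinarith
    have ha0 : 0 < a := by linarith
    -- the number of levels
    have hfl : 1 ≤ ⌊a / h⌋₊ := by
      apply Nat.le_floor
      rw [Nat.cast_one, one_le_div hh]
      exact ha_ge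
    obtain ⟨N', hN'⟩ : ∃ N', ⌊a / h⌋₊ = N' + 1 := ⟨⌊a / h⌋₊ - 1, by omega⟩
    have hle : ((N' : ℝ) + 1) * h ≤ a := by
      have := Nat.floor_le (show 0 ≤ a / h by positivity)
      rw [hN'] at this
      push_cast at this
      rwa [le_div_iff₀ hh] at this
    have hlt : a < ((N' : ℝ) + 2) * h := by
      have := Nat.lt_floor_add_one (a / h)
      rw [hN'] at this
      push_cast at this
      rw [div_lt_iff₀ hh] at this
      linarith
    set base := a - ((N' : ℝ) + 1) * h with hbase
    have hbase0 : 0 ≤ base := by simp only [hbase]; linarith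
    have e1 : base + N' * h = a - h := by simp only [hbase]; ring
    have e2 : base + (N' + 1) * h = a := by simp only [hbase]; ring
    -- the count
    obtain ⟨C, hC⟩ : ∃ C, (N' + 1) ^ n = C + N' ^ n :=
      ⟨(N' + 1) ^ n - N' ^ n, by
        have := Nat.pow_le_pow_left (show N' ≤ N' + 1 by omega) n
        omega⟩
    have hC1 : 1 ≤ C := by
      have := Nat.pow_lt_pow_left (show N' < N' + 1 by omega) h0.ne'
      omega
    -- position of the core
    have hsum0 : 0 ≤ ∑ i ∈ Finset.Ico M (M + m), r i ^ n := by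
      apply Finset.sum_nonneg
      intro i hi
      have := hpos i (Finset.mem_Ico.1 hi).1 (Finset.mem_Ico.1 hi).2
      positivity
    have hσ1 : σ ≤ a - n * h :=
      (pow_le_pow_iff_left₀ hσ hA h0.ne').1 (by linarith)
    have hσ2 : σ ≤ a - h := by nlinarith
    have hshell : shell n (a - h) a ⊆ shell n σ a := by
      intro x hx
      exact ⟨hx.1, hσ2.trans hx.2⟩
    rcases Nat.lt_or_ge C m with hCm | hCm
    · -- outer layer, then recursion
      have outer : Fits n r (Set.Ico M (M + C)) (shell n (a - h) a) := by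
        have := fits_outer_layer (r := r) h0 hh hbase0 N' M C (by omega)
          (fun i hi hi2 => hanti M i le_rfl hi (by omega))
        rwa [e1, e2] at this
      set M' := M + C with hM'
      have hM'2 : M' + (m - C) = M + m := by omega
      have hh'0 : 0 < r M' := hpos M' (by omega) (by omega)
      have hh'h : r M' ≤ h := hanti M M' le_rfl (by omega) (by omega)
      have hsplit : ∑ i ∈ Finset.Ico M (M + m), r i ^ n
          = ∑ i ∈ Finset.Ico M M', r i ^ n + ∑ i ∈ Finset.Ico M' (M + m), r i ^ n :=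
        (Finset.sum_Ico_consecutive _ (by omega) (by omega)).symm
      have hfirst : (C : ℝ) * r M' ^ n ≤ ∑ i ∈ Finset.Ico M M', r i ^ n := by
        have h1 : ∀ i ∈ Finset.Ico M M', r M' ^ n ≤ r i ^ n := by
          intro i hi
          have hi' := Finset.mem_Ico.1 hi
          exact pow_le_pow_left₀ hh'0.le (hanti i M' hi'.1 hi'.2.le (by omega)) _
        have h2 := Finset.card_nsmul_le_sum _ _ _ h1
        simp only [Nat.card_Ico, hM', Nat.add_sub_cancel_left, nsmul_eq_mul] at h2
        exact h2
      have hW : r M' ^ n ≤ ∑ i ∈ Finset.Ico M' (M + m), r i ^ n := by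
        have := Finset.single_le_sum (f := fun i => r i ^ n) (s := Finset.Ico M' (M + m))
          (fun i hi => by
            have h1 := Finset.mem_Ico.1 hi
            have := hpos i (by omega) h1.2
            positivity) (Finset.mem_Ico.2 ⟨le_rfl, by omega⟩)
        exact this
      have hS0 : 0 ≤ σ ^ n := by positivity
      obtain ⟨h1, h2⟩ := layer_ineq (a := a) (h := h) (h' := r M') (W := ∑ i ∈ Finset.Ico M' (M + m), r i ^ n)
        (S := σ ^ n) (N' := N') (C := C) h0 hh'0 hh'h hA hlt hC hS0 hW (by linarith)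
      have inner : Fits n r (Set.Ico M' (M' + (m - C))) (shell n σ (a - h)) := by
        apply ih (m - C) (by omega) M' (a - h)
        · intro i hi hi2
          exact hpos i (by omega) (by omega)
        · intro i j hi hij hj
          exact hanti i j (by omega) hij (by omega)
        · exact h1
        · rw [hM'2]
          exact h2
      have hdisj : Disjoint (shell n σ (a - h)) (shell n (a - h) a) := by
        rw [Set.disjoint_left]
        intro x hx hx'
        have h3 := hx.1.2
        have h4 := hx'.2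
        linarith
      have := Fits.union inner outer hdisj
      apply this.mono
      · intro i hi
        rw [hM'2]
        by_cases h5 : i < M'
        · exact Or.inr ⟨hi.1, h5⟩
        · exact Or.inl ⟨by omega, hi.2⟩
      · intro x hx
        rcases hx with hx | hx
        · refine ⟨⟨hx.1.1, ?_⟩, hx.2⟩
          have := hx.1.2
          linarith
        · exact hshell hx
    · -- everything in the outer layer
      have outer : Fits n r (Set.Ico M (M + m)) (shell n (a - h) a) := by
        have := fits_outer_layer (r := r) h0 hh hbase0 N' M m (by omega)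
          (fun i hi hi2 => hanti M i le_rfl hi (by omega))
        rwa [e1, e2] at this
      exact outer.mono subset_rfl hshell

end Vale.Agent.Lib.P209
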