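import Vale.Agent.Lib.P209.BinsM

open Real Matrix

namespace Vale.Agent.Lib.P209

variable {n : ℕ}

/-- The exact volume of the fine bins, general `m`. -/
lemma fine_volume_m {s t u base R : ℝ} {L M F m : ℕ} (hs : s + m * t = R)
    (hMu : (M : ℝ) * u = t) (hLu : (L : ℝ) * u + base = s)
    (hF : F + L ^ n + ((m + 1) * M) ^ n = (L + m * M) ^ n + M ^ n) :
    (F : ℝ) * u ^ n = (R - base) ^ n + t ^ n - (s - base) ^ n - (((m + 1 : ℕ) : ℝ) * t) ^ n := by
  have hF' : (F : ℝ) + (L : ℝ) ^ n + (((m + 1 : ℕ) : ℝ) * (M : ℝ)) ^ n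
      = ((L : ℝ) + m * M) ^ n + (M : ℝ) ^ n := by
    exact_mod_cast hF
  have e1 : ((L : ℝ) + m * M) * u = R - base := by
    rw [← hs, ← hMu, ← hLu]; ring
  have e2 : (L : ℝ) * u = s - base := by linarith
  have e3 : (((m + 1 : ℕ) : ℝ) * (M : ℝ)) * u = ((m + 1 : ℕ) : ℝ) * t := by
    rw [mul_assoc, hMu]
  rw [← e1, ← e2, ← e3, ← hMu, mul_pow, mul_pow, mul_pow, mul_pow]
  have : (F : ℝ) = ((L : ℝ) + m * M) ^ n + (M : ℝ) ^ n - (L : ℝ) ^ n
      - (((m + 1 : ℕ) : ℝ) * (M : ℝ)) ^ n := by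
    linarith
  rw [this]
  ring

lemma fine_main_m (h0 : 0 < n) {R s t y u base F : ℝ} {m : ℕ} (hR : 0 < R) (hy0 : 0 < y)
    (hs : s + m * t = R) (ht : 0 < t) (hb0 : 0 ≤ base) (hbu : base ≤ u) (hu2 : u ≤ 2 * y * R)
    (hb_s : base ≤ s)
    (hW : F * u ^ n = (R - base) ^ n + t ^ n - (s - base) ^ n - (((m + 1 : ℕ) : ℝ) * t) ^ n) :
    R ^ n - 2 * n * y * (R * R ^ (n - 1))
      ≤ s ^ n + (((m + 1) ^ n : ℕ) - 1 : ℝ) * t ^ n + F * u ^ n := by
  have hRp : 0 < R ^ (n - 1) := by positivity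
  have hmt : (0 : ℝ) ≤ m * t := by positivity
  have hR0 : 0 ≤ R - base := by linarith
  have h1 : R ^ n - (R - base) ^ n ≤ n * (R - (R - base)) * R ^ (n - 1) :=
    pow_sub_pow_le hR0 (by linarith) n
  have h2 : R - (R - base) = base := by ring
  rw [h2] at h1
  have h3 : n * base * R ^ (n - 1) ≤ n * (2 * y * R) * R ^ (n - 1) := by
    apply mul_le_mul_of_nonneg_right _ hRp.le
    apply mul_le_mul_of_nonneg_left (hbu.trans hu2)
    positivity
  have h4 : (s - base) ^ n ≤ s ^ n := pow_le_pow_left₀ (by linarith) (by linarith) _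
  have h5 : (((m + 1 : ℕ) : ℝ) * t) ^ n = (((m + 1) ^ n : ℕ) : ℝ) * t ^ n := by
    rw [mul_pow]; push_cast; ring
  rw [hW, h5]
  have h6 : n * (2 * y * R) * R ^ (n - 1) = 2 * n * y * (R * R ^ (n - 1)) := by ring
  rw [h6] at h3
  have h7 : ((((m + 1) ^ n : ℕ) : ℝ) - 1) * t ^ n = (((m + 1) ^ n : ℕ) : ℝ) * t ^ n - t ^ n := by ring
  rw [h7]
  linarith

lemma coeff_m (h0 : 0 < n) {y : ℝ} (hy0 : 0 < y) (hy1 : y ≤ 1 / 9) :
    2 * (n : ℝ) * y + n ^ 2 * y ^ 2 + n ^ 2 * y + n ^ 2 * y + y + y + y ^ 2 ≤ 9 * n ^ 2 * y := by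
  have hn1 : (1 : ℝ) ≤ n := by exact_mod_cast h0
  have hy2 : y ^ 2 ≤ y := by nlinarith
  have hnn : (n : ℝ) ≤ n ^ 2 := by nlinarith
  have hnn1 : (1 : ℝ) ≤ n ^ 2 := by nlinarith
  have a1 : (n : ℝ) * y ≤ n ^ 2 * y := mul_le_mul_of_nonneg_right hnn hy0.le
  have a2 : (n : ℝ) ^ 2 * y ^ 2 ≤ n ^ 2 * y := mul_le_mul_of_nonneg_left hy2 (by positivity)
  have a3 : y ^ 2 ≤ n ^ 2 * y := by nlinarith
  have a4 : y ≤ n ^ 2 * y := by nlinarith
  nlinarith

/-- The loss in a family of `c` bins of size `v`. -/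
lemma bins_loss (h0 : 0 < n) {x R y v c : ℝ} (hR : 0 < R) (hy0 : 0 < y) (hy1 : y ≤ 1 / 9)
    (hxy : x = y ^ 2 * R) (hv : y * R ≤ v) (hc : 0 ≤ c) (hcv : c * v ^ n ≤ R ^ n) :
    c * v ^ n - n ^ 2 * (y * (R * R ^ (n - 1))) - y * (R * R ^ (n - 1))
      ≤ c * binCap n x v - c * x ^ n := by
  have hx : 0 ≤ x := by rw [hxy]; positivity
  have hv0 : 0 < v := lt_of_lt_of_le (by positivity) hv
  have hPer := fine_per h0 hR hy0 hv hc rfl hcv
  set P := c * v ^ (n - 1) with hP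
  have hP0 : 0 ≤ P := by positivity
  have hyRle : y ^ 2 * R ≤ y * R := by nlinarith [mul_pos hy0 hR]
  have hxv : x ≤ v := by rw [hxy]; linarith
  have hcap := binCap_ge h0 hx hv0.le
  have h1 : c * v ^ n - n ^ 2 * x * P ≤ c * binCap n x v := by
    have h2 := mul_le_mul_of_nonneg_left hcap hc
    have e : c * (v ^ n - n ^ 2 * x * v ^ (n - 1)) = c * v ^ n - n ^ 2 * x * P := by
      rw [hP]; ring
    rw [e] at h2
    exact h2
  have h3 : c * x ^ n ≤ x * P := by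
    have hx1 : x ^ n = x * x ^ (n - 1) := by
      rw [← pow_succ']
      congr 1
      omega
    have h2 : x ^ (n - 1) ≤ v ^ (n - 1) := pow_le_pow_left₀ hx hxv _
    have h4 : x * x ^ (n - 1) ≤ x * v ^ (n - 1) := mul_le_mul_of_nonneg_left h2 hx
    have h5 := mul_le_mul_of_nonneg_left h4 hc
    rw [hx1, hP]
    calc c * (x * x ^ (n - 1)) ≤ c * (x * v ^ (n - 1)) := h5
      _ = x * (c * v ^ (n - 1)) := by ring
  have h4 : x * P ≤ y * (R * R ^ (n - 1)) := by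
    have e : x * P = y * R * (P * y) := by rw [hxy]; ring
    rw [e]
    have h5 : y * R * (P * y) ≤ y * R * R ^ (n - 1) :=
      mul_le_mul_of_nonneg_left hPer (by positivity)
    calc y * R * (P * y) ≤ y * R * R ^ (n - 1) := h5
      _ = y * (R * R ^ (n - 1)) := by ring
  have h5 : (n : ℝ) ^ 2 * x * P ≤ n ^ 2 * (y * (R * R ^ (n - 1))) := by
    have h6 := mul_le_mul_of_nonneg_left h4 (show (0 : ℝ) ≤ n ^ 2 by positivity)
    calc (n : ℝ) ^ 2 * x * P = (n : ℝ) ^ 2 * (x * P) := by ring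
      _ ≤ _ := h6
  linarith

/-- The loss in the core. -/
lemma core_loss (h0 : 0 < n) {x R y s : ℝ} (hR : 0 < R) (hy0 : 0 < y) (hy1 : y ≤ 1 / 9)
    (hxy : x = y ^ 2 * R) (hs0 : 0 ≤ s) (hsR : s ≤ R) :
    s ^ n - n ^ 2 * y ^ 2 * (R * R ^ (n - 1)) - y ^ 2 * (R * R ^ (n - 1))
      ≤ binCap n x s - x ^ n := by
  have hx : 0 ≤ x := by rw [hxy]; positivity
  have hcaps := binCap_ge h0 hx hs0
  have hsp : s ^ (n - 1) ≤ R ^ (n - 1) := pow_le_pow_left₀ hs0 hsR _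
  have h1 : (n : ℝ) ^ 2 * x * s ^ (n - 1) ≤ n ^ 2 * x * R ^ (n - 1) :=
    mul_le_mul_of_nonneg_left hsp (by positivity)
  have h2 : (n : ℝ) ^ 2 * x * R ^ (n - 1) = n ^ 2 * y ^ 2 * (R * R ^ (n - 1)) := by
    rw [hxy]; ring
  have hxR : x ≤ R := by
    rw [hxy]
    have : y ^ 2 ≤ 1 := by nlinarith
    nlinarith
  have h3 : x ^ n ≤ x * R ^ (n - 1) := by
    have hx1 : x ^ n = x * x ^ (n - 1) := by
      rw [← pow_succ']
      congr 1
      omega
    rw [hx1]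
    exact mul_le_mul_of_nonneg_left (pow_le_pow_left₀ hx hxR _) hx
  have h4 : x * R ^ (n - 1) = y ^ 2 * (R * R ^ (n - 1)) := by
    rw [hxy]; ring
  linarith

lemma final_lin {Q s' t' u' bs bt bu xs xt xu a b c e f Z : ℝ}
    (hcore : s' - c - f ≤ bs - xs) (hcoarse : t' - b - e ≤ bt - xt) (hfine : u' - b - e ≤ bu - xu)
    (hmain : Q - a ≤ s' + t' + u') (hcoef : a + c + b + b + e + e + f ≤ Z) :
    Q - Z ≤ bs + bt + bu - (xt + xu + xs) := by
  linarith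

/-- The numerical bound with coarse and fine bins, general `m`. -/
lemma num_fine_m (h0 : 0 < n) {x R s t y u base : ℝ} {L M F m : ℕ} (hR : 0 < R) (hy0 : 0 < y)
    (hy1 : y ≤ 1 / 9) (hxy : x = y ^ 2 * R) (hs : s + m * t = R) (hts : t ≤ s) (ht : 0 < t)
    (hMu : (M : ℝ) * u = t) (hLu : (L : ℝ) * u + base = s) (hb0 : 0 ≤ base) (hbu : base ≤ u)
    (hu1 : y * R ≤ u) (hu2 : u ≤ 2 * y * R) (ht1 : y * R ≤ t)
    (hF : F + L ^ n + ((m + 1) * M) ^ n = (L + m * M) ^ n + M ^ n) :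
    (1 - 9 * n ^ 2 * y) * R ^ n
      ≤ binCap n x s + (((m + 1) ^ n : ℕ) - 1 : ℝ) * binCap n x t + (F : ℝ) * binCap n x u
        - ((((m + 1) ^ n : ℕ) : ℝ) + F) * x ^ n := by
  have hu0 : 0 < u := lt_of_lt_of_le (by positivity) hu1
  have hmt : (0 : ℝ) ≤ m * t := by positivity
  have hQ : R ^ n = R * R ^ (n - 1) := by
    rw [← pow_succ']
    congr 1
    omega
  have hW := fine_volume_m hs hMu hLu hF
  have hb_s : base ≤ s := by
    have : 0 ≤ (L : ℝ) * u := by positivity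
    linarith
  have hs0 : 0 ≤ s := by linarith
  have hsR : s ≤ R := by linarith
  have hR0 : 0 ≤ R - base := by linarith
  have hmt1 : ((m + 1 : ℕ) : ℝ) * t ≤ R := by
    push_cast
    linarith
  have hC1 : (1 : ℝ) ≤ (((m + 1) ^ n : ℕ) : ℝ) := by
    have : 1 ≤ (m + 1) ^ n := Nat.one_le_pow _ _ (by omega)
    exact_mod_cast this
  have hm1 : (1 : ℝ) ≤ ((m + 1 : ℕ) : ℝ) := by
    push_cast
    have : (0 : ℝ) ≤ m := Nat.cast_nonneg _
    linarith
  have hm1t : t ≤ ((m + 1 : ℕ) : ℝ) * t := by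
    have := mul_le_mul_of_nonneg_right hm1 ht.le
    linarith
  have h2t : t ^ n ≤ (((m + 1 : ℕ) : ℝ) * t) ^ n := pow_le_pow_left₀ ht.le hm1t _
  have hsb : 0 ≤ (s - base) ^ n := pow_nonneg (by linarith) _
  have hRb : (R - base) ^ n ≤ R ^ n := pow_le_pow_left₀ hR0 (by linarith) _
  have hWle : (F : ℝ) * u ^ n ≤ R ^ n := by rw [hW]; linarith
  have hF0 : (0 : ℝ) ≤ F := Nat.cast_nonneg _
  have hCt : (((m + 1) ^ n : ℕ) : ℝ) * t ^ n = (((m + 1 : ℕ) : ℝ) * t) ^ n := by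
    rw [mul_pow]; push_cast; ring
  have hCle : ((((m + 1) ^ n : ℕ) : ℝ) - 1) * t ^ n ≤ R ^ n := by
    have h1 : (((m + 1 : ℕ) : ℝ) * t) ^ n ≤ R ^ n :=
      pow_le_pow_left₀ (le_trans ht.le hm1t) hmt1 _
    have h2 : (0 : ℝ) ≤ t ^ n := by positivity
    have e : ((((m + 1) ^ n : ℕ) : ℝ) - 1) * t ^ n = ((m + 1) ^ n : ℕ) * t ^ n - t ^ n := by ring
    rw [e, hCt]
    linarith
  have hfinebins := bins_loss h0 hR hy0 hy1 hxy hu1 hF0 hWle
  have hcoarsebins := bins_loss h0 hR hy0 hy1 hxy ht1 (show 0 ≤ (((m + 1) ^ n : ℕ) : ℝ) - 1 by linarith)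
    hCle
  have hcore := core_loss h0 hR hy0 hy1 hxy hs0 hsR
  have hmain := fine_main_m h0 hR hy0 hs ht hb0 hbu hu2 hb_s hW
  rw [hQ] at hmain ⊢
  set Q := R * R ^ (n - 1) with hQdef
  have hQ0 : 0 < Q := by positivity
  have h10 := mul_le_mul_of_nonneg_right (coeff_m h0 hy0 hy1) hQ0.le
  have e2 : (2 * (n : ℝ) * y + n ^ 2 * y ^ 2 + n ^ 2 * y + n ^ 2 * y + y + y + y ^ 2) * Q
      = 2 * n * y * Q + n ^ 2 * y ^ 2 * Q + n ^ 2 * (y * Q) + n ^ 2 * (y * Q) + y * Q + y * Q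
        + y ^ 2 * Q := by ring
  rw [e2] at h10
  have e3 : (1 - 9 * (n : ℝ) ^ 2 * y) * Q = Q - 9 * (n : ℝ) ^ 2 * y * Q := by ring
  have e : (((((m + 1) ^ n : ℕ) : ℝ)) + F) * x ^ n
      = (((((m + 1) ^ n : ℕ) : ℝ)) - 1) * x ^ n + (F : ℝ) * x ^ n + x ^ n := by ring
  rw [e, e3]
  exact final_lin hcore hcoarsebins hfinebins hmain h10

/-- Choice of the parameters of the fine grid. -/
lemma exists_fine_params {y R s t : ℝ} (hyR : 0 < y * R) (ht : 0 < t) (hts : t ≤ s)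
    (htyR : y * R ≤ t) :
    ∃ (M L : ℕ) (u base : ℝ), M ≤ L ∧ 0 < u ∧ (M : ℝ) * u = t ∧ y * R ≤ u ∧ u ≤ 2 * y * R ∧
      (L : ℝ) * u + base = s ∧ 0 ≤ base ∧ base ≤ u := by
  set M := ⌊t / (y * R)⌋₊ with hMdef
  have hM1 : 1 ≤ M := by
    apply Nat.le_floor
    rw [Nat.cast_one, one_le_div hyR]
    exact htyR
  have hM0 : (0 : ℝ) < M := by exact_mod_cast hM1
  have hM1' : (1 : ℝ) ≤ M := by exact_mod_cast hM1
  set u := t / M with hudef
  have hu0 : 0 < u := div_pos ht hM0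
  have hMu : (M : ℝ) * u = t := by
    simp only [hudef]
    field_simp
  have hu1 : y * R ≤ u := by
    have := Nat.floor_le (show 0 ≤ t / (y * R) by positivity)
    rw [← hMdef, le_div_iff₀ hyR] at this
    rw [hudef, le_div_iff₀ hM0]
    linarith
  have hu2 : u ≤ 2 * y * R := by
    have := Nat.lt_floor_add_one (t / (y * R))
    rw [← hMdef, div_lt_iff₀ hyR] at this
    rw [hudef, div_le_iff₀ hM0]
    nlinarith
  have hs0 : 0 ≤ s := by linarith
  set L := ⌊s / u⌋₊ with hLdef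
  have hML : M ≤ L := by
    apply Nat.le_floor
    rw [le_div_iff₀ hu0, hMu]
    exact hts
  have hLfloor : (L : ℝ) * u ≤ s := by
    have := Nat.floor_le (show 0 ≤ s / u by positivity)
    rwa [← hLdef, le_div_iff₀ hu0] at this
  have hLfloor2 : s < ((L : ℝ) + 1) * u := by
    have := Nat.lt_floor_add_one (s / u)
    rwa [← hLdef, div_lt_iff₀ hu0] at this
  refine ⟨M, L, u, s - (L : ℝ) * u, hML, hu0, hMu, hu1, hu2, by ring, by linarith, ?_⟩
  have : ((L : ℝ) + 1) * u = (L : ℝ) * u + u := by ring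
  linarith

/-- Choice of the parameters `s`, `t`. -/
lemma exists_st {r0 r1 R : ℝ} {m : ℕ} (hm : 1 ≤ m) (hR : 0 < R) (hr0R : r0 < R) :
    ∃ s t : ℝ, s + m * t = R ∧ 0 < t ∧ t ≤ s ∧ r0 ≤ s ∧ s < R ∧
      (r1 ≤ r0 → r0 + m * r1 < R → r1 ≤ t) := by
  have hmR : (1 : ℝ) ≤ m := by exact_mod_cast hm
  have hm0 : (0 : ℝ) < m := by linarith
  have hm1 : (0 : ℝ) < (m : ℝ) + 1 := by linarith
  refine ⟨max r0 (R / (m + 1)), (R - max r0 (R / (m + 1))) / m, ?_, ?_, ?_, le_max_left _ _, ?_, ?_⟩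
  · field_simp
    ring
  · apply div_pos _ hm0
    have : max r0 (R / (m + 1)) < R := max_lt hr0R (by
      rw [div_lt_iff₀ hm1]
      nlinarith)
    linarith
  · rw [div_le_iff₀ hm0]
    have h1 : R / (m + 1) ≤ max r0 (R / (m + 1)) := le_max_right _ _
    have h2 : R ≤ max r0 (R / (m + 1)) * (m + 1) := (div_le_iff₀ hm1).1 h1
    nlinarith
  · exact max_lt hr0R (by
      rw [div_lt_iff₀ hm1]
      nlinarith)
  · intro h5 h2
    rw [le_div_iff₀ hm0]
    by_cases h3 : r0 ≤ R / (m + 1)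
    · rw [max_eq_right h3]
      have h9 : R - R / (m + 1) = R / (m + 1) * m := by
        field_simp
        ring
      rw [h9]
      exact mul_le_mul_of_nonneg_right (h5.trans h3) hm0.le
    · push Not at h3
      rw [max_eq_left h3.le]
      linarith

/-- The case where all balls but one are small compared with the volume defect. -/
lemma case_small (h0 : 0 < n) {r : ℕ → ℝ} {R y : ℝ} {k : ℕ} (hR : 0 < R) (hy0 : 0 < y)
    (hcoef : 0 < 1 - 9 * (n : ℝ) ^ 2 * y) (hpos : ∀ i, i < k → 0 < r i)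
    (hanti : ∀ i j, i ≤ j → j < k → r j ≤ r i) (hsm : ∀ i, 1 ≤ i → i < k → r i ≤ y * R)
    (hvol : ∑ i ∈ Finset.range k, r i ^ n ≤ (1 - 9 * n ^ 2 * y) * R ^ n) :
    Fits n r (Set.Iio k) (openSimplex n R) := by
  have hn1 : (1 : ℝ) ≤ n := by exact_mod_cast h0
  have hRn : 0 < R ^ n := by positivity
  have hyR : 0 < y * R := by positivity
  have hny0 : 0 < (n : ℝ) * y := by positivity
  have hnn : (n : ℝ) ≤ (n : ℝ) ^ 2 := by nlinarith
  have hny : (n : ℝ) * y ≤ 1 := by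
    have h1 : (n : ℝ) * y ≤ (n : ℝ) ^ 2 * y := mul_le_mul_of_nonneg_right hnn hy0.le
    have h2 : 0 < (n : ℝ) ^ 2 * y := by positivity
    linarith
  have hn0 : 0 ≤ 1 - (n : ℝ) * y := by linarith
  apply one_big_sorted h0 (x := y * R) hyR
  · have : (n : ℝ) * (y * R) = ((n : ℝ) * y) * R := by ring
    rw [this]
    exact mul_le_of_le_one_left hR.le hny
  · exact hpos
  · exact hanti
  · exact hsm
  · have h1 : R - n * (y * R) = (1 - n * y) * R := by ring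
    rw [h1, mul_pow]
    have h2 : 1 + (n : ℝ) * (- (n * y)) ≤ (1 + (- (n * y))) ^ n :=
      one_add_mul_le_pow (by linarith) n
    have h3 : (1 : ℝ) - n * y = 1 + (- (n * y)) := by ring
    rw [h3]
    have h4 : (1 - 9 * (n : ℝ) ^ 2 * y) * R ^ n ≤ (1 + (n : ℝ) * (-(n * y))) * R ^ n := by
      apply mul_le_mul_of_nonneg_right _ hRn.le
      have : 0 ≤ (n : ℝ) ^ 2 * y := by positivity
      nlinarith
    have h5 := mul_le_mul_of_nonneg_right h2 hRn.le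
    linarith

/-- The main theorem for sorted capacities, non-strict form, general `m`. -/
theorem main_sorted_m (h0 : 0 < n) {r : ℕ → ℝ} {x R : ℝ} {K k : ℕ} (m : ℕ) (hm : 1 ≤ m)
    (hR : 0 < R) (hx : 0 < x)
    (hK : K ≤ (m + 1) ^ n) (hKk : K ≤ k) (hpos : ∀ i, i < k → 0 < r i)
    (hanti : ∀ i j, i ≤ j → j < k → r j ≤ r i) (hsmall : ∀ i, K ≤ i → i < k → r i ≤ x)
    (h0R : 0 < k → r 0 < R) (h01 : 1 < k → r 0 + m * r 1 < R)
    (hvol : ∑ i ∈ Finset.range k, r i ^ n ≤ (1 - 9 * n ^ 2 * √(x / R)) * R ^ n) :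
    Fits n r (Set.Iio k) (openSimplex n R) := by
  classical
  rcases Nat.eq_zero_or_pos k with hk | hk
  · subst hk
    simpa using Fits.empty r _
  set y := √(x / R) with hy
  have hy0 : 0 < y := Real.sqrt_pos.2 (div_pos hx hR)
  have hxy : x = y ^ 2 * R := by
    rw [hy, Real.sq_sqrt (div_pos hx hR).le]
    field_simp
  have hRn : 0 < R ^ n := by positivity
  have hsum : 0 < ∑ i ∈ Finset.range k, r i ^ n := by
    apply Finset.sum_pos
    · intro i hi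
      have := hpos i (Finset.mem_range.1 hi)
      positivity
    · exact ⟨0, Finset.mem_range.2 hk⟩
  have hn1 : (1 : ℝ) ≤ n := by exact_mod_cast h0
  have hcoef : 0 < 1 - 9 * (n : ℝ) ^ 2 * y := by
    by_contra hc
    push Not at hc
    have := mul_nonpos_of_nonpos_of_nonneg hc hRn.le
    linarith
  have hnn1 : (1 : ℝ) ≤ (n : ℝ) ^ 2 := by nlinarith
  have hy1 : y ≤ 1 / 9 := by
    have : y ≤ (n : ℝ) ^ 2 * y := by nlinarith
    linarith
  have hr0R := h0R hk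
  obtain ⟨s, t, hs, ht, hts, hr0s, hsR, hr1t⟩ := exists_st (r1 := r 1) hm hR hr0R
  have hr1 : ∀ i, 1 ≤ i → i < K → r i ≤ t := by
    intro i hi hiK
    have hik : i < k := by omega
    have h1 : r i ≤ r 1 := hanti 1 i hi hik
    exact h1.trans (hr1t (hanti 0 1 (by omega) (by omega)) (h01 (by omega)))
  have hitems : ∀ i, K ≤ i → i < k → 0 < r i ∧ r i ≤ x :=
    fun i hi hi2 => ⟨hpos i hi2, hsmall i hi hi2⟩
  have hanti' : ∀ i j, K ≤ i → i ≤ j → j < k → r j ≤ r i :=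
    fun i j _ hij hj => hanti i j hij hj
  have hrpos : ∀ i, i < K → 0 ≤ r i := fun i hi => (hpos i (by omega)).le
  have hr0 : 0 < K → r 0 ≤ s := fun _ => hr0s
  have hyR : 0 < y * R := by positivity
  have hxyR : x ≤ y * R := by
    rw [hxy]
    have : y ^ 2 ≤ y := by nlinarith
    exact mul_le_mul_of_nonneg_right this hR.le
  by_cases htyR : t < y * R
  · -- everything except the largest ball is small
    apply case_small h0 hR hy0 hcoef hpos hanti _ hvol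
    intro i hi hi2
    by_cases h3 : i < K
    · exact (hr1 i hi h3).trans htyR.le
    · exact (hsmall i (by omega) hi2).trans hxyR
  · push Not at htyR
    -- fine bins
    obtain ⟨M, L, u, base, hML, hu0, hMu, hu1, hu2, hLu, hb0, hbu⟩ :=
      exists_fine_params hyR ht hts htyR
    obtain ⟨Fine, hF, hfine⟩ := exists_fine_m h0 m hML hu0 hb0 hs hMu hLu
    have hnum := num_fine_m h0 hR hy0 hy1 hxy hs hts ht hMu hLu hb0 hbu hu1 hu2 htyR hF
    exact main_core_m h0 (R := R) (s := s) (t := t) (u := u) (bf := base) m Fine hs ht hts hu0 hfine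
      hK hKk hitems hanti' hr0 hr1 hrpos hx.le (hvol.trans hnum)

end Vale.Agent.Lib.P209
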