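import Vale.Agent.Lib.P209.Bins

open Real Matrix

namespace Vale.Agent.Lib.P209

variable {n : ℕ}

lemma binCap_ge (h0 : 0 < n) {x τ : ℝ} (hx : 0 ≤ x) (hτ : 0 ≤ τ) :
    τ ^ n - n ^ 2 * x * τ ^ (n - 1) ≤ binCap n x τ := by
  unfold binCap
  have hn1 : (1 : ℝ) ≤ n := by exact_mod_cast h0
  by_cases h : 0 ≤ τ - n * x
  · rw [max_eq_left h]
    have h1 := pow_sub_pow_le h (by nlinarith) n
    have h2 : τ - (τ - n * x) = n * x := by ring
    rw [h2] at h1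
    nlinarith
  · push Not at h
    rw [max_eq_right h.le, zero_pow h0.ne']
    have h1 : τ ≤ n ^ 2 * x := by nlinarith
    have h2 : τ ^ n = τ * τ ^ (n - 1) := by
      rw [← pow_succ']
      congr 1
      omega
    have h3 : 0 ≤ τ ^ (n - 1) := by positivity
    rw [h2]
    nlinarith

/-- The bound for the core and the coarse bins. -/
lemma num_base (h0 : 0 < n) {x R s t : ℝ} (hx : 0 ≤ x) (h2x : 2 * x ≤ R)
    (hs : s + t = R) (hts : t ≤ s) (ht : 0 < t) :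
    s ^ n + ((2 ^ n : ℕ) - 1 : ℝ) * t ^ n - 3 * n ^ 2 * x * R ^ (n - 1) - 2 * x * R ^ (n - 1)
      ≤ binCap n x s + ((2 ^ n : ℕ) - 1 : ℝ) * binCap n x t - ((2 ^ n : ℕ) : ℝ) * x ^ n := by
  have hs0 : 0 ≤ s := by linarith
  have hR : 0 ≤ R := by linarith
  have hsR : s ≤ R := by linarith
  have h2t : 2 * t ≤ R := by linarith
  have hp : (1 : ℝ) ≤ ((2 ^ n : ℕ) : ℝ) := by
    have : 1 ≤ 2 ^ n := Nat.one_le_two_pow
    exact_mod_cast this
  have hnn : 0 ≤ (n : ℝ) ^ 2 * x := by positivity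
  have h1 := binCap_ge h0 hx hs0
  have h2 := binCap_ge h0 hx ht.le
  have h3 : s ^ (n - 1) ≤ R ^ (n - 1) := pow_le_pow_left₀ hs0 hsR _
  have hpow : ((2 ^ n : ℕ) : ℝ) = 2 * 2 ^ (n - 1) := by
    push_cast
    rw [← pow_succ']
    congr 1
    omega
  have h4 : ((2 ^ n : ℕ) : ℝ) * t ^ (n - 1) ≤ 2 * R ^ (n - 1) := by
    rw [hpow]
    have : (2 * t) ^ (n - 1) ≤ R ^ (n - 1) := pow_le_pow_left₀ (by linarith) h2t _
    rw [mul_pow] at this
    nlinarith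
  have h5 : ((2 ^ n : ℕ) : ℝ) * x ^ n ≤ 2 * x * R ^ (n - 1) := by
    have e : ((2 ^ n : ℕ) : ℝ) * x ^ n = (2 * x) * (2 * x) ^ (n - 1) := by
      rw [← pow_succ']
      rw [show n - 1 + 1 = n by omega, mul_pow]
      push_cast
      ring
    rw [e]
    exact mul_le_mul_of_nonneg_left (pow_le_pow_left₀ (by linarith) h2x _) (by linarith)
  have ht1 : 0 ≤ t ^ (n - 1) := by positivity
  have h6 : ((2 ^ n : ℕ) - 1 : ℝ) * (n ^ 2 * x * t ^ (n - 1)) ≤ 2 * n ^ 2 * x * R ^ (n - 1) := by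
    have h7 : (((2 ^ n : ℕ) : ℝ) - 1) * t ^ (n - 1) ≤ 2 * R ^ (n - 1) := by nlinarith
    have h8 := mul_le_mul_of_nonneg_left h7 hnn
    nlinarith
  have h9 : ((2 ^ n : ℕ) - 1 : ℝ) * (t ^ n - n ^ 2 * x * t ^ (n - 1))
      ≤ ((2 ^ n : ℕ) - 1 : ℝ) * binCap n x t :=
    mul_le_mul_of_nonneg_left h2 (by linarith)
  have h10 : n ^ 2 * x * s ^ (n - 1) ≤ n ^ 2 * x * R ^ (n - 1) :=
    mul_le_mul_of_nonneg_left h3 hnn
  nlinarith

/-- The numerical bound when there are no fine bins. -/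
lemma num_coarse (h0 : 0 < n) {x R s t y : ℝ} (hR : 0 < R) (hy0 : 0 ≤ y) (hy1 : y ≤ 1 / 9)
    (hxy : x = y ^ 2 * R) (hs : s + t = R) (hts : t ≤ s) (ht : 0 < t) (hty : t ≤ y * R) :
    (1 - 9 * n ^ 2 * y) * R ^ n
      ≤ binCap n x s + ((2 ^ n : ℕ) - 1 : ℝ) * binCap n x t - ((2 ^ n : ℕ) : ℝ) * x ^ n := by
  have hx : 0 ≤ x := by rw [hxy]; positivity
  have h2x : 2 * x ≤ R := by
    rw [hxy]
    nlinarith [mul_pos hR hR]
  have h1 := num_base h0 hx h2x hs hts ht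
  have hn1 : (1 : ℝ) ≤ n := by exact_mod_cast h0
  have hRp : 0 < R ^ (n - 1) := by positivity
  have hQ : R ^ n = R * R ^ (n - 1) := by
    rw [← pow_succ']
    congr 1
    omega
  have h2 : R ^ n - s ^ n ≤ n * (R - s) * R ^ (n - 1) :=
    pow_sub_pow_le (by linarith) (by linarith) n
  have h3 : R - s = t := by linarith
  rw [h3] at h2
  have hp : (1 : ℝ) ≤ ((2 ^ n : ℕ) : ℝ) := by
    have : 1 ≤ 2 ^ n := Nat.one_le_two_pow
    exact_mod_cast this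
  have h4 : 0 ≤ ((2 ^ n : ℕ) - 1 : ℝ) * t ^ n := mul_nonneg (by linarith) (by positivity)
  have h5 : n * t * R ^ (n - 1) ≤ n * (y * R) * R ^ (n - 1) := by
    apply mul_le_mul_of_nonneg_right _ hRp.le
    apply mul_le_mul_of_nonneg_left hty
    positivity
  have h6 : 3 * (n : ℝ) ^ 2 * x * R ^ (n - 1) = 3 * n ^ 2 * y ^ 2 * (R * R ^ (n - 1)) := by
    rw [hxy]; ring
  have h7 : 2 * x * R ^ (n - 1) = 2 * y ^ 2 * (R * R ^ (n - 1)) := by
    rw [hxy]; ring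
  have h8 : n * (y * R) * R ^ (n - 1) = n * y * (R * R ^ (n - 1)) := by ring
  rw [h8] at h5
  rw [h6, h7] at h1
  rw [hQ] at h2 ⊢
  set Q := R * R ^ (n - 1) with hQdef
  have hQ0 : 0 < Q := by positivity
  have h9 : (n : ℝ) * y + 3 * n ^ 2 * y ^ 2 + 2 * y ^ 2 ≤ 9 * n ^ 2 * y := by
    have hy2 : y ^ 2 ≤ y := by nlinarith
    have hnn : (n : ℝ) ≤ n ^ 2 := by nlinarith
    have hnn1 : (1 : ℝ) ≤ n ^ 2 := by nlinarith
    have a1 : (n : ℝ) * y ≤ n ^ 2 * y := mul_le_mul_of_nonneg_right hnn hy0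
    have a2 : (n : ℝ) ^ 2 * y ^ 2 ≤ n ^ 2 * y := mul_le_mul_of_nonneg_left hy2 (by positivity)
    have a3 : y ^ 2 ≤ n ^ 2 * y := by nlinarith
    nlinarith
  have h10 := mul_le_mul_of_nonneg_right h9 hQ0.le
  nlinarith

/-- The exact volume of the fine bins. -/
lemma fine_volume {s t u base R : ℝ} {L M F : ℕ} (hs : s + t = R)
    (hMu : (M : ℝ) * u = t) (hLu : (L : ℝ) * u + base = s)
    (hF : F + L ^ n + (2 * M) ^ n = (L + M) ^ n + M ^ n) :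
    (F : ℝ) * u ^ n = (R - base) ^ n + t ^ n - (s - base) ^ n - (2 * t) ^ n := by
  have hF' : (F : ℝ) + (L : ℝ) ^ n + (2 * (M : ℝ)) ^ n = ((L : ℝ) + M) ^ n + (M : ℝ) ^ n := by
    exact_mod_cast hF
  have e1 : ((L : ℝ) + M) * u = R - base := by linarith
  have e2 : (L : ℝ) * u = s - base := by linarith
  have e3 : (2 * (M : ℝ)) * u = 2 * t := by linarith
  rw [← e1, ← e2, ← e3, ← hMu, mul_pow, mul_pow, mul_pow, mul_pow]
  have : (F : ℝ) = ((L : ℝ) + M) ^ n + (M : ℝ) ^ n - (L : ℝ) ^ n - (2 * (M : ℝ)) ^ n := by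
    linarith
  rw [this]
  ring

lemma fine_per (h0 : 0 < n) {R y u F W : ℝ} (hR : 0 < R) (hy0 : 0 < y) (hu1 : y * R ≤ u)
    (hF0 : 0 ≤ F) (hW : F * u ^ n = W) (hWle : W ≤ R ^ n) :
    F * u ^ (n - 1) * y ≤ R ^ (n - 1) := by
  have hQ : R ^ n = R ^ (n - 1) * R := by
    rw [← pow_succ]
    congr 1
    omega
  have hun : u ^ n = u ^ (n - 1) * u := by
    rw [← pow_succ]
    congr 1
    omega
  have hu0 : 0 < u := lt_of_lt_of_le (by positivity) hu1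
  have hPer0 : 0 ≤ F * u ^ (n - 1) := by positivity
  have h1 : F * u ^ (n - 1) * u ≤ R ^ (n - 1) * R := by
    rw [← hQ, mul_assoc, ← hun, hW]
    exact hWle
  have h2 : F * u ^ (n - 1) * (y * R) ≤ F * u ^ (n - 1) * u :=
    mul_le_mul_of_nonneg_left hu1 hPer0
  have h3 : (F * u ^ (n - 1) * y) * R ≤ R ^ (n - 1) * R := by
    calc (F * u ^ (n - 1) * y) * R = F * u ^ (n - 1) * (y * R) := by ring
      _ ≤ _ := h2.trans h1
  exact le_of_mul_le_mul_right h3 hR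

lemma fine_main (h0 : 0 < n) {R s t y u base F : ℝ} (hR : 0 < R) (hy0 : 0 < y)
    (hs : s + t = R) (ht : 0 < t) (hb0 : 0 ≤ base) (hbu : base ≤ u) (hu2 : u ≤ 2 * y * R)
    (hb_s : base ≤ s)
    (hW : F * u ^ n = (R - base) ^ n + t ^ n - (s - base) ^ n - (2 * t) ^ n) :
    R ^ n - 2 * n * y * (R * R ^ (n - 1)) ≤ s ^ n + ((2 ^ n : ℕ) - 1 : ℝ) * t ^ n + F * u ^ n := by
  have hRp : 0 < R ^ (n - 1) := by positivity
  have hR0 : 0 ≤ R - base := by linarith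
  have h1 : R ^ n - (R - base) ^ n ≤ n * (R - (R - base)) * R ^ (n - 1) :=
    pow_sub_pow_le hR0 (by linarith) n
  have h2 : R - (R - base) = base := by ring
  rw [h2] at h1
  have h3 : n * base * R ^ (n - 1) ≤ n * (2 * y * R) * R ^ (n - 1) := by
    apply mul_le_mul_of_nonneg_right _ hRp.le
    apply mul_le_mul_of_nonneg_left (hbu.trans hu2)
    positivity
  have h4 : (s - base) ^ n ≤ s ^ n := pow_le_pow_left₀ (by linarith) (by linarith) _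
  have h5 : (2 * t) ^ n = ((2 ^ n : ℕ) : ℝ) * t ^ n := by
    rw [mul_pow]; push_cast; ring
  rw [hW, h5]
  have h6 : n * (2 * y * R) * R ^ (n - 1) = 2 * n * y * (R * R ^ (n - 1)) := by ring
  rw [h6] at h3
  have h7 : ((((2 ^ n : ℕ) : ℝ) - 1) * t ^ n) = ((2 ^ n : ℕ) : ℝ) * t ^ n - t ^ n := by ring
  rw [h7]
  linarith

lemma fine_coeff (h0 : 0 < n) {y : ℝ} (hy0 : 0 < y) (hy1 : y ≤ 1 / 9) :
    2 * (n : ℝ) * y + 3 * n ^ 2 * y ^ 2 + 2 * y ^ 2 + n ^ 2 * y + y ≤ 9 * n ^ 2 * y := by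
  have hn1 : (1 : ℝ) ≤ n := by exact_mod_cast h0
  have hy2 : y ^ 2 ≤ y := by nlinarith
  have hnn : (n : ℝ) ≤ n ^ 2 := by nlinarith
  have hnn1 : (1 : ℝ) ≤ n ^ 2 := by nlinarith
  have a1 : (n : ℝ) * y ≤ n ^ 2 * y := mul_le_mul_of_nonneg_right hnn hy0.le
  have a2 : (n : ℝ) ^ 2 * y ^ 2 ≤ n ^ 2 * y := mul_le_mul_of_nonneg_left hy2 (by positivity)
  have a3 : y ^ 2 ≤ n ^ 2 * y := by nlinarith
  have a4 : y ≤ n ^ 2 * y := by nlinarith
  nlinarith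

/-- The numerical bound when there are fine bins. -/
lemma num_fine (h0 : 0 < n) {x R s t y u base : ℝ} {L M F : ℕ} (hR : 0 < R) (hy0 : 0 < y)
    (hy1 : y ≤ 1 / 9) (hxy : x = y ^ 2 * R) (hs : s + t = R) (hts : t ≤ s) (ht : 0 < t)
    (hMu : (M : ℝ) * u = t) (hLu : (L : ℝ) * u + base = s) (hb0 : 0 ≤ base) (hbu : base ≤ u)
    (hu1 : y * R ≤ u) (hu2 : u ≤ 2 * y * R)
    (hF : F + L ^ n + (2 * M) ^ n = (L + M) ^ n + M ^ n) :
    (1 - 9 * n ^ 2 * y) * R ^ n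
      ≤ binCap n x s + ((2 ^ n : ℕ) - 1 : ℝ) * binCap n x t + (F : ℝ) * binCap n x u
        - (((2 ^ n : ℕ) : ℝ) + F) * x ^ n := by
  have hx : 0 ≤ x := by rw [hxy]; positivity
  have h2x : 2 * x ≤ R := by
    rw [hxy]
    nlinarith [mul_pos hR hR]
  have hbase := num_base h0 hx h2x hs hts ht
  have hRp : 0 < R ^ (n - 1) := by positivity
  have hu0 : 0 < u := lt_of_lt_of_le (by positivity) hu1
  have hQ : R ^ n = R * R ^ (n - 1) := by
    rw [← pow_succ']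
    congr 1
    omega
  have hW := fine_volume hs hMu hLu hF
  have hb_s : base ≤ s := by
    have : 0 ≤ (L : ℝ) * u := by positivity
    linarith
  have hb_R : base ≤ R := by linarith
  have hR0 : 0 ≤ R - base := by linarith
  have h2t : t ^ n ≤ (2 * t) ^ n := pow_le_pow_left₀ ht.le (by linarith) _
  have hsb : 0 ≤ (s - base) ^ n := pow_nonneg (by linarith) _
  have hRb : (R - base) ^ n ≤ R ^ n := pow_le_pow_left₀ hR0 (by linarith) _
  have hWle : (F : ℝ) * u ^ n ≤ R ^ n := by rw [hW]; linarith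
  have hF0 : (0 : ℝ) ≤ F := Nat.cast_nonneg _
  have hPer1 := fine_per h0 hR hy0 hu1 hF0 rfl hWle
  set Per := (F : ℝ) * u ^ (n - 1) with hPer
  have hPer0 : 0 ≤ Per := by positivity
  -- loss in the fine bins
  have hcap := binCap_ge h0 hx hu0.le
  have hFcap : (F : ℝ) * u ^ n - n ^ 2 * x * Per ≤ (F : ℝ) * binCap n x u := by
    have h1 := mul_le_mul_of_nonneg_left hcap hF0
    have e : (F : ℝ) * (u ^ n - n ^ 2 * x * u ^ (n - 1)) = (F : ℝ) * u ^ n - n ^ 2 * x * Per := by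
      rw [hPer]; ring
    rw [e] at h1
    exact h1
  have hxu : x ≤ u := by
    have : y ^ 2 * R ≤ y * R := by nlinarith [mul_pos hy0 hR]
    rw [hxy]
    linarith
  have hFx : (F : ℝ) * x ^ n ≤ x * Per := by
    have hx1 : x ^ n = x * x ^ (n - 1) := by
      rw [← pow_succ']
      congr 1
      omega
    have h2 : x ^ (n - 1) ≤ u ^ (n - 1) := pow_le_pow_left₀ hx hxu _
    have h3 : x * x ^ (n - 1) ≤ x * u ^ (n - 1) := mul_le_mul_of_nonneg_left h2 hx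
    have h4 := mul_le_mul_of_nonneg_left h3 hF0
    rw [hx1, hPer]
    calc (F : ℝ) * (x * x ^ (n - 1)) ≤ (F : ℝ) * (x * u ^ (n - 1)) := h4
      _ = x * ((F : ℝ) * u ^ (n - 1)) := by ring
  have hxPer : x * Per ≤ y * (R * R ^ (n - 1)) := by
    have e : x * Per = y * R * (Per * y) := by rw [hxy]; ring
    rw [e]
    have h3 : y * R * (Per * y) ≤ y * R * R ^ (n - 1) :=
      mul_le_mul_of_nonneg_left hPer1 (by positivity)
    calc y * R * (Per * y) ≤ y * R * R ^ (n - 1) := h3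
      _ = y * (R * R ^ (n - 1)) := by ring
  have hmain := fine_main h0 hR hy0 hs ht hb0 hbu hu2 hb_s hW
  -- combine
  have h6 : 3 * (n : ℝ) ^ 2 * x * R ^ (n - 1) = 3 * n ^ 2 * y ^ 2 * (R * R ^ (n - 1)) := by
    rw [hxy]; ring
  have h7 : 2 * x * R ^ (n - 1) = 2 * y ^ 2 * (R * R ^ (n - 1)) := by
    rw [hxy]; ring
  rw [h6, h7] at hbase
  have h8 : (n : ℝ) ^ 2 * x * Per ≤ n ^ 2 * (y * (R * R ^ (n - 1))) := by
    have h1 := mul_le_mul_of_nonneg_left hxPer (show (0 : ℝ) ≤ n ^ 2 by positivity)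
    calc (n : ℝ) ^ 2 * x * Per = (n : ℝ) ^ 2 * (x * Per) := by ring
      _ ≤ _ := h1
  rw [hQ] at hmain ⊢
  set Q := R * R ^ (n - 1) with hQdef
  have hQ0 : 0 < Q := by positivity
  have h10 := mul_le_mul_of_nonneg_right (fine_coeff h0 hy0 hy1) hQ0.le
  have e : (((2 ^ n : ℕ) : ℝ) + F) * x ^ n = ((2 ^ n : ℕ) : ℝ) * x ^ n + (F : ℝ) * x ^ n := by ring
  rw [e]
  have e2 : (2 * (n : ℝ) * y + 3 * n ^ 2 * y ^ 2 + 2 * y ^ 2 + n ^ 2 * y + y) * Q
      = 2 * n * y * Q + 3 * n ^ 2 * y ^ 2 * Q + 2 * y ^ 2 * Q + n ^ 2 * (y * Q) + y * Q := by ring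
  rw [e2] at h10
  have e3 : (1 - 9 * (n : ℝ) ^ 2 * y) * Q = Q - 9 * (n : ℝ) ^ 2 * y * Q := by ring
  rw [e3]
  linarith

end Vale.Agent.Lib.P209
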