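import Vale.Agent.Lib.P209.MainThm

open Real Matrix

namespace Vale.Agent.Lib.P209

variable {n : ℕ}

/-- One ball in the corner, all the others in a layered shell: sorted, non-strict form. -/
theorem one_big_sorted (h0 : 0 < n) {r : ℕ → ℝ} {x R : ℝ} {k : ℕ} (hx : 0 < x) (hR : n * x ≤ R)
    (hpos : ∀ i, i < k → 0 < r i) (hanti : ∀ i j, i ≤ j → j < k → r j ≤ r i)
    (hsmall : ∀ i, 1 ≤ i → i < k → r i ≤ x)
    (hvol : ∑ i ∈ Finset.range k, r i ^ n ≤ (R - n * x) ^ n) :
    Fits n r (Set.Iio k) (openSimplex n R) := by
  rcases Nat.eq_zero_or_pos k with hk | hk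
  · subst hk
    simpa using Fits.empty r _
  have hA : 0 ≤ R - n * x := by linarith
  have hnn : (0 : ℝ) ≤ n := Nat.cast_nonneg _
  have hsplit : ∑ i ∈ Finset.range k, r i ^ n
      = r 0 ^ n + ∑ i ∈ Finset.Ico 1 k, r i ^ n := by
    rw [Finset.range_eq_Ico]
    exact (Finset.sum_eq_sum_Ico_succ_bot hk _)
  have hsum0 : 0 ≤ ∑ i ∈ Finset.Ico 1 k, r i ^ n := by
    apply Finset.sum_nonneg
    intro i hi
    have := hpos i (Finset.mem_Ico.1 hi).2
    positivity
  have hr0 : 0 < r 0 := hpos 0 hk
  have h1 : r 0 ≤ R - n * x :=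
    (pow_le_pow_iff_left₀ hr0.le hA h0.ne').1 (by linarith)
  have hcorner : Fits n r {0} (openSimplex n (r 0)) := Fits.single r 0 le_rfl
  have hlayer : Fits n r (Set.Ico 1 (1 + (k - 1))) (shell n (r 0) R) := by
    rcases Nat.lt_or_ge k 2 with hk2 | hk2
    · have : k - 1 = 0 := by omega
      rw [this]
      simpa using Fits.empty r _
    · apply layered h0 r (r 0) hr0.le (k - 1) 1 R
      · intro i hi hi2
        exact hpos i (by omega)
      · intro i j _ hij hj
        exact hanti i j hij (by omega)
      · have := hsmall 1 le_rfl (by omega)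
        nlinarith
      · have h2 := hsmall 1 le_rfl (by omega)
        have h3 : R - n * x ≤ R - n * r 1 := by nlinarith
        have h4 := pow_le_pow_left₀ hA h3 n
        have he : 1 + (k - 1) = k := by omega
        rw [he]
        linarith
  have hdisj : Disjoint (openSimplex n (r 0)) (shell n (r 0) R) := by
    rw [Set.disjoint_left]
    intro y hy hy'
    have h2 := hy.2
    have h3 := hy'.2
    linarith
  have h2 := Fits.union hcorner hlayer hdisj
  apply h2.mono
  · intro i hi
    have hi' : i < k := hi
    by_cases h3 : i = 0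
    · exact Or.inl h3
    · exact Or.inr ⟨by omega, by omega⟩
  · intro y hy
    rcases hy with hy | hy
    · refine ⟨hy.1, ?_⟩
      have := hy.2
      have hx2 : (0 : ℝ) ≤ n * x := by positivity
      linarith
    · exact hy.1

/-- At most one ball larger than `x`: volume condition with the linear defect `(R - n x) ^ n`. -/
theorem one_big_theorem (h0 : 0 < n) {k : ℕ} (r : Fin k → ℝ) (R x : ℝ) (hx : 0 ≤ x)
    (hpos : ∀ i, 0 < r i)
    (hbig : (Finset.univ.filter fun i => x < r i).card ≤ 1)
    (hR : n * x ≤ R)
    (hvol : ∑ i, r i ^ n < (R - n * x) ^ n) :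
    SymplecticPacking n r R := by
  classical
  have hn1 : (1 : ℝ) ≤ n := by exact_mod_cast h0
  have hcont1 : ∀ᶠ η in nhds (0 : ℝ), ∑ i, (r i + η) ^ n < (R - n * (x + η)) ^ n := by
    apply ContinuousAt.eventually_lt
    · fun_prop
    · fun_prop
    · simpa using hvol
  have hk0 : 0 < k ∨ k = 0 := by omega
  rcases hk0 with hk | hk
  · -- there is at least one ball, so `R - n x > 0`
    have hA : 0 < R - n * x := by
      have h1 : 0 < ∑ i, r i ^ n := by
        apply Finset.sum_pos
        · intro i _
          have := hpos i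
          positivity
        · exact ⟨⟨0, hk⟩, Finset.mem_univ _⟩
      have h2 : 0 < (R - n * x) ^ n := by linarith
      rcases hR.lt_or_eq with h3 | h3
      · linarith
      · rw [← h3, sub_self, zero_pow h0.ne'] at h2
        exact absurd h2 (lt_irrefl _)
    have hcont2 : ∀ᶠ η in nhds (0 : ℝ), 0 < R - n * (x + η) := by
      apply ContinuousAt.eventually_lt
      · fun_prop
      · fun_prop
      · simpa using hA
    obtain ⟨η, ⟨h1, h2⟩, hη⟩ := ((hcont1.and hcont2).filter_mono nhdsWithin_le_nhds
      |>.and self_mem_nhdsWithin : ∀ᶠ η in nhdsWithin (0 : ℝ) (Set.Ioi 0), _ ∧ η ∈ Set.Ioi 0).exists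
    have hη0 : 0 < η := hη
    obtain ⟨σ, s, hs, hanti⟩ := exists_sorted r
    apply SymplecticPacking.of_perm σ
    have hfits : Fits n (fun i => s i + η) (Set.Iio k) (openSimplex n R) := by
      apply one_big_sorted h0 (x := x + η) (by linarith) (by linarith)
      · intro i hi
        have := hs ⟨i, hi⟩
        simp only at this
        rw [this]
        have := hpos (σ ⟨i, hi⟩)
        linarith
      · intro i j hij hj
        have := hanti i j hij hj
        linarith
      · intro i hi hi2
        have := sorted_small (x := x) hs hanti i hi2 (hbig.trans hi)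
        linarith
      · have e : ∑ i ∈ Finset.range k, (s i + η) ^ n = ∑ i, (r i + η) ^ n := by
          rw [Finset.sum_range]
          rw [← Equiv.sum_comp σ (fun i => (r i + η) ^ n)]
          apply Finset.sum_congr rfl
          intro i _
          rw [hs i]
        rw [e]
        exact h1.le
    refine packing_of_fits hfits _ ?_ ?_
    · intro i
      simp only [Function.comp]
      rw [hs i]
      linarith
    · intro i
      exact hpos _
  · subst hk
    exact ⟨fun i => i.elim0, fun i => i.elim0, fun i => i.elim0, fun i => i.elim0⟩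

end Vale.Agent.Lib.P209
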