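import Mathlib

open Real Complex
open scoped ContDiff

namespace Vale.Agent.Lib.P209

/-- The area form on `ℂ`. -/
def om (v w : ℂ) : ℝ := v.re * w.im - v.im * w.re

/-- The area form on `ℝ × ℝ`. -/
def omStd (v w : ℝ × ℝ) : ℝ := v.1 * w.2 - v.2 * w.1

lemma om_mul (c p q : ℂ) : om (c * p) (c * q) = Complex.normSq c * om p q := by
  simp only [om, Complex.mul_re, Complex.mul_im, Complex.normSq_apply]; ring

/-- Area-angle polar coordinates on `ℂ`. -/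
noncomputable def polar1 (y : ℝ × ℝ) : ℂ :=
  ((√(y.1 / π) : ℝ) : ℂ) * cexp ((y.2 : ℂ) * I)

lemma polar1_hasFDerivAt (y : ℝ × ℝ) (hy : 0 < y.1) :
    ∃ L : ℝ × ℝ →L[ℝ] ℂ, HasFDerivAt polar1 L y ∧
      ∀ v : ℝ × ℝ, L v = cexp ((y.2 : ℂ) * I) *
        (((v.1 / (2 * π * √(y.1 / π)) : ℝ) : ℂ) + ((√(y.1 / π) * v.2 : ℝ) : ℂ) * I) := by
  have hpi : 0 < π := Real.pi_pos
  have hq : 0 < y.1 / π := div_pos hy hpi
  have hrho : 0 < √(y.1 / π) := Real.sqrt_pos.2 hq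
  -- the radial factor
  have h1 : HasFDerivAt (fun p : ℝ × ℝ => p.1 / π)
      ((1 / π) • (ContinuousLinearMap.fst ℝ ℝ ℝ)) y := by
    have := (ContinuousLinearMap.fst ℝ ℝ ℝ).hasFDerivAt (x := y)
    have h2 := this.const_mul (1 / π)
    refine h2.congr_of_eventuallyEq ?_
    filter_upwards with p
    simp [div_eq_inv_mul]
  have h2 : HasFDerivAt (fun p : ℝ × ℝ => √(p.1 / π))
      ((1 / (2 * √(y.1 / π))) • ((1 / π) • (ContinuousLinearMap.fst ℝ ℝ ℝ))) y := by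
    exact (h1.sqrt hq.ne')
  have h3 : HasFDerivAt (fun p : ℝ × ℝ => ((√(p.1 / π) : ℝ) : ℂ))
      (Complex.ofRealCLM.comp
        ((1 / (2 * √(y.1 / π))) • ((1 / π) • (ContinuousLinearMap.fst ℝ ℝ ℝ)))) y :=
    Complex.ofRealCLM.hasFDerivAt.comp y h2
  -- the angular factor
  have h4 : HasFDerivAt (fun p : ℝ × ℝ => ((p.2 : ℝ) : ℂ) * I)
      (((ContinuousLinearMap.mul ℝ ℂ).flip I).comp
        (Complex.ofRealCLM.comp (ContinuousLinearMap.snd ℝ ℝ ℝ))) y := by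
    have h5 : HasFDerivAt (fun p : ℝ × ℝ => ((p.2 : ℝ) : ℂ))
      (Complex.ofRealCLM.comp (ContinuousLinearMap.snd ℝ ℝ ℝ)) y :=
      Complex.ofRealCLM.hasFDerivAt.comp y (ContinuousLinearMap.snd ℝ ℝ ℝ).hasFDerivAt
    exact ((ContinuousLinearMap.mul ℝ ℂ).flip I).hasFDerivAt.comp y h5
  have h6 : HasFDerivAt (fun p : ℝ × ℝ => cexp (((p.2 : ℝ) : ℂ) * I))
      (cexp (((y.2 : ℝ) : ℂ) * I) • (((ContinuousLinearMap.mul ℝ ℂ).flip I).comp
        (Complex.ofRealCLM.comp (ContinuousLinearMap.snd ℝ ℝ ℝ)))) y :=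
    h4.cexp
  have h7 := h3.mul h6
  refine ⟨_, h7, fun v => ?_⟩
  simp only [add_apply, smul_apply,
    ContinuousLinearMap.comp_apply, Complex.ofRealCLM_apply, ContinuousLinearMap.coe_fst',
    ContinuousLinearMap.coe_snd', ContinuousLinearMap.flip_apply, ContinuousLinearMap.mul_apply',
    smul_eq_mul, Complex.ofReal_mul]
  have e : ((v.1 / (2 * π * √(y.1 / π)) : ℝ) : ℂ)
      = ((1 / (2 * √(y.1 / π)) : ℝ) : ℂ) * (((1 / π : ℝ) : ℂ) * (v.1 : ℂ)) := by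
    rw [← Complex.ofReal_mul, ← Complex.ofReal_mul]
    congr 1
    field_simp
  rw [e]
  ring

/-- The derivative of `polar1` scales the area form by `1 / (2π)`. -/
lemma polar1_om (y : ℝ × ℝ) (hy : 0 < y.1) (L : ℝ × ℝ →L[ℝ] ℂ)
    (hL : ∀ v : ℝ × ℝ, L v = cexp ((y.2 : ℂ) * I) *
        (((v.1 / (2 * π * √(y.1 / π)) : ℝ) : ℂ) + ((√(y.1 / π) * v.2 : ℝ) : ℂ) * I))
    (v w : ℝ × ℝ) : om (L v) (L w) = (1 / (2 * π)) * omStd v w := by
  have hpi : 0 < π := Real.pi_pos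
  have hq : 0 < y.1 / π := div_pos hy hpi
  have hrho : 0 < √(y.1 / π) := Real.sqrt_pos.2 hq
  rw [hL, hL, om_mul]
  have hn : Complex.normSq (cexp ((y.2 : ℂ) * I)) = 1 := by
    rw [Complex.normSq_eq_norm_sq, Complex.norm_exp_ofReal_mul_I]; norm_num
  rw [hn, one_mul]
  simp only [om, omStd, Complex.add_re, Complex.add_im, Complex.ofReal_re, Complex.ofReal_im,
    Complex.mul_re, Complex.mul_im, Complex.I_re, Complex.I_im]
  field_simp
  ring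

/-- The derivative of `polar1` is onto. -/
lemma polar1_surj (y : ℝ × ℝ) (hy : 0 < y.1) (L : ℝ × ℝ →L[ℝ] ℂ)
    (hL : ∀ v : ℝ × ℝ, L v = cexp ((y.2 : ℂ) * I) *
        (((v.1 / (2 * π * √(y.1 / π)) : ℝ) : ℂ) + ((√(y.1 / π) * v.2 : ℝ) : ℂ) * I))
    (c : ℂ) : ∃ v, L v = c := by
  have hpi : 0 < π := Real.pi_pos
  have hq : 0 < y.1 / π := div_pos hy hpi
  have hrho : 0 < √(y.1 / π) := Real.sqrt_pos.2 hq
  set e := cexp ((y.2 : ℂ) * I) with he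
  have hene : e ≠ 0 := Complex.exp_ne_zero _
  set d := e⁻¹ * c with hd
  refine ⟨(d.re * (2 * π * √(y.1 / π)), d.im / √(y.1 / π)), ?_⟩
  rw [hL]
  have h1 : ((d.re * (2 * π * √(y.1 / π)) / (2 * π * √(y.1 / π)) : ℝ) : ℂ) = (d.re : ℂ) := by
    congr 1; field_simp
  have h2 : ((√(y.1 / π) * (d.im / √(y.1 / π)) : ℝ) : ℂ) = (d.im : ℂ) := by
    congr 1; field_simp
  simp only [h1, h2, Complex.re_add_im]
  rw [hd]; field_simp

/-- Abstract chart lemma: a map conjugated through a chart to a form-preserving map preserves the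
form. -/
lemma chart_transfer {E F : Type*} [NormedAddCommGroup E] [NormedSpace ℝ E]
    [NormedAddCommGroup F] [NormedSpace ℝ F]
    (omE : E → E → ℝ) (omF : F → F → ℝ) (κ : ℝ)
    (P : E → F) (T : F → F) (Tt : E → E) (y : E)
    (L L' : E →L[ℝ] F) (DT : F →L[ℝ] F) (DTt : E →L[ℝ] E)
    (hP : HasFDerivAt P L y) (hP' : HasFDerivAt P L' (Tt y))
    (hT : HasFDerivAt T DT (P y)) (hTt : HasFDerivAt Tt DTt y)
    (hconj : (fun p => T (P p)) =ᶠ[nhds y] fun p => P (Tt p))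
    (hL' : ∀ v w, omF (L' v) (L' w) = κ * omE v w)
    (hL : ∀ v w, omF (L v) (L w) = κ * omE v w)
    (hTtom : ∀ v w, omE (DTt v) (DTt w) = omE v w)
    (hsurj : ∀ c, ∃ v, L v = c) (v w : F) :
    omF (DT v) (DT w) = omF v w := by
  obtain ⟨v', rfl⟩ := hsurj v
  obtain ⟨w', rfl⟩ := hsurj w
  have h1 : HasFDerivAt (fun p => T (P p)) (DT.comp L) y := hT.comp y hP
  have h2 : HasFDerivAt (fun p => P (Tt p)) (L'.comp DTt) y := hP'.comp y hTt
  have h3 : HasFDerivAt (fun p => T (P p)) (L'.comp DTt) y := h2.congr_of_eventuallyEq hconj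
  have h4 : DT.comp L = L'.comp DTt := h1.unique h3
  have h5 : ∀ u, DT (L u) = L' (DTt u) := fun u => by
    have := congrArg (fun A : E →L[ℝ] F => A u) h4
    simpa using this
  rw [h5, h5, hL', hL, hTtom]

/-- Shears of the plane preserve the standard area form. -/
lemma shear1_hasFDerivAt (f : ℝ → ℝ) (f' : ℝ) (p : ℝ × ℝ) (hf : HasDerivAt f f' p.2) :
    ∃ L : ℝ × ℝ →L[ℝ] ℝ × ℝ, HasFDerivAt (fun q : ℝ × ℝ => (q.1 + f q.2, q.2)) L p ∧
      ∀ v w, omStd (L v) (L w) = omStd v w := by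
  have h1 : HasFDerivAt (fun q : ℝ × ℝ => f q.2)
      ((ContinuousLinearMap.toSpanSingleton ℝ f').comp (ContinuousLinearMap.snd ℝ ℝ ℝ)) p := by
    exact hf.hasFDerivAt.comp p (ContinuousLinearMap.snd ℝ ℝ ℝ).hasFDerivAt
  have h2 := ((ContinuousLinearMap.fst ℝ ℝ ℝ).hasFDerivAt (x := p)).add h1
  have h3 := h2.prodMk ((ContinuousLinearMap.snd ℝ ℝ ℝ).hasFDerivAt (x := p))
  refine ⟨_, h3, fun v w => ?_⟩
  simp [omStd]
  ring

lemma shear2_hasFDerivAt (f : ℝ → ℝ) (f' : ℝ) (p : ℝ × ℝ) (hf : HasDerivAt f f' p.1) :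
    ∃ L : ℝ × ℝ →L[ℝ] ℝ × ℝ, HasFDerivAt (fun q : ℝ × ℝ => (q.1, q.2 + f q.1)) L p ∧
      ∀ v w, omStd (L v) (L w) = omStd v w := by
  have h1 : HasFDerivAt (fun q : ℝ × ℝ => f q.1)
      ((ContinuousLinearMap.toSpanSingleton ℝ f').comp (ContinuousLinearMap.fst ℝ ℝ ℝ)) p := by
    exact hf.hasFDerivAt.comp p (ContinuousLinearMap.fst ℝ ℝ ℝ).hasFDerivAt
  have h2 := ((ContinuousLinearMap.snd ℝ ℝ ℝ).hasFDerivAt (x := p)).add h1
  have h3 := ((ContinuousLinearMap.fst ℝ ℝ ℝ).hasFDerivAt (x := p)).prodMk h2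
  refine ⟨_, h3, fun v w => ?_⟩
  simp [omStd]
  ring

end Vale.Agent.Lib.P209
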