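import Vale.Agent.Lib.P209.MainM

open Real Matrix

namespace Vale.Agent.Lib.P209

variable {n : ℕ}

/-- Sub-families of packed families are packed. -/
lemma SymplecticPacking.restrict {k k' : ℕ} {r : Fin k' → ℝ} {R : ℝ} (ι : Fin k → Fin k')
    (hι : Function.Injective ι) (h : SymplecticPacking n r R) :
    SymplecticPacking n (r ∘ ι) R := by
  obtain ⟨f, h1, h2, h3⟩ := h
  exact ⟨fun i => f (ι i), fun i => h1 (ι i), fun i z hz => h2 (ι i) z hz,
    fun i j hij z w hz hw => h3 _ _ (fun he => hij (hι he)) z w hz hw⟩

/-- At most `(m + 1) ^ n` balls: packing under `r i + m r j < R`. -/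
theorem packing_of_lines (h0 : 0 < n) {k : ℕ} (m : ℕ) (hm : 1 ≤ m) (hk : k ≤ (m + 1) ^ n)
    (r : Fin k → ℝ) (R : ℝ) (hpos : ∀ i, 0 < r i) (hlt : ∀ i, r i < R)
    (hij : ∀ i j, i ≠ j → r i + m * r j < R) : SymplecticPacking n r R := by
  classical
  rcases Nat.eq_zero_or_pos k with hk0 | hk0
  · subst hk0
    exact ⟨fun i => i.elim0, fun i => i.elim0, fun i => i.elim0, fun i => i.elim0⟩
  obtain ⟨σ, s, hs, hanti⟩ := exists_sorted r
  apply SymplecticPacking.of_perm σ
  have hmR : (0 : ℝ) < m := by exact_mod_cast hm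
  have hs0 : s 0 = r (σ ⟨0, hk0⟩) := hs ⟨0, hk0⟩
  have hs0R : s 0 < R := by rw [hs0]; exact hlt _
  have hsi : ∀ i, i < k → 0 < s i := by
    intro i hi
    have := hs ⟨i, hi⟩
    simp only at this
    rw [this]
    exact hpos _
  set ε := min (s (k - 1)) ((R - s 0) / (2 * m)) with hε
  have hε0 : 0 < ε := lt_min (hsi _ (by omega)) (div_pos (by linarith) (by linarith))
  have hε1 : ε ≤ s (k - 1) := min_le_left _ _
  have hε2 : ε ≤ (R - s 0) / (2 * m) := min_le_right _ _
  let s' : ℕ → ℝ := fun i => if i < k then s i else ε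
  have hs'0 : s' 0 = s 0 := if_pos hk0
  have hanti' : ∀ i j, i ≤ j → j < (m + 1) ^ n → s' j ≤ s' i := by
    intro i j hij' _
    by_cases hj : j < k
    · have hi : i < k := by omega
      simp only [s', if_pos hj, if_pos hi]
      exact hanti i j hij' hj
    · by_cases hi : i < k
      · simp only [s', if_neg hj, if_pos hi]
        exact hε1.trans (hanti i (k - 1) (by omega) (by omega))
      · simp only [s', if_neg hj, if_neg hi]
        exact le_rfl
  have hpos' : ∀ i, i < (m + 1) ^ n → 0 < s' i := by
    intro i _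
    by_cases hi : i < k
    · simp only [s', if_pos hi]
      exact hsi i hi
    · simp only [s', if_neg hi]
      exact hε0
  have hone : s' 0 + m * s' 1 < R := by
    rw [hs'0]
    by_cases h1 : 1 < k
    · have e1 : s' 1 = s 1 := if_pos h1
      rw [e1]
      have e2 := hs ⟨1, h1⟩
      simp only at e2
      rw [hs0, e2]
      apply hij
      intro he
      have := σ.injective he
      simp [Fin.ext_iff] at this
    · have e1 : s' 1 = ε := if_neg h1
      rw [e1]
      have h2 : m * ε ≤ (R - s 0) / 2 := by
        have h3 := mul_le_mul_of_nonneg_left hε2 hmR.le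
        have h4 : (m : ℝ) * ((R - s 0) / (2 * m)) = (R - s 0) / 2 := by
          field_simp
        linarith
      linarith
  have hgrid : SymplecticPacking n (fun i : Fin ((m + 1) ^ n) => s' i) R := by
    apply grid_criterion h0 ((m + 1) ^ n) (m + 1) s' R hpos' hanti' le_rfl
    · intro j hj
      exact Nat.pow_lt_pow_left hj h0.ne'
    · rw [Finset.sum_range_succ']
      have hle : ∑ j ∈ Finset.range m, s' ((j + 1) ^ n) ≤ m * s' 1 := by
        have h1 : ∀ j ∈ Finset.range m, s' ((j + 1) ^ n) ≤ s' 1 := by
          intro j hj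
          have hj' := Finset.mem_range.1 hj
          apply hanti' 1 _
          · exact Nat.one_le_pow _ _ (by omega)
          · exact Nat.pow_lt_pow_left (by omega) h0.ne'
        have h2 := Finset.sum_le_card_nsmul _ _ _ h1
        simpa using h2
      simp only [zero_add, zero_pow h0.ne'] at *
      linarith
  have hres := hgrid.restrict (Fin.castLE hk) (Fin.castLE_injective hk)
  have key : (r ∘ σ) = (fun i : Fin ((m + 1) ^ n) => s' i) ∘ Fin.castLE hk := by
    funext i
    simp only [Function.comp, Fin.val_castLE, s', if_pos i.isLt]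
    exact (hs i).symm
  rw [key]
  exact hres

/-- Main theorem, general `m`: volume condition with defect when at most `(m + 1) ^ n` balls exceed
`x` and the largest ball plus `m` times the second largest is smaller than `R`. -/
theorem main_theorem_m (h0 : 0 < n) {k : ℕ} (m : ℕ) (hm : 1 ≤ m) (r : Fin k → ℝ) (R x : ℝ)
    (hR : 0 < R) (hx : 0 ≤ x)
    (hpos : ∀ i, 0 < r i) (hlt : ∀ i, r i < R) (hij : ∀ i j, i ≠ j → r i + m * r j < R)
    (hbig : (Finset.univ.filter fun i => x < r i).card ≤ (m + 1) ^ n)
    (hvol : ∑ i, r i ^ n ≤ (1 - 10 * (n : ℝ) ^ 2 * √(x / R)) * R ^ n) :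
    SymplecticPacking n r R := by
  classical
  rcases hx.eq_or_lt with hx0 | hx0
  · -- no small balls
    subst hx0
    have hk : k ≤ (m + 1) ^ n := by
      have : (Finset.univ.filter fun i => (0 : ℝ) < r i) = Finset.univ :=
        Finset.filter_true_of_mem fun i _ => hpos i
      rw [this] at hbig
      simpa using hbig
    exact packing_of_lines h0 m hm hk r R hpos hlt hij
  -- small perturbation
  have hy0 : 0 < √(x / R) := Real.sqrt_pos.2 (div_pos hx0 hR)
  have hRn : 0 < R ^ n := by positivity
  have hn1 : (1 : ℝ) ≤ n := by exact_mod_cast h0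
  have hgap : ∑ i, r i ^ n < (1 - 9 * n ^ 2 * √(x / R)) * R ^ n := by
    have h1 : (1 - 10 * (n : ℝ) ^ 2 * √(x / R)) * R ^ n < (1 - 9 * n ^ 2 * √(x / R)) * R ^ n := by
      apply mul_lt_mul_of_pos_right _ hRn
      have : 0 < (n : ℝ) ^ 2 * √(x / R) := by positivity
      linarith
    linarith
  have ev1 : ∀ᶠ η in nhds (0 : ℝ), ∑ i, (r i + η) ^ n
      < (1 - 9 * (n : ℝ) ^ 2 * √((x + η) / R)) * R ^ n := by
    apply ContinuousAt.eventually_lt
    · fun_prop
    · fun_prop
    · simpa using hgap
  have ev2 : ∀ᶠ η in nhds (0 : ℝ), ∀ i, r i + η < R := by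
    apply Filter.eventually_all.2
    intro i
    apply ContinuousAt.eventually_lt
    · fun_prop
    · fun_prop
    · simpa using hlt i
  have ev3 : ∀ᶠ η in nhds (0 : ℝ), ∀ i j, i ≠ j → (r i + η) + m * (r j + η) < R := by
    apply Filter.eventually_all.2
    intro i
    apply Filter.eventually_all.2
    intro j
    by_cases he : i = j
    · exact Filter.Eventually.of_forall fun _ h => absurd he h
    · have : ∀ᶠ η in nhds (0 : ℝ), (r i + η) + m * (r j + η) < R := by
        apply ContinuousAt.eventually_lt
        · fun_prop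
        · fun_prop
        · simpa using hij i j he
      exact this.mono fun _ h _ => h
  obtain ⟨η, ⟨h1, h2, h3⟩, hη⟩ := ((ev1.and (ev2.and ev3)).filter_mono nhdsWithin_le_nhds
    |>.and self_mem_nhdsWithin : ∀ᶠ η in nhdsWithin (0 : ℝ) (Set.Ioi 0), _ ∧ η ∈ Set.Ioi 0).exists
  have hη0 : 0 < η := hη
  obtain ⟨σ, s, hs, hanti⟩ := exists_sorted r
  apply SymplecticPacking.of_perm σ
  set K := (Finset.univ.filter fun i => x < r i).card with hKdef
  have hKk : K ≤ k := by
    simpa using Finset.card_filter_le (Finset.univ : Finset (Fin k)) (fun i => x < r i)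
  have hfits : Fits n (fun i => s i + η) (Set.Iio k) (openSimplex n R) := by
    apply main_sorted_m h0 (x := x + η) (K := K) m hm hR (by linarith) hbig hKk
    · intro i hi
      have := hs ⟨i, hi⟩
      simp only at this
      rw [this]
      have := hpos (σ ⟨i, hi⟩)
      linarith
    · intro i j hij hj
      have := hanti i j hij hj
      linarith
    · intro i hi hi2
      have := sorted_small hs hanti i hi2 (by rw [← hKdef]; exact hi)
      linarith
    · intro hk
      have := hs ⟨0, hk⟩
      simp only at this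
      rw [this]
      exact h2 _
    · intro hk
      have e0 := hs ⟨0, by omega⟩
      have e1 := hs ⟨1, hk⟩
      simp only at e0 e1
      rw [e0, e1]
      apply h3
      intro he
      have := σ.injective he
      simp [Fin.ext_iff] at this
    · have e : ∑ i ∈ Finset.range k, (s i + η) ^ n = ∑ i, (r i + η) ^ n := by
        rw [Finset.sum_range]
        rw [← Equiv.sum_comp σ (fun i => (r i + η) ^ n)]
        apply Finset.sum_congr rfl
        intro i _
        rw [hs i]
      rw [e]
      exact h1.le
  refine packing_of_fits hfits _ ?_ ?_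
  · intro i
    simp only [Function.comp]
    rw [hs i]
    linarith
  · intro i
    exact hpos _

end Vale.Agent.Lib.P209
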