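import Vale.Agent.Lib.P209.Defs
import Vale.Agent.Lib.P209.Finger

open Real Complex Matrix
open scoped ContDiff

namespace Vale.Agent.Lib.P209

variable {n : ℕ}

/-- The moment map of the standard torus action on `ℂⁿ`. -/
noncomputable def mom (w : Fin n → ℂ) : Fin n → ℝ := fun l => π * ‖w l‖ ^ 2

lemma cap_eq_sum_mom (w : Fin n → ℂ) : cap w = ∑ l, mom w l := by
  simp [cap, mom, Finset.mul_sum]

/-- An integral affine transformation of `ℝⁿ`, with the inverse transpose of its linear part. -/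
structure Cell (n : ℕ) where
  A : Matrix (Fin n) (Fin n) ℤ
  B : Matrix (Fin n) (Fin n) ℤ
  b : Fin n → ℝ
  AB : A.transpose * B = 1

/-- The action of a cell on `ℝⁿ`. -/
noncomputable def Cell.act (c : Cell n) (x : Fin n → ℝ) : Fin n → ℝ :=
  (c.A.map (Int.cast : ℤ → ℝ)) *ᵥ x + c.b

/-- The toric lift of a cell. -/
noncomputable def torusMap (c : Cell n) (w : Fin n → ℂ) : Fin n → ℂ := fun j =>
  ((√(c.act (mom w) j / π) : ℝ) : ℂ) * ∏ l, (w l / ((‖w l‖ : ℝ) : ℂ)) ^ (c.B j l)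

lemma Cell.AB_real (c : Cell n) :
    (c.A.map (Int.cast : ℤ → ℝ)).transpose * (c.B.map (Int.cast : ℤ → ℝ)) = 1 := by
  ext i j
  have h := congrFun (congrFun c.AB i) j
  simp only [Matrix.mul_apply, Matrix.transpose_apply] at h
  simp only [Matrix.mul_apply, Matrix.transpose_apply, Matrix.map_apply]
  have h2 := congrArg (Int.cast : ℤ → ℝ) h
  push_cast at h2
  rw [h2]
  simp [Matrix.one_apply]

lemma Cell.BA_real (c : Cell n) :
    (c.B.map (Int.cast : ℤ → ℝ)).transpose * (c.A.map (Int.cast : ℤ → ℝ)) = 1 := by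
  have h := congrArg Matrix.transpose c.AB_real
  simpa [Matrix.transpose_mul] using h

/-- Zero powers of smooth non-vanishing functions. -/
lemma contDiffAt_zpow_aux {E : Type*} [NormedAddCommGroup E] [NormedSpace ℝ E] {f : E → ℂ} {x : E}
    (hf : ContDiffAt ℝ ∞ f x) (h0 : f x ≠ 0) (k : ℤ) :
    ContDiffAt ℝ ∞ (fun y => f y ^ k) x := by
  cases k with
  | ofNat m => simpa using hf.pow m
  | negSucc m =>
    have h1 : f x ^ (m + 1) ≠ 0 := pow_ne_zero _ h0
    have : ContDiffAt ℝ ∞ (fun y => (f y ^ (m + 1))⁻¹) x := (hf.pow (m + 1)).inv h1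
    simpa only [zpow_negSucc] using this

lemma contDiffAt_mom_comp (l : Fin n) (w : Fin n → ℂ) :
    ContDiffAt ℝ ∞ (fun w : Fin n → ℂ => mom w l) w := by
  unfold mom
  have h1 : ContDiffAt ℝ ∞ (fun w : Fin n → ℂ => w l) w := contDiffAt_apply _ _ _ _ 
  exact contDiffAt_const.mul (h1.norm_sq ℝ)

lemma contDiffAt_act (c : Cell n) (j : Fin n) (w : Fin n → ℂ) :
    ContDiffAt ℝ ∞ (fun w : Fin n → ℂ => c.act (mom w) j) w := by
  unfold Cell.act
  simp only [Pi.add_apply, Matrix.mulVec, dotProduct]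
  apply ContDiffAt.add _ contDiffAt_const
  apply ContDiffAt.sum
  intro l _
  exact contDiffAt_const.mul (contDiffAt_mom_comp l w)

/-- The domain of the toric lift. -/
def torusDom (c : Cell n) : Set (Fin n → ℂ) :=
  {w | (∀ l, w l ≠ 0) ∧ ∀ j, 0 < c.act (mom w) j}

lemma torusMap_contDiffAt (c : Cell n) (w : Fin n → ℂ) (hw : w ∈ torusDom c) :
    ContDiffAt ℝ ∞ (torusMap c) w := by
  apply contDiffAt_pi.2
  intro j
  unfold torusMap
  have h1 : ContDiffAt ℝ ∞ (fun w : Fin n → ℂ => c.act (mom w) j / π) w :=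
    (contDiffAt_act c j w).div contDiffAt_const Real.pi_pos.ne'
  have h2 := h1.sqrt (div_pos (hw.2 j) Real.pi_pos).ne'
  have h3 : ContDiffAt ℝ ∞ (fun w : Fin n → ℂ => ((√(c.act (mom w) j / π) : ℝ) : ℂ)) w :=
    Complex.ofRealCLM.contDiff.contDiffAt.comp w h2
  apply h3.mul
  apply contDiffAt_prod
  intro l _
  have h4 : ContDiffAt ℝ ∞ (fun w : Fin n → ℂ => w l) w := contDiffAt_apply _ _ _ _ 
  have h5 : ContDiffAt ℝ ∞ (fun w : Fin n → ℂ => w l / ((‖w l‖ : ℝ) : ℂ)) w :=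
    ContDiffAt.comp (g := fun z : ℂ => z / ((‖z‖ : ℝ) : ℂ)) (f := fun w : Fin n → ℂ => w l) w
      (contDiffAt_unit _ (hw.1 l)) h4
  refine contDiffAt_zpow_aux h5 ?_ _
  have hnorm := norm_pos_iff.2 (hw.1 l)
  have : ((‖w l‖ : ℝ) : ℂ) ≠ 0 := by exact_mod_cast hnorm.ne'
  exact div_ne_zero (hw.1 l) this

lemma isOpen_torusDom (c : Cell n) : IsOpen (torusDom c) := by
  have hcont : ∀ j, Continuous (fun w : Fin n → ℂ => c.act (mom w) j) := by
    intro j
    rw [continuous_iff_continuousAt]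
    intro w
    exact (contDiffAt_act c j w).continuousAt
  have : torusDom c = (⋂ l, {w : Fin n → ℂ | w l ≠ 0}) ∩ ⋂ j, {w | 0 < c.act (mom w) j} := by
    ext w; simp [torusDom]
  rw [this]
  apply IsOpen.inter
  · apply isOpen_iInter_of_finite
    intro l
    exact isOpen_ne_fun (continuous_apply l) continuous_const
  · apply isOpen_iInter_of_finite
    intro j
    exact isOpen_lt continuous_const (hcont j)

/-- The n-fold polar chart. -/
noncomputable def chartN (y : (Fin n → ℝ) × (Fin n → ℝ)) : Fin n → ℂ :=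
  fun j => polar1 (y.1 j, y.2 j)

/-- The standard form on the chart domain. -/
def omE (v w : (Fin n → ℝ) × (Fin n → ℝ)) : ℝ :=
  ∑ j, (v.1 j * w.2 j - v.2 j * w.1 j)

lemma omega_eq_sum_om (v w : Fin n → ℂ) : omega v w = ∑ j, om (v j) (w j) := rfl

lemma chartN_hasFDerivAt (y : (Fin n → ℝ) × (Fin n → ℝ)) (hy : ∀ j, 0 < y.1 j) :
    ∃ L : ((Fin n → ℝ) × (Fin n → ℝ)) →L[ℝ] (Fin n → ℂ), HasFDerivAt chartN L y ∧
      (∀ v w, omega (L v) (L w) = (1 / (2 * π)) * omE v w) ∧ ∀ c, ∃ v, L v = c := by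
  classical
  have hj : ∀ j, ∃ Lj : ℝ × ℝ →L[ℝ] ℂ, HasFDerivAt polar1 Lj (y.1 j, y.2 j) ∧
      ∀ v : ℝ × ℝ, Lj v = cexp (((y.1 j, y.2 j).2 : ℂ) * I) *
        (((v.1 / (2 * π * √((y.1 j, y.2 j).1 / π)) : ℝ) : ℂ) +
          ((√((y.1 j, y.2 j).1 / π) * v.2 : ℝ) : ℂ) * I) :=
    fun j => polar1_hasFDerivAt (y.1 j, y.2 j) (hy j)
  choose Lj hLj hform using hj
  -- projection to the j-th pair of coordinates
  let pj : Fin n → ((Fin n → ℝ) × (Fin n → ℝ)) →L[ℝ] ℝ × ℝ := fun j =>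
    ((ContinuousLinearMap.proj j).comp (ContinuousLinearMap.fst ℝ _ _)).prod
      ((ContinuousLinearMap.proj j).comp (ContinuousLinearMap.snd ℝ _ _))
  let L : ((Fin n → ℝ) × (Fin n → ℝ)) →L[ℝ] (Fin n → ℂ) :=
    ContinuousLinearMap.pi fun j => (Lj j).comp (pj j)
  refine ⟨L, ?_, ?_, ?_⟩
  · apply hasFDerivAt_pi.2
    intro j
    have h : HasFDerivAt (fun p : (Fin n → ℝ) × (Fin n → ℝ) => (p.1 j, p.2 j)) (pj j) y :=
      (pj j).hasFDerivAt
    exact HasFDerivAt.comp (g := polar1) (f := fun p : (Fin n → ℝ) × (Fin n → ℝ) => (p.1 j, p.2 j))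
      y (hLj j) h
  · intro v w
    rw [omega_eq_sum_om, omE, Finset.mul_sum]
    apply Finset.sum_congr rfl
    intro j _
    exact polar1_om (y.1 j, y.2 j) (hy j) (Lj j) (hform j) (v.1 j, v.2 j) (w.1 j, w.2 j)
  · intro c
    have hs : ∀ j, ∃ v : ℝ × ℝ, Lj j v = c j :=
      fun j => polar1_surj (y.1 j, y.2 j) (hy j) (Lj j) (hform j) (c j)
    choose v hv using hs
    refine ⟨(fun j => (v j).1, fun j => (v j).2), ?_⟩
    funext j
    simpa [L, pj] using hv j

/-- The chart maps onto the points with nonzero coordinates. -/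
lemma exists_chartN (w : Fin n → ℂ) (hw : ∀ l, w l ≠ 0) :
    ∃ y : (Fin n → ℝ) × (Fin n → ℝ), (∀ j, 0 < y.1 j) ∧ chartN y = w := by
  have h := fun l => exists_polar (w l) (hw l)
  choose y hy1 hy2 using h
  refine ⟨(fun l => (y l).1, fun l => (y l).2), hy1, ?_⟩
  funext l
  exact hy2 l

lemma mom_chartN (y : (Fin n → ℝ) × (Fin n → ℝ)) (hy : ∀ j, 0 < y.1 j) : mom (chartN y) = y.1 := by
  funext l
  exact polar1_cap (y.1 l, y.2 l) (hy l)

lemma prod_zpow_exp (θ : Fin n → ℝ) (k : Fin n → ℤ) :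
    ∏ l, (cexp ((θ l : ℂ) * I)) ^ (k l) = cexp (((∑ l, (k l : ℝ) * θ l : ℝ) : ℂ) * I) := by
  rw [Complex.ofReal_sum, Finset.sum_mul, Complex.exp_sum]
  apply Finset.prod_congr rfl
  intro l _
  rw [← Complex.exp_int_mul]
  congr 1
  push_cast
  ring

/-- The affine map in the chart. -/
noncomputable def torusT (c : Cell n) (y : (Fin n → ℝ) × (Fin n → ℝ)) :
    (Fin n → ℝ) × (Fin n → ℝ) :=
  (c.act y.1, (c.B.map (Int.cast : ℤ → ℝ)) *ᵥ y.2)

lemma torusMap_chartN (c : Cell n) (y : (Fin n → ℝ) × (Fin n → ℝ)) (hy : ∀ j, 0 < y.1 j) :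
    torusMap c (chartN y) = chartN (torusT c y) := by
  funext j
  show ((√(c.act (mom (chartN y)) j / π) : ℝ) : ℂ) *
      ∏ l, (chartN y l / ((‖chartN y l‖ : ℝ) : ℂ)) ^ (c.B j l)
    = polar1 ((torusT c y).1 j, (torusT c y).2 j)
  rw [mom_chartN y hy]
  have h : ∀ l, chartN y l / ((‖chartN y l‖ : ℝ) : ℂ)
      = cexp ((y.2 l : ℂ) * I) := fun l => polar1_unit (y.1 l, y.2 l) (hy l)
  simp only [h]
  rw [prod_zpow_exp]
  rfl

lemma torusT_hasFDerivAt (c : Cell n) (y : (Fin n → ℝ) × (Fin n → ℝ)) :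
    ∃ L : ((Fin n → ℝ) × (Fin n → ℝ)) →L[ℝ] ((Fin n → ℝ) × (Fin n → ℝ)),
      HasFDerivAt (torusT c) L y ∧ ∀ v w, omE (L v) (L w) = omE v w := by
  let LA : (Fin n → ℝ) →L[ℝ] (Fin n → ℝ) :=
    LinearMap.toContinuousLinearMap (Matrix.mulVecLin (c.A.map (Int.cast : ℤ → ℝ)))
  let LB : (Fin n → ℝ) →L[ℝ] (Fin n → ℝ) :=
    LinearMap.toContinuousLinearMap (Matrix.mulVecLin (c.B.map (Int.cast : ℤ → ℝ)))
  refine ⟨LA.prodMap LB, ?_, ?_⟩
  · have h := (LA.prodMap LB).hasFDerivAt (x := y)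
    have h2 := h.add_const ((c.b, 0) : (Fin n → ℝ) × (Fin n → ℝ))
    refine h2.congr_of_eventuallyEq ?_
    filter_upwards with p
    ext j
    · simp [torusT, Cell.act, LA, add_comm]
    · simp [torusT, LB]
  · intro v w
    have key : ∀ a a' : Fin n → ℝ,
        ((c.A.map (Int.cast : ℤ → ℝ)) *ᵥ a) ⬝ᵥ ((c.B.map (Int.cast : ℤ → ℝ)) *ᵥ a') = a ⬝ᵥ a' := by
      intro a a'
      rw [Matrix.dotProduct_mulVec, ← Matrix.mulVec_transpose, Matrix.mulVec_mulVec, c.BA_real,
        Matrix.one_mulVec]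
    have h1 : omE ((LA.prodMap LB) v) ((LA.prodMap LB) w)
        = ((c.A.map (Int.cast : ℤ → ℝ)) *ᵥ v.1) ⬝ᵥ ((c.B.map (Int.cast : ℤ → ℝ)) *ᵥ w.2)
          - ((c.A.map (Int.cast : ℤ → ℝ)) *ᵥ w.1) ⬝ᵥ ((c.B.map (Int.cast : ℤ → ℝ)) *ᵥ v.2) := by
      simp only [omE, dotProduct, ← Finset.sum_sub_distrib]
      apply Finset.sum_congr rfl
      intro j _
      simp [LA, LB]
      ring
    rw [h1, key, key]
    simp only [omE, dotProduct, ← Finset.sum_sub_distrib]
    apply Finset.sum_congr rfl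
    intro j _
    ring

/-- The toric lift preserves the symplectic form. -/
lemma torusMap_symp (c : Cell n) (w : Fin n → ℂ) (hw : w ∈ torusDom c) (v v' : Fin n → ℂ) :
    omega (fderiv ℝ (torusMap c) w v) (fderiv ℝ (torusMap c) w v') = omega v v' := by
  obtain ⟨y, hy, rfl⟩ := exists_chartN w hw.1
  have hdiff : HasFDerivAt (torusMap c) (fderiv ℝ (torusMap c) (chartN y)) (chartN y) :=
    ((torusMap_contDiffAt c _ hw).differentiableAt (by simp)).hasFDerivAt
  obtain ⟨L, hL, hLom, hLs⟩ := chartN_hasFDerivAt y hy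
  have hy' : ∀ j, 0 < (torusT c y).1 j := by
    intro j
    have := hw.2 j
    rwa [mom_chartN y hy] at this
  obtain ⟨L', hL', hLom', _⟩ := chartN_hasFDerivAt (torusT c y) hy'
  obtain ⟨DT, hDT, hDTom⟩ := torusT_hasFDerivAt c y
  refine chart_transfer omE omega (1 / (2 * π)) chartN (torusMap c) (torusT c) y L L' _ DT
    hL hL' hdiff hDT ?_ hLom' hLom hDTom hLs v v'
  have hopen : ∀ᶠ p : (Fin n → ℝ) × (Fin n → ℝ) in nhds y, ∀ j, 0 < p.1 j := by
    rw [Filter.eventually_all]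
    intro j
    have hc : Continuous (fun p : (Fin n → ℝ) × (Fin n → ℝ) => p.1 j) :=
      (continuous_apply j).comp continuous_fst
    exact hc.continuousAt.eventually (lt_mem_nhds (hy j))
  filter_upwards [hopen] with p hp
  exact torusMap_chartN c p hp

lemma mom_torusMap (c : Cell n) (w : Fin n → ℂ) (hw : w ∈ torusDom c) :
    mom (torusMap c w) = c.act (mom w) := by
  obtain ⟨y, hy, rfl⟩ := exists_chartN w hw.1
  have hy' : ∀ j, 0 < (torusT c y).1 j := by
    intro j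
    have := hw.2 j
    rwa [mom_chartN y hy] at this
  rw [torusMap_chartN c y hy, mom_chartN _ hy', mom_chartN y hy]
  rfl

lemma act_injective (c : Cell n) {x x' : Fin n → ℝ} (h : c.act x = c.act x') : x = x' := by
  have h1 : (c.A.map (Int.cast : ℤ → ℝ)) *ᵥ x = (c.A.map (Int.cast : ℤ → ℝ)) *ᵥ x' :=
    add_right_cancel h
  have h2 := congrArg (fun u => (c.B.map (Int.cast : ℤ → ℝ)).transpose *ᵥ u) h1
  simpa only [Matrix.mulVec_mulVec, c.BA_real, Matrix.one_mulVec] using h2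

lemma chartN_inj_aux (y y' : (Fin n → ℝ) × (Fin n → ℝ)) (hy : ∀ j, 0 < y.1 j)
    (h1 : y.1 = y'.1) (h2 : ∀ j, cexp ((y.2 j : ℂ) * I) = cexp ((y'.2 j : ℂ) * I)) :
    chartN y = chartN y' := by
  funext j
  simp only [chartN, polar1]
  rw [h1, h2]

/-- The toric lift is injective on its domain. -/
lemma torusMap_injOn (c : Cell n) : Set.InjOn (torusMap c) (torusDom c) := by
  intro w hw w' hw' h
  obtain ⟨y, hy, rfl⟩ := exists_chartN w hw.1
  obtain ⟨y', hy', rfl⟩ := exists_chartN w' hw'.1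
  have hz : ∀ j, 0 < (torusT c y).1 j := by
    intro j
    have := hw.2 j
    rwa [mom_chartN y hy] at this
  have hz' : ∀ j, 0 < (torusT c y').1 j := by
    intro j
    have := hw'.2 j
    rwa [mom_chartN y' hy'] at this
  rw [torusMap_chartN c y hy, torusMap_chartN c y' hy'] at h
  have hmom := congrArg mom h
  rw [mom_chartN _ hz, mom_chartN _ hz'] at hmom
  have hx : y.1 = y'.1 := act_injective c hmom
  apply chartN_inj_aux y y' hy hx
  -- the angular parts
  have hang : ∀ j, cexp (((torusT c y).2 j : ℂ) * I) = cexp (((torusT c y').2 j : ℂ) * I) := by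
    intro j
    have h1 := congrFun h j
    have h2 : chartN (torusT c y) j / ((‖chartN (torusT c y) j‖ : ℝ) : ℂ)
        = cexp (((torusT c y).2 j : ℂ) * I) := polar1_unit ((torusT c y).1 j, (torusT c y).2 j) (hz j)
    have h3 : chartN (torusT c y') j / ((‖chartN (torusT c y') j‖ : ℝ) : ℂ)
        = cexp (((torusT c y').2 j : ℂ) * I) :=
      polar1_unit ((torusT c y').1 j, (torusT c y').2 j) (hz' j)
    rw [← h2, ← h3, h1]
  intro m
  have key : ∀ θ : Fin n → ℝ, θ m = ∑ j, ((c.A j m : ℤ) : ℝ) *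
      ((c.B.map (Int.cast : ℤ → ℝ)) *ᵥ θ) j := by
    intro θ
    have h1 := congrFun (congrArg (fun M => M *ᵥ θ) c.AB_real) m
    simp only [← Matrix.mulVec_mulVec, Matrix.one_mulVec] at h1
    rw [← h1]
    rfl
  rw [key y.2, key y'.2, ← prod_zpow_exp, ← prod_zpow_exp]
  apply Finset.prod_congr rfl
  intro j _
  have := hang j
  simp only [torusT] at this
  rw [this]

/-- Injective smooth maps preserving `omega` on an open set are embeddings. -/
lemma embedding_of_symp {f : (Fin n → ℂ) → (Fin n → ℂ)} {U : Set (Fin n → ℂ)} (hU : IsOpen U)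
    (hsm : ContDiffOn ℝ ∞ f U) (hinj : Set.InjOn f U)
    (hsymp : ∀ z ∈ U, ∀ v w, omega (fderiv ℝ f z v) (fderiv ℝ f z w) = omega v w) :
    Topology.IsEmbedding (U.restrict f) := by
  have hnd : ∀ z ∈ U, HasStrictFDerivAt f (fderiv ℝ f z) z ∧
      LinearMap.range (fderiv ℝ f z : (Fin n → ℂ) →ₗ[ℝ] (Fin n → ℂ)) = ⊤ := by
    intro z hz
    have hat : ContDiffAt ℝ ∞ f z := hsm.contDiffAt (hU.mem_nhds hz)
    refine ⟨hat.hasStrictFDerivAt (by simp), ?_⟩
    have hker : Function.Injective ((fderiv ℝ f z : (Fin n → ℂ) →ₗ[ℝ] (Fin n → ℂ))) := by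
      rw [injective_iff_map_eq_zero]
      intro v hv
      have h0 : fderiv ℝ f z v = 0 := hv
      have h1 := hsymp z hz v (fun j => I * v j)
      rw [h0] at h1
      have h2 : omega (0 : Fin n → ℂ) (fderiv ℝ f z (fun j => I * v j)) = 0 := by
        simp [omega]
      rw [h2] at h1
      have h3 : omega v (fun j => I * v j) = ∑ j, ‖v j‖ ^ 2 := by
        apply Finset.sum_congr rfl
        intro j _
        rw [← Complex.normSq_eq_norm_sq, Complex.normSq_apply]
        simp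
      rw [h3] at h1
      funext j
      have h4 : ‖v j‖ ^ 2 = 0 := by
        have h5 := (Finset.sum_eq_zero_iff_of_nonneg (fun j _ => by positivity)).1 h1.symm
        exact h5 j (Finset.mem_univ j)
      simpa using h4
    exact LinearMap.range_eq_top.2 (LinearMap.injective_iff_surjective.1 hker)
  have hopen : IsOpenMap (U.restrict f) := by
    apply IsOpenMap.of_nhds_le
    rintro ⟨z, hz⟩
    have h1 := (hnd z hz).1.map_nhds_eq_of_surj (hnd z hz).2
    have h2 : Filter.map (Subtype.val : U → (Fin n → ℂ)) (nhds (⟨z, hz⟩ : U)) = nhds z :=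
      map_nhds_subtype_coe_eq_nhds hz (hU.mem_nhds hz)
    have h3 : Filter.map (U.restrict f) (nhds (⟨z, hz⟩ : U)) = Filter.map f (nhds z) := by
      rw [← h2, Filter.map_map]
      rfl
    rw [h3, h1]
    rfl
  have hcont : Continuous (U.restrict f) := continuousOn_iff_continuous_restrict.1 hsm.continuousOn
  exact (Topology.IsOpenEmbedding.of_continuous_injective_isOpenMap hcont
    (Set.injOn_iff_injective.1 hinj) hopen).isEmbedding

/-- The open standard simplex of size `t` in `ℝⁿ`. -/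
def openSimplex (n : ℕ) (t : ℝ) : Set (Fin n → ℝ) := {x | (∀ j, 0 < x j) ∧ ∑ j, x j < t}

/-- Product of the plane map. -/
lemma prodMap_hasFDerivAt (ψ : ℂ → ℂ) (hsm : ContDiff ℝ ∞ ψ)
    (hsymp : ∀ z v w, om (fderiv ℝ ψ z v) (fderiv ℝ ψ z w) = om v w) (z : Fin n → ℂ) :
    ∃ L : (Fin n → ℂ) →L[ℝ] (Fin n → ℂ), HasFDerivAt (fun (z : Fin n → ℂ) j => ψ (z j)) L z ∧
      ∀ v w, omega (L v) (L w) = omega v w := by
  have hd : ∀ x, HasFDerivAt ψ (fderiv ℝ ψ x) x :=
    fun x => ((hsm.differentiable (by simp)) x).hasFDerivAt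
  let L : (Fin n → ℂ) →L[ℝ] (Fin n → ℂ) :=
    ContinuousLinearMap.pi fun j => (fderiv ℝ ψ (z j)).comp (ContinuousLinearMap.proj j)
  refine ⟨L, ?_, ?_⟩
  · apply hasFDerivAt_pi.2
    intro j
    have h : HasFDerivAt (fun z : Fin n → ℂ => z j) (ContinuousLinearMap.proj (R := ℝ) (φ := fun _ : Fin n => ℂ) j) z :=
      (ContinuousLinearMap.proj (R := ℝ) (φ := fun _ : Fin n => ℂ) j).hasFDerivAt
    exact HasFDerivAt.comp (g := ψ) (f := fun z : Fin n → ℂ => z j) z (hd (z j)) h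
  · intro v w
    rw [omega_eq_sum_om, omega_eq_sum_om]
    apply Finset.sum_congr rfl
    intro j _
    exact hsymp (z j) (v j) (w j)

lemma mom_le_cap (z : Fin n → ℂ) (j : Fin n) : mom z j ≤ cap z := by
  rw [cap_eq_sum_mom]
  exact Finset.single_le_sum (f := mom z) (fun l _ => by
    have := Real.pi_pos
    simp only [mom]
    positivity) (Finset.mem_univ j)

/-- Traynor's trick: a closed ball of capacity less than `t` embeds symplectically with moment image
in the image of the open simplex of size `t` under an integral affine map. -/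
theorem toric_embedding (c : Cell n) (t r : ℝ) (ht : 0 < t) (hr : r < t)
    (hc : ∀ x ∈ openSimplex n t, ∀ j, 0 < c.act x j) :
    ∃ f : (Fin n → ℂ) → (Fin n → ℂ), IsSymplecticBallEmbedding r f ∧
      ∀ z, cap z ≤ r → ∃ x ∈ openSimplex n t, mom (f z) = c.act x := by
  have hn1 : (0 : ℝ) < (n : ℝ) + 1 := by positivity
  have hε : 0 < (t - r) / ((n : ℝ) + 1) := div_pos (by linarith) hn1
  obtain ⟨ψ, hsm, hinj, hsymp, hest⟩ := exists_finger t ((t - r) / ((n : ℝ) + 1)) ht hε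
  let Ψ : (Fin n → ℂ) → (Fin n → ℂ) := fun z j => ψ (z j)
  have hΨsm : ContDiff ℝ ∞ Ψ := contDiff_pi.2 fun j => hsm.comp (contDiff_apply ℝ ℂ j)
  have hΨcont : Continuous Ψ := hΨsm.continuous
  let U : Set (Fin n → ℂ) := {z | (∀ j, Ψ z j ≠ 0) ∧ ∑ j, mom (Ψ z) j < t}
  have hUopen : IsOpen U := by
    have h1 : U = (⋂ j, {z : Fin n → ℂ | Ψ z j ≠ 0}) ∩ {z | ∑ j, mom (Ψ z) j < t} := by
      ext z; simp [U]
    rw [h1]
    apply IsOpen.inter
    · apply isOpen_iInter_of_finite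
      intro j
      exact isOpen_ne_fun ((continuous_apply j).comp hΨcont) continuous_const
    · apply isOpen_lt _ continuous_const
      apply continuous_finsetSum
      intro j _
      have h2 : Continuous (fun z : Fin n → ℂ => Ψ z j) := (continuous_apply j).comp hΨcont
      simp only [mom]
      exact continuous_const.mul (h2.norm.pow 2)
  have hUsimp : ∀ z ∈ U, mom (Ψ z) ∈ openSimplex n t := by
    intro z hz
    refine ⟨fun j => ?_, hz.2⟩
    have := norm_pos_iff.2 (hz.1 j)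
    have hpi := Real.pi_pos
    simp only [mom]
    positivity
  have hUdom : ∀ z ∈ U, Ψ z ∈ torusDom c := fun z hz => ⟨hz.1, hc _ (hUsimp z hz)⟩
  have hball : {z : Fin n → ℂ | cap z ≤ r} ⊆ U := by
    intro z hz
    have hzr : cap z ≤ r := hz
    have hj : ∀ j, π * ‖z j‖ ^ 2 ≤ t := fun j => by
      have := mom_le_cap z j
      simp only [mom] at this
      linarith
    refine ⟨fun j => (hest (z j) (hj j)).1, ?_⟩
    have h1 : ∑ j, mom (Ψ z) j ≤ ∑ j, (mom z j + (t - r) / ((n : ℝ) + 1)) :=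
      Finset.sum_le_sum fun j _ => (hest (z j) (hj j)).2
    rw [Finset.sum_add_distrib, Finset.sum_const, Finset.card_univ,
      Fintype.card_fin, nsmul_eq_mul] at h1
    have h3 := cap_eq_sum_mom z
    have h2 : (n : ℝ) * ((t - r) / ((n : ℝ) + 1)) < t - r := by
      rw [mul_div_assoc', div_lt_iff₀ hn1]
      have : 0 < t - r := by linarith
      nlinarith
    linarith
  let f : (Fin n → ℂ) → (Fin n → ℂ) := fun z => torusMap c (Ψ z)
  have hfsm : ContDiffOn ℝ ∞ f U := by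
    intro z hz
    apply ContDiffAt.contDiffWithinAt
    exact ContDiffAt.comp (g := torusMap c) (f := Ψ) z
      (torusMap_contDiffAt c _ (hUdom z hz)) hΨsm.contDiffAt
  have hfinj : Set.InjOn f U := by
    intro z hz z' hz' h
    have h1 : Ψ z = Ψ z' := torusMap_injOn c (hUdom z hz) (hUdom z' hz') h
    funext j
    exact hinj (congrFun h1 j)
  have hfsymp : ∀ z ∈ U, ∀ v w, omega (fderiv ℝ f z v) (fderiv ℝ f z w) = omega v w := by
    intro z hz v w
    obtain ⟨L, hL, hLom⟩ := prodMap_hasFDerivAt ψ hsm hsymp z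
    have hT : HasFDerivAt (torusMap c) (fderiv ℝ (torusMap c) (Ψ z)) (Ψ z) :=
      ((torusMap_contDiffAt c _ (hUdom z hz)).differentiableAt (by simp)).hasFDerivAt
    have hcomp : HasFDerivAt f ((fderiv ℝ (torusMap c) (Ψ z)).comp L) z :=
      HasFDerivAt.comp (g := torusMap c) (f := Ψ) z hT hL
    rw [hcomp.fderiv]
    simp only [ContinuousLinearMap.comp_apply]
    rw [torusMap_symp c _ (hUdom z hz), hLom]
  refine ⟨f, ⟨U, hUopen, hball, hfsm, embedding_of_symp hUopen hfsm hfinj hfsymp, hfsymp⟩, ?_⟩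
  intro z hz
  have hzU := hball hz
  exact ⟨mom (Ψ z), hUsimp z hzU, mom_torusMap c _ (hUdom z hzU)⟩

/-- Disjoint integral affine cells inside the open simplex of size `R` give a symplectic packing. -/
theorem packing_of_cells {k : ℕ} (c : Fin k → Cell n) (t r : Fin k → ℝ) (R : ℝ)
    (ht : ∀ i, 0 < t i) (hr : ∀ i, r i < t i)
    (hpos : ∀ i, ∀ x ∈ openSimplex n (t i), ∀ j, 0 < (c i).act x j)
    (hin : ∀ i, ∀ x ∈ openSimplex n (t i), ∑ j, (c i).act x j < R)
    (hdis : ∀ i j, i ≠ j → ∀ x ∈ openSimplex n (t i), ∀ x' ∈ openSimplex n (t j),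
      (c i).act x ≠ (c j).act x') :
    SymplecticPacking n r R := by
  have h := fun i => toric_embedding (c i) (t i) (r i) (ht i) (hr i) (hpos i)
  choose f hf hfm using h
  refine ⟨f, hf, ?_, ?_⟩
  · intro i z hz
    obtain ⟨x, hx, hm⟩ := hfm i z hz
    rw [cap_eq_sum_mom, hm]
    exact hin i x hx
  · intro i j hij z w hz hw he
    obtain ⟨x, hx, hm⟩ := hfm i z hz
    obtain ⟨x', hx', hm'⟩ := hfm j w hw
    apply hdis i j hij x hx x' hx'
    rw [← hm, ← hm', he]

end Vale.Agent.Lib.P209
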