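import Vale.Agent.Lib.P209.Grid

open Real Matrix

namespace Vale.Agent.Lib.P209

variable {n : ℕ}

/-- Symplectic packings are invariant under relabelling of the balls. -/
lemma SymplecticPacking.of_perm {k : ℕ} {r : Fin k → ℝ} {R : ℝ} (σ : Equiv.Perm (Fin k))
    (h : SymplecticPacking n (r ∘ σ) R) : SymplecticPacking n r R := by
  obtain ⟨f, h1, h2, h3⟩ := h
  refine ⟨fun i => f (σ.symm i), ?_, ?_, ?_⟩
  · intro i
    have := h1 (σ.symm i)
    simpa using this
  · intro i z hz
    exact h2 (σ.symm i) z (by simpa using hz)
  · intro i j hij z w hz hw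
    refine h3 _ _ (fun he => hij (σ.symm.injective he)) z w (by simpa using hz) (by simpa using hw)

/-- Sort capacities decreasingly and extend to all natural numbers. -/
lemma exists_sorted {k : ℕ} (r : Fin k → ℝ) :
    ∃ (σ : Equiv.Perm (Fin k)) (s : ℕ → ℝ), (∀ i : Fin k, s i = r (σ i)) ∧
      (∀ i j, i ≤ j → j < k → s j ≤ s i) := by
  let σ := Tuple.sort (fun i => - r i)
  have hmono : Monotone ((fun i => - r i) ∘ σ) := Tuple.monotone_sort _
  refine ⟨σ, fun j => if h : j < k then r (σ ⟨j, h⟩) else 0, ?_, ?_⟩
  · intro i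
    simp [i.isLt]
  · intro i j hij hj
    have hi : i < k := lt_of_le_of_lt hij hj
    simp only [dif_pos hi, dif_pos hj]
    have := hmono (show (⟨i, hi⟩ : Fin k) ≤ ⟨j, hj⟩ from hij)
    simpa using this

/-- Packing criterion for at most `2 ^ n` balls: only the two-ball condition is required. -/
theorem packing_le_two_pow (h0 : 0 < n) {k : ℕ} (hk : k ≤ 2 ^ n) (r : Fin k → ℝ) (R : ℝ)
    (hpos : ∀ i, 0 < r i) (hR : ∀ i, r i < R) (hij : ∀ i j, i ≠ j → r i + r j < R) :
    SymplecticPacking n r R := by
  obtain ⟨σ, s, hs, hanti⟩ := exists_sorted r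
  apply SymplecticPacking.of_perm σ
  have hpos' : ∀ i, i < k → 0 < s i := fun i hi => by
    have := hs ⟨i, hi⟩
    simp only at this
    rw [this]
    exact hpos _
  have key : (r ∘ σ) = fun i : Fin k => s i := by
    funext i
    exact (hs i).symm
  rw [key]
  rcases Nat.lt_or_ge k 2 with hk2 | hk2
  · interval_cases k
    · exact ⟨fun i => i.elim0, fun i => i.elim0, fun i => i.elim0, fun i => i.elim0⟩
    · refine grid_criterion h0 1 1 s R hpos' hanti (by simp) ?_ ?_
      · intro j hj
        have : j = 0 := by omega
        subst this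
        simp [h0.ne']
      · simp only [Finset.sum_range_one]
        rw [zero_pow h0.ne']
        have := hs ⟨0, Nat.one_pos⟩
        simp only at this
        rw [this]
        exact hR _
  · refine grid_criterion h0 k 2 s R hpos' hanti hk ?_ ?_
    · intro j hj
      interval_cases j
      · simp only [zero_pow h0.ne']; omega
      · simp only [one_pow]; omega
    · rw [Finset.sum_range_succ, Finset.sum_range_one, zero_pow h0.ne', one_pow]
      have h1 := hs ⟨0, by omega⟩
      have h2 := hs ⟨1, by omega⟩
      simp only at h1 h2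
      rw [h1, h2]
      apply hij
      intro he
      have := σ.injective he
      simp [Fin.ext_iff] at this

end Vale.Agent.Lib.P209
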